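import Vale.Agent.P022D.Rep.Ser

/-!
P022D, block REP: the Bruhat data of the quotients of `GL₂(K)` by groups of scalars.
-/

set_option linter.all false

noncomputable section

namespace Vale.Agent.P022D.Rep

open Classical Matrix

variable {K : Type} [Field K]

/-- the unipotent matrix -/
def uG (x : K) : GL (Fin 2) K :=
  ⟨!![1, x; 0, 1], !![1, -x; 0, 1],
    by ext i j; fin_cases i <;> fin_cases j <;> simp [Matrix.mul_apply, Fin.sum_univ_two],
    by ext i j; fin_cases i <;> fin_cases j <;> simp [Matrix.mul_apply, Fin.sum_univ_two]⟩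

/-- the diagonal matrix -/
def tG (a d : Kˣ) : GL (Fin 2) K :=
  ⟨!![(a : K), 0; 0, (d : K)], !![((a⁻¹ : Kˣ) : K), 0; 0, ((d⁻¹ : Kˣ) : K)],
    by ext i j; fin_cases i <;> fin_cases j <;> simp [Matrix.mul_apply, Fin.sum_univ_two],
    by ext i j; fin_cases i <;> fin_cases j <;> simp [Matrix.mul_apply, Fin.sum_univ_two]⟩

/-- the Weyl element -/
def wG (K : Type) [Field K] : GL (Fin 2) K :=
  ⟨!![0, 1; 1, 0], !![0, 1; 1, 0],
    by ext i j; fin_cases i <;> fin_cases j <;> simp [Matrix.mul_apply, Fin.sum_univ_two],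
    by ext i j; fin_cases i <;> fin_cases j <;> simp [Matrix.mul_apply, Fin.sum_univ_two]⟩

theorem uG_coe (x : K) : (uG x : Matrix (Fin 2) (Fin 2) K) = !![1, x; 0, 1] := rfl
theorem tG_coe (a d : Kˣ) : (tG a d : Matrix (Fin 2) (Fin 2) K) = !![(a : K), 0; 0, (d : K)] := rfl
theorem wG_coe : (wG K : Matrix (Fin 2) (Fin 2) K) = !![0, 1; 1, 0] := rfl

/-- the anti-involution -/
def thG (g : GL (Fin 2) K) : GL (Fin 2) K :=
  wG K * ⟨(g : Matrix (Fin 2) (Fin 2) K)ᵀ, ((g⁻¹ : GL (Fin 2) K) : Matrix (Fin 2) (Fin 2) K)ᵀ,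
    by rw [← Matrix.transpose_mul, Units.inv_mul, Matrix.transpose_one],
    by rw [← Matrix.transpose_mul, Units.mul_inv, Matrix.transpose_one]⟩ * wG K

theorem thG_coe (g : GL (Fin 2) K) : (thG g : Matrix (Fin 2) (Fin 2) K) =
    !![g 1 1, g 0 1; g 1 0, g 0 0] := by
  have e : (thG g : Matrix (Fin 2) (Fin 2) K) =
    !![0, 1; 1, 0] * (g : Matrix (Fin 2) (Fin 2) K)ᵀ * !![0, 1; 1, 0] := rfl
  rw [e]
  ext i j
  fin_cases i <;> fin_cases j <;>
    simp [Matrix.mul_apply, Fin.sum_univ_two, Matrix.vecMul, dotProduct]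

theorem thG_mul (g h : GL (Fin 2) K) : thG (g * h) = thG h * thG g := by
  apply Units.ext
  rw [Units.val_mul, thG_coe, thG_coe, thG_coe]
  ext i j
  fin_cases i <;> fin_cases j <;> simp [Matrix.mul_apply, Fin.sum_univ_two] <;> ring

theorem thG_u (x : K) : thG (uG x) = uG x := by
  apply Units.ext
  rw [thG_coe]
  rfl

theorem thG_t (a d : Kˣ) : thG (tG a d) = tG d a := by
  apply Units.ext
  rw [thG_coe]
  rfl

theorem thG_w : thG (wG K) = wG K := by
  apply Units.ext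
  rw [thG_coe]
  rfl

theorem uG_add (x y : K) : uG (x + y) = uG x * uG y := by
  apply Units.ext
  rw [Units.val_mul, uG_coe, uG_coe, uG_coe]
  ext i j
  fin_cases i <;> fin_cases j <;> simp [Matrix.mul_apply, Fin.sum_univ_two, add_comm]

theorem tG_mul (a d a' d' : Kˣ) : tG a d * tG a' d' = tG (a * a') (d * d') := by
  apply Units.ext
  rw [Units.val_mul, tG_coe, tG_coe, tG_coe]
  ext i j
  fin_cases i <;> fin_cases j <;> simp [Matrix.mul_apply, Fin.sum_univ_two]

theorem tG_u (a d : Kˣ) (x : K) :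
    tG a d * uG x = uG ((a : K) * x * ((d⁻¹ : Kˣ) : K)) * tG a d := by
  apply Units.ext
  rw [Units.val_mul, Units.val_mul, tG_coe, uG_coe, uG_coe]
  ext i j
  fin_cases i <;> fin_cases j <;> simp [Matrix.mul_apply, Fin.sum_univ_two]

theorem wG_t (a d : Kˣ) : wG K * tG a d = tG d a * wG K := by
  apply Units.ext
  rw [Units.val_mul, Units.val_mul, tG_coe, tG_coe, wG_coe]
  ext i j
  fin_cases i <;> fin_cases j <;> simp [Matrix.mul_apply, Fin.sum_univ_two]

theorem wG_w : wG K * wG K = 1 := Units.ext (wG K).val_inv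

theorem wG_uw (x : Kˣ) : wG K * uG (x : K) * wG K =
    uG ((x⁻¹ : Kˣ) : K) * wG K * (tG x (-x⁻¹) * uG ((x⁻¹ : Kˣ) : K)) := by
  apply Units.ext
  simp only [Units.val_mul, tG_coe, uG_coe, wG_coe]
  ext i j
  fin_cases i <;> fin_cases j <;> simp [Matrix.mul_apply, Fin.sum_univ_two]

theorem bruhatG (g : GL (Fin 2) K) :
    (∃ a d x, g = tG a d * uG x) ∨ (∃ x a d y, g = uG x * tG a d * wG K * uG y) := by
  have hd : (g : Matrix (Fin 2) (Fin 2) K).det ≠ 0 := (Matrix.GeneralLinearGroup.det g).ne_zero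
  rw [Matrix.det_fin_two] at hd
  by_cases hc : (g : Matrix (Fin 2) (Fin 2) K) 1 0 = 0
  · left
    rw [hc, mul_zero, sub_zero] at hd
    have ha := left_ne_zero_of_mul hd
    refine ⟨Units.mk0 _ ha, Units.mk0 _ (right_ne_zero_of_mul hd), g 0 1 / g 0 0, Units.ext ?_⟩
    rw [Units.val_mul, tG_coe, uG_coe]
    ext i j
    fin_cases i <;> fin_cases j <;> simp [Matrix.mul_apply, Fin.sum_univ_two, hc]
    field_simp
  · right
    have ha : -((g : Matrix (Fin 2) (Fin 2) K) 0 0 * g 1 1 - g 0 1 * g 1 0) / g 1 0 ≠ 0 :=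
      div_ne_zero (neg_ne_zero.2 hd) hc
    refine ⟨g 0 0 / g 1 0, Units.mk0 _ ha, Units.mk0 _ hc, g 1 1 / g 1 0, Units.ext ?_⟩
    simp only [Units.val_mul, tG_coe, uG_coe, wG_coe]
    ext i j
    fin_cases i <;> fin_cases j <;> simp [Matrix.mul_apply, Fin.sum_univ_two] <;> field_simp
    ring

/-- the upper triangular matrices -/
def BG (K : Type) [Field K] : Subgroup (GL (Fin 2) K) where
  carrier := {g | (g : Matrix (Fin 2) (Fin 2) K) 1 0 = 0}
  one_mem' := by simp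
  mul_mem' := by
    intro g h hg hh
    have hg' : (g : Matrix (Fin 2) (Fin 2) K) 1 0 = 0 := hg
    have hh' : (h : Matrix (Fin 2) (Fin 2) K) 1 0 = 0 := hh
    show ((g * h : GL (Fin 2) K) : Matrix (Fin 2) (Fin 2) K) 1 0 = 0
    rw [Units.val_mul, Matrix.mul_apply, Fin.sum_univ_two, hg', hh', zero_mul, mul_zero, add_zero]
  inv_mem' := by
    intro g hg
    have hg' : (g : Matrix (Fin 2) (Fin 2) K) 1 0 = 0 := hg
    show ((g⁻¹ : GL (Fin 2) K) : Matrix (Fin 2) (Fin 2) K) 1 0 = 0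
    rw [Matrix.coe_units_inv, Matrix.inv_def, Matrix.adjugate_fin_two]
    simp [hg']

theorem mem_BG {g : GL (Fin 2) K} : g ∈ BG K ↔ (g : Matrix (Fin 2) (Fin 2) K) 1 0 = 0 := Iff.rfl

variable {Γ : Type} [Group Γ]

/-- `π` is the quotient by a group of scalars -/
structure Quo (π : GL (Fin 2) K →* Γ) : Prop where
  surj : Function.Surjective π
  ker : ∀ g, π g = 1 → ∃ z, g = tG z z

theorem Quo.th {π : GL (Fin 2) K →* Γ} (h : Quo π) (g : GL (Fin 2) K) :
    π (thG (Function.surjInv h.surj (π g))) = π (thG g) := by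
  have e := Function.surjInv_eq h.surj (π g)
  have e1 : π (g⁻¹ * Function.surjInv h.surj (π g)) = 1 := by
    rw [map_mul, e, map_inv, inv_mul_cancel]
  obtain ⟨z, hz⟩ := h.ker _ e1
  rw [hz] at e1
  rw [inv_mul_eq_iff_eq_mul] at hz
  rw [hz, thG_mul, thG_t, map_mul, e1, one_mul]

/-- the Bruhat data of a quotient of `GL₂(K)` by scalars -/
def Quo.bn {π : GL (Fin 2) K →* Γ} (h : Quo π) : BN K Γ where
  u x := π (uG x)
  t a d := π (tG a d)
  w := π (wG K)
  B := (BG K).map π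
  th g := π (thG (Function.surjInv h.surj g))
  u_add x y := by rw [uG_add, map_mul]
  t_mul a d a' d' := by rw [← map_mul, tG_mul]
  t_u a d x := by rw [← map_mul, tG_u, map_mul]
  w_t a d := by rw [← map_mul, wG_t, map_mul]
  w_w := by rw [← map_mul, wG_w, map_one]
  wuw x := by simp only [← map_mul, wG_uw]
  bruhat g := by
    obtain ⟨g, rfl⟩ := h.surj g
    rcases bruhatG g with ⟨a, d, x, rfl⟩ | ⟨x, a, d, y, rfl⟩
    · exact Or.inl ⟨a, d, x, by rw [map_mul]⟩
    · exact Or.inr ⟨x, a, d, y, by rw [map_mul, map_mul, map_mul]⟩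
  t_mem a d := ⟨tG a d, rfl, rfl⟩
  u_mem x := ⟨uG x, rfl, rfl⟩
  w_not := by
    rintro ⟨b, hb, e⟩
    have e1 : π (b⁻¹ * wG K) = 1 := by rw [map_mul, ← e, map_inv, inv_mul_cancel]
    obtain ⟨z, hz⟩ := h.ker _ e1
    rw [inv_mul_eq_iff_eq_mul] at hz
    have h1 : wG K ∈ BG K := by
      rw [hz]
      exact (BG K).mul_mem hb rfl
    exact one_ne_zero (α := K) h1
  th_mul g g' := by
    obtain ⟨g, rfl⟩ := h.surj g
    obtain ⟨g', rfl⟩ := h.surj g'
    rw [← map_mul, h.th, h.th, h.th, thG_mul, map_mul]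
  th_u x := by rw [h.th, thG_u]
  th_t a d := by rw [h.th, thG_t]
  th_w := by rw [h.th, thG_w]

theorem tG_inj {a d a' d' : Kˣ} (h : tG a d = tG a' d') : a = a' ∧ d = d' :=
  ⟨Units.ext (congrArg (fun g : GL (Fin 2) K => (g : Matrix (Fin 2) (Fin 2) K) 0 0) h),
    Units.ext (congrArg (fun g : GL (Fin 2) K => (g : Matrix (Fin 2) (Fin 2) K) 1 1) h)⟩

variable [Fintype K] [Fintype Γ]

theorem Quo.card_T {π : GL (Fin 2) K →* Γ} (h : Quo π) :
    Nat.card h.bn.tH.range * Nat.card π.ker = (Fintype.card K - 1) ^ 2 := by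
  have e : Nat.card h.bn.tH.ker = Nat.card π.ker := by
    refine Nat.card_eq_of_bijective (fun p => ⟨tG p.1.1 p.1.2, p.2⟩) ⟨?_, ?_⟩
    · intro p q e
      have e' := tG_inj (congrArg Subtype.val e)
      exact Subtype.ext (Prod.ext e'.1 e'.2)
    · rintro ⟨g, hg⟩
      obtain ⟨z, rfl⟩ := h.ker g hg
      exact ⟨⟨(z, z), hg⟩, rfl⟩
  have e2 := h.bn.tH.ker.card_eq_card_quotient_mul_card_subgroup
  rw [Nat.card_congr (QuotientGroup.quotientKerEquivRange h.bn.tH).toEquiv, e, Nat.card_prod,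
    Nat.card_units, Nat.card_eq_fintype_card (α := K)] at e2
  rw [← e2, pow_two]

theorem Quo.card_G {π : GL (Fin 2) K →* Γ} (h : Quo π) : Nat.card Γ * Nat.card π.ker =
    (Fintype.card K - 1) ^ 2 * (Fintype.card K * (Fintype.card K + 1)) := by
  have e2 := π.ker.card_eq_card_quotient_mul_card_subgroup
  rw [Nat.card_congr (QuotientGroup.quotientKerEquivOfSurjective π h.surj).toEquiv,
    Matrix.card_GL_field, Fin.prod_univ_two] at e2
  rw [← e2]
  obtain ⟨n, hn⟩ : ∃ n, Fintype.card K = n + 1 := ⟨_, (Nat.succ_pred_eq_of_pos Fintype.card_pos).symm⟩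
  rw [hn]
  have e3 : (n + 1) ^ 2 - (n + 1) ^ ((0 : Fin 2) : ℕ) = n * (n + 2) := by
    apply Nat.sub_eq_of_eq_add
    simp
    ring
  have e4 : (n + 1) ^ 2 - (n + 1) ^ ((1 : Fin 2) : ℕ) = n * (n + 1) := by
    apply Nat.sub_eq_of_eq_add
    simp
    ring
  rw [e3, e4, Nat.add_sub_cancel]
  ring

variable {F : Type} [Field F] [CharP F 2]

/-- a non trivial character in characteristic two -/
def mkCh (ψ : AddChar K F) (hψ : ψ ≠ 1) (hq : Odd (Fintype.card K)) : Ch K F where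
  ψ := ψ
  li := 1
  li_mul := by
    obtain ⟨k, hk⟩ := hq
    rw [hk, Nat.cast_add, Nat.cast_mul, CharP.cast_eq_zero F 2, zero_mul, zero_add, Nat.cast_one,
      one_mul]
  orth c hc := by
    have h := AddChar.sum_mulShift c (AddChar.IsPrimitive.of_ne_one hψ)
    rw [if_neg hc, Nat.cast_zero] at h
    rw [← h]
    exact Finset.sum_congr rfl fun x _ => by rw [mul_comm]

/-- **the multiplicities**: `2 ^ j` is the 2-part of the order of the kernel, `j + c = a` -/
theorem Quo.mul {π : GL (Fin 2) K →* Γ} (h : Quo π) (C : Ch K F) {a b c j u w z : ℕ} (hu : Odd u)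
    (hw : Odd w) (hz : Odd z) (h1 : Fintype.card K = 2 ^ a * u + 1)
    (h2 : Fintype.card K + 1 = 2 ^ b * w) (ha : 1 ≤ a) (hj : j + c = a)
    (hZ : Nat.card π.ker = 2 ^ j * z) :
    Mul h.bn C (2 ^ (a + c)) ((2 ^ (a + c) + 2 ^ (c + b)) / 2) := by
  have e1 := h.card_T
  have e2 := h.card_G
  have e0 : (Fintype.card K - 1) ^ 2 = 2 ^ j * (2 ^ (a + c) * (u * u)) := by
    rw [h1, Nat.add_sub_cancel, ← hj]
    ring
  have hz0 : 0 < Nat.card π.ker := Nat.card_pos
  have e3 : Nat.card Γ = Nat.card h.bn.tH.range * (Fintype.card K * (Fintype.card K + 1)) := by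
    apply Nat.eq_of_mul_eq_mul_right hz0
    rw [e2, ← e1]
    ring
  have e4 : Nat.card h.bn.tH.range * z = 2 ^ (a + c) * (u * u) := by
    apply Nat.eq_of_mul_eq_mul_left (show 0 < 2 ^ j by positivity)
    rw [← e0, ← e1, hZ]
    ring
  obtain ⟨m, hm⟩ : 2 ^ (a + c) ∣ Nat.card h.bn.tH.range :=
    (Nat.Coprime.pow_left _ (Nat.coprime_two_left.2 hz)).dvd_of_dvd_mul_right ⟨_, e4⟩
  have hmo : Odd m := by
    rw [hm, mul_assoc] at e4
    have e5 := Nat.eq_of_mul_eq_mul_left (by positivity) e4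
    exact Odd.of_dvd_nat (hu.mul hu) ⟨z, e5.symm⟩
  refine mul_of h.bn C hu hw h1 h2 ha hmo hm ⟨m * (Fintype.card K * w), ?_⟩
  rw [e3, hm, h2]
  ring

/-- scalar matrices -/
def scal (K : Type) [Field K] : Kˣ →* GL (Fin 2) K where
  toFun z := tG z z
  map_one' := Units.ext (by
    rw [tG_coe]
    ext i j
    fin_cases i <;> fin_cases j <;> simp)
  map_mul' x y := (tG_mul x x y y).symm

theorem scal_comm (z : Kˣ) (g : GL (Fin 2) K) : tG z z * g = g * tG z z := by
  apply Units.ext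
  rw [Units.val_mul, Units.val_mul, tG_coe]
  ext i j
  fin_cases i <;> fin_cases j <;> simp [Matrix.mul_apply, Fin.sum_univ_two, mul_comm]

instance scal_normal (Z : Subgroup Kˣ) : (Z.map (scal K)).Normal := ⟨by
  rintro _ ⟨z, hz, rfl⟩ g
  refine ⟨z, hz, ?_⟩
  show tG z z = g * tG z z * g⁻¹
  rw [← scal_comm, mul_inv_cancel_right]⟩

theorem quo_mk (Z : Subgroup Kˣ) : Quo (QuotientGroup.mk' (Z.map (scal K))) where
  surj := QuotientGroup.mk'_surjective _
  ker g hg := by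
    obtain ⟨z, _, rfl⟩ := (QuotientGroup.eq_one_iff g).1 hg
    exact ⟨z, rfl⟩

theorem card_ker_mk (Z : Subgroup Kˣ) :
    Nat.card (QuotientGroup.mk' (Z.map (scal K))).ker = Nat.card Z := by
  rw [QuotientGroup.ker_mk', Subgroup.card_map_of_injective fun x y e => (tG_inj e).1]

theorem card_top {a u : ℕ} (h1 : Fintype.card K = 2 ^ a * u + 1) :
    Nat.card (⊤ : Subgroup Kˣ) = 2 ^ a * u := by
  rw [Subgroup.card_top, Nat.card_units, Nat.card_eq_fintype_card, h1, Nat.add_sub_cancel]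

theorem card_two {a u : ℕ} (h1 : Fintype.card K = 2 ^ a * u + 1) :
    Nat.card (powMonoidHom (2 ^ a) : Kˣ →* Kˣ).ker = 2 ^ a * 1 := by
  rw [IsCyclic.card_powMonoidHom_ker, Nat.card_units, Nat.card_eq_fintype_card, h1,
    Nat.add_sub_cancel, mul_one, Nat.gcd_eq_right (dvd_mul_right _ _)]

end Vale.Agent.P022D.Rep
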