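import Vale.Agent.P022D.Rep.R
import Vale.Agent.P022D.Rep.Inst

/-!
P022D, block REP: the inequality for the reachable tuples of left ideals only.
-/

set_option linter.all false

noncomputable section

namespace Vale.Agent.P022D.Rep

open Classical Module

section one

variable {K Γ : Type} [Field K] [Group Γ] [Fintype K] [Fintype Γ]
variable {F : Type} [Field F] [CharP F 2] (D : BN K Γ) (C : Ch K F)

/-- additivity for the steps that start at an ideal above `Ig` and have a simple quotient -/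
def StpR (N : Submodule (MonoidAlgebra F Γ) (MonoidAlgebra F Γ) → ℕ∞) : Prop :=
  ∀ (a I : Submodule (MonoidAlgebra F Γ) (MonoidAlgebra F Γ)) (x : MonoidAlgebra F Γ),
    Ig D C ≤ a → (I = It F Γ ∨ I = Ip D C) → (∀ r, r * x ∈ a ↔ r ∈ I) →
      N a = N (a ⊔ Submodule.span _ {x}) + N I

variable {D C}

theorem stp_modR {N : Submodule (MonoidAlgebra F Γ) (MonoidAlgebra F Γ) → ℕ∞} (hN : StpR D C N)
    (X : Type) [AddCommGroup X] [Module F X] [Module (MonoidAlgebra F Γ) X]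
    [IsScalarTower F (MonoidAlgebra F Γ) X] [Module.Finite F X] (h : InC D C X)
    (a : Submodule (MonoidAlgebra F Γ) (MonoidAlgebra F Γ)) (hg : Ig D C ≤ a)
    (j : X →ₗ[MonoidAlgebra F Γ] MonoidAlgebra F Γ ⧸ a) (hj : Function.Injective j) :
    dm F (ee D C 0) X • N (It F Γ) + dm F (ee D C 1) X • N (Ip D C) ≤ N a := by
  revert h a
  refine mod_ind (F := F) (A := MonoidAlgebra F Γ) (fun X _ _ _ _ => InC D C X →
    ∀ (a : Submodule (MonoidAlgebra F Γ) (MonoidAlgebra F Γ)), Ig D C ≤ a →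
      ∀ (j : X →ₗ[MonoidAlgebra F Γ] MonoidAlgebra F Γ ⧸ a), Function.Injective j →
      dm F (ee D C 0) X • N (It F Γ) + dm F (ee D C 1) X • N (Ip D C) ≤ N a) ?_ X
  intro X _ _ _ _ _ ih h a hg j hj
  rcases subsingleton_or_nontrivial X with hX | hX
  · rw [dm, dm, finrank_zero_of_subsingleton, finrank_zero_of_subsingleton,
      zero_smul, zero_smul, add_zero]
    exact zero_le
  · obtain ⟨S, hS, hsim⟩ := ex_simple (F := F) (A := MonoidAlgebra F Γ) X
    obtain ⟨s, hs, hcase⟩ := simple_gen (h.inj S.subtype S.injective_subtype)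
    obtain ⟨x, hx⟩ := Submodule.Quotient.mk_surjective a (j s)
    set a' := a ⊔ Submodule.span (MonoidAlgebra F Γ) {x} with ha'
    let p : (MonoidAlgebra F Γ ⧸ a) →ₗ[MonoidAlgebra F Γ] MonoidAlgebra F Γ ⧸ a' :=
      Submodule.factor le_sup_left
    have hker : LinearMap.ker (p.comp j) = S := by
      ext y
      obtain ⟨z, hz⟩ := Submodule.Quotient.mk_surjective a (j y)
      have e : p.comp j y = Submodule.Quotient.mk z := by
        rw [LinearMap.comp_apply, ← hz]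
        rfl
      rw [LinearMap.mem_ker, e, Submodule.Quotient.mk_eq_zero]
      constructor
      · intro hz'
        obtain ⟨u, hu, v, hv, rfl⟩ := Submodule.mem_sup.1 hz'
        obtain ⟨r, rfl⟩ := Submodule.mem_span_singleton.1 hv
        have e2 : j y = j (r • (s : X)) := by
          rw [← hz, Submodule.Quotient.mk_add, (Submodule.Quotient.mk_eq_zero a).2 hu, zero_add,
            Submodule.Quotient.mk_smul, hx, map_smul]
        rw [hj e2]
        exact S.smul_mem r s.2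
      · intro hy
        obtain ⟨r, hr⟩ := hs ⟨y, hy⟩
        have hr' : r • (s : X) = y := congrArg Subtype.val hr
        have e2 : (Submodule.Quotient.mk z : MonoidAlgebra F Γ ⧸ a) =
            Submodule.Quotient.mk (r • x) := by
          rw [hz, ← hr', map_smul, Submodule.Quotient.mk_smul, hx]
        have e3 := (Submodule.Quotient.eq a).1 e2
        have e4 : z = (z - r • x) + r • x := by abel
        rw [e4]
        exact Submodule.add_mem_sup e3 (Submodule.mem_span_singleton.2 ⟨r, rfl⟩)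
    have h1 := ih S hS (h.surj S.mkQ S.mkQ_surjective) a' (hg.trans le_sup_left)
      (S.liftQ (p.comp j) hker.ge)
      (by rw [← LinearMap.ker_eq_bot]; exact Submodule.ker_liftQ_eq_bot _ _ _ hker.le)
    have hcol : ∀ r : MonoidAlgebra F Γ, r * x ∈ a ↔ r • s = 0 := by
      intro r
      rw [← Submodule.Quotient.mk_eq_zero, ← smul_eq_mul, Submodule.Quotient.mk_smul, hx,
        ← map_smul, map_eq_zero_iff j hj]
      exact ⟨fun e => Subtype.ext e, fun e => congrArg Subtype.val e⟩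
    rw [dm_sub (ee_idem D C 0) S, dm_sub (ee_idem D C 1) S, add_smul, add_smul]
    rcases hcase with ⟨h2, h3, h4⟩ | ⟨h2, h3, h4⟩
    · rw [hN a _ x hg (Or.inl rfl) fun r => (hcol r).trans (h2 r), h3, h4, one_smul, zero_smul,
        zero_add, add_assoc, add_comm]
      exact add_le_add h1 le_rfl
    · rw [hN a _ x hg (Or.inr rfl) fun r => (hcol r).trans (h2 r), h3, h4, one_smul, zero_smul,
        zero_add, add_comm (N (Ip D C)), ← add_assoc]
      exact add_le_add h1 le_rfl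

/-- the multiplicities of one place, restricted steps -/
def MulR (D : BN K Γ) (C : Ch K F) (m1 m2 : ℕ) : Prop :=
  ∀ N : Submodule (MonoidAlgebra F Γ) (MonoidAlgebra F Γ) → ℕ∞, StpR D C N →
    m1 • N (It F Γ) + m2 • N (Ip D C) ≤ N (Ig D C)

theorem MulR.mono {m1 m2 n1 n2 : ℕ} (h : MulR D C m1 m2) (h1 : n1 ≤ m1) (h2 : n2 ≤ m2) :
    MulR D C n1 n2 := fun N hN =>
  le_trans (add_le_add (nsmul_le_nsmul_left zero_le h1) (nsmul_le_nsmul_left zero_le h2)) (h N hN)

variable (D C) in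
theorem mul_ofR {a b c u w m : ℕ} (hu : Odd u) (hw : Odd w)
    (h1 : Fintype.card K = 2 ^ a * u + 1)
    (h2 : Fintype.card K + 1 = 2 ^ b * w) (ha : 1 ≤ a) (hm : Odd m)
    (hT : Nat.card D.tH.range = 2 ^ (a + c) * m) (hG : 2 ^ (a + c + b) ∣ Nat.card Γ) :
    MulR D C (2 ^ (a + c)) ((2 ^ (a + c) + 2 ^ (c + b)) / 2) := by
  intro N hN
  obtain ⟨P, hP, hC, h3, h4⟩ := ex_P D C hu hw h1 h2 ha hm hT hG
  haveI : Module.Finite F P :=
    Module.Finite.of_injective (P.subtype.restrictScalars F) P.injective_subtype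
  have h5 := stp_modR hN P hC (Ig D C) le_rfl ((Ig D C).mkQ.comp P.subtype) (by
    rw [injective_iff_map_eq_zero]
    intro x hx
    have hx' : (x : MonoidAlgebra F Γ) ∈ Ig D C := (Submodule.Quotient.mk_eq_zero _).1 hx
    obtain ⟨r, hr⟩ := Submodule.mem_span_singleton.1 hx'
    obtain ⟨s, hs⟩ := Submodule.mem_span_singleton.1 (hP x.2)
    apply Subtype.ext
    have e1 : (x : MonoidAlgebra F Γ) * ee D C 1 = x := by
      rw [← hs, smul_eq_mul, mul_assoc, ee_idem]
    rw [← e1, ← hr, smul_eq_mul, mul_assoc, sub_mul, one_mul, ee_idem, sub_self, mul_zero]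
    rfl)
  rw [h3] at h5
  refine le_trans (add_le_add le_rfl ?_) h5
  exact nsmul_le_nsmul_left zero_le (by omega)

/-- `2 ^ j` is the 2-part of the order of the kernel, `j + c = a` -/
theorem Quo.mulR {π : GL (Fin 2) K →* Γ} (h : Quo π) (C : Ch K F) {a b c j u w z : ℕ}
    (hu : Odd u) (hw : Odd w) (hz : Odd z) (h1 : Fintype.card K = 2 ^ a * u + 1)
    (h2 : Fintype.card K + 1 = 2 ^ b * w) (ha : 1 ≤ a) (hj : j + c = a)
    (hZ : Nat.card π.ker = 2 ^ j * z) :
    MulR h.bn C (2 ^ (a + c)) ((2 ^ (a + c) + 2 ^ (c + b)) / 2) := by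
  have e1 := h.card_T
  have e2 := h.card_G
  have e0 : (Fintype.card K - 1) ^ 2 = 2 ^ j * (2 ^ (a + c) * (u * u)) := by
    rw [h1, Nat.add_sub_cancel, ← hj]
    ring
  have hz0 : 0 < Nat.card π.ker := Nat.card_pos
  have e3 : Nat.card Γ = Nat.card h.bn.tH.range * (Fintype.card K * (Fintype.card K + 1)) := by
    apply Nat.eq_of_mul_eq_mul_right hz0
    rw [e2, ← e1]
    ring
  have e4 : Nat.card h.bn.tH.range * z = 2 ^ (a + c) * (u * u) := by
    apply Nat.eq_of_mul_eq_mul_left (show 0 < 2 ^ j by positivity)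
    rw [← e0, ← e1, hZ]
    ring
  obtain ⟨m, hm⟩ : 2 ^ (a + c) ∣ Nat.card h.bn.tH.range :=
    (Nat.Coprime.pow_left _ (Nat.coprime_two_left.2 hz)).dvd_of_dvd_mul_right ⟨_, e4⟩
  have hmo : Odd m := by
    rw [hm, mul_assoc] at e4
    have e5 := Nat.eq_of_mul_eq_mul_left (by positivity) e4
    exact Odd.of_dvd_nat (hu.mul hu) ⟨z, e5.symm⟩
  refine mul_ofR h.bn C hu hw h1 h2 ha hmo hm ⟨m * (Fintype.card K * w), ?_⟩
  rw [e3, hm, h2]
  ring

/-- the reachable left ideals: Whittaker or invariant -/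
abbrev Ix (D : BN K Γ) (C : Ch K F) : Type :=
  {a : Submodule (MonoidAlgebra F Γ) (MonoidAlgebra F Γ) // Ig D C ≤ a ∨ a = It F Γ}

end one

section pgl

variable (K : Type) [Field K] [Fintype K]

/-- the projective linear group -/
abbrev PG : Type := GL (Fin 2) K ⧸ (⊤ : Subgroup Kˣ).map (scal K)

/-- its `BN` structure -/
def bnP [Fintype (PG K)] : BN K (PG K) := (quo_mk (⊤ : Subgroup Kˣ)).bn

/-- **the multiplicities for `PGL₂`** -/
theorem mulP [Fintype (PG K)] {F : Type} [Field F] [CharP F 2] (C : Ch K F) {a b u w : ℕ}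
    (hu : Odd u) (hw : Odd w) (h1 : Fintype.card K = 2 ^ a * u + 1)
    (h2 : Fintype.card K + 1 = 2 ^ b * w) (ha : 1 ≤ a) :
    MulR (bnP K) C (2 ^ a) ((2 ^ a + 2 ^ b) / 2) := by
  have h := (quo_mk (⊤ : Subgroup Kˣ)).mulR C (c := 0) (j := a) hu hw hu h1 h2 ha rfl
    (by rw [card_ker_mk, card_top h1])
  rw [add_zero, zero_add] at h
  exact h

end pgl

section fin

variable {ι : Type} [Fintype ι] [DecidableEq ι] {F : Type} [Field F] [CharP F 2]
  {Γ K : ι → Type} [∀ i, Group (Γ i)] [∀ i, Fintype (Γ i)] [∀ i, Field (K i)] [∀ i, Fintype (K i)]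
  (D : ∀ i, BN (K i) (Γ i)) (C : ∀ i, Ch (K i) F)

/-- the reachable tuples -/
abbrev TX : Type := ∀ i, Ix (D i) (C i)

variable {D C} in
/-- the tuple of ideals -/
def TX.v (a : TX D C) : Tu F Γ := fun i => (a i).1

/-- the Whittaker part -/
def XG : TX D C := fun i => ⟨Ig (D i) (C i), Or.inl le_rfl⟩

/-- cuspidal on `J`, trivial outside -/
def XJ (J : Finset ι) : TX D C := fun i =>
  if i ∈ J then ⟨Ip (D i) (C i), Or.inl (Ig_le_Ip _ _)⟩ else ⟨It F (Γ i), Or.inr rfl⟩

theorem XG_v : (XG D C).v = TG D C := rfl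

theorem XJ_v (J : Finset ι) : (XJ D C J).v = TJ D C J := by
  funext i
  unfold TX.v XJ TJ
  split_ifs <;> rfl

theorem XJ_in {J : Finset ι} {i : ι} (h : i ∈ J) : (XJ D C J).v i = Ip (D i) (C i) := by
  rw [XJ_v, TJ, if_pos h]

theorem XJ_out {J : Finset ι} {i : ι} (h : i ∉ J) : (XJ D C J).v i = It F (Γ i) := by
  rw [XJ_v, TJ, if_neg h]

variable {D C} in
theorem TX.v_update (a : TX D C) (i : ι) (p : Ix (D i) (C i)) :
    TX.v (Function.update a i p) = Function.update a.v i p.1 := by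
  funext k
  by_cases hk : k = i
  · subst hk
    simp only [TX.v, Function.update_self]
  · simp only [TX.v, Function.update_of_ne hk]

/-- the relation of the exact sequences on reachable tuples -/
def SesX (a b c : TX D C) : Prop := Ses a.v b.v c.v

/-- **COMB** on reachable tuples -/
theorem combX (m1 m2 : ι → ℕ) (h : ∀ i, MulR (D i) (C i) (m1 i) (m2 i)) (N : TX D C → ℕ∞)
    (hN : ∀ a b c, SesX D C a b c → N b = N a + N c) :
    ∑ J : Finset ι, (∏ i, if i ∈ J then m2 i else m1 i) • N (XJ D C J) ≤ N (XG D C) := by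
  refine comb2 (S := fun i => Ix (D i) (C i)) (XG D C) (fun i => ⟨It F (Γ i), Or.inr rfl⟩)
    (fun i => ⟨Ip (D i) (C i), Or.inl (Ig_le_Ip _ _)⟩) m1 m2 N fun I i => ?_
  have e := h i (fun a => if ha : Ig (D i) (C i) ≤ a ∨ a = It F (Γ i) then
    N (Function.update I i ⟨a, ha⟩) else 0) fun p q x hp hq hx => by
      have hq' : Ig (D i) (C i) ≤ q ∨ q = It F (Γ i) := by
        rcases hq with rfl | rfl
        · exact Or.inr rfl
        · exact Or.inl (Ig_le_Ip _ _)
      have hs : Ig (D i) (C i) ≤ p ⊔ Submodule.span _ {x} ∨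
        p ⊔ Submodule.span _ {x} = It F (Γ i) := Or.inl (hp.trans le_sup_left)
      simp only [dif_pos (Or.inl hp : Ig (D i) (C i) ≤ p ∨ p = It F (Γ i)), dif_pos hq',
        dif_pos hs]
      exact hN _ _ _ ⟨TX.v I, i, p, q, x, hx, TX.v_update _ _ _, TX.v_update _ _ _,
        TX.v_update _ _ _⟩
  beta_reduce at e
  rw [dif_pos (Or.inr rfl), dif_pos (Or.inl (Ig_le_Ip (D i) (C i))), dif_pos (Or.inl le_rfl)] at e
  exact e

/-- **COMB** in the form of the assembly -/
theorem combH (m1 m2 : ι → ℕ) (h : ∀ i, MulR (D i) (C i) (m1 i) (m2 i)) (N : TX D C → ℕ∞)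
    (hN : ∀ a b c, SesX D C a b c → N b = N a + N c) (J : Finset ι) :
    ((∏ i, if i ∈ J then m2 i else m1 i : ℕ) : ℕ∞) * N (XJ D C J) ≤ N (XG D C) := by
  refine le_trans ?_ (combX D C m1 m2 h N hN)
  rw [← nsmul_eq_mul]
  exact Finset.single_le_sum (f := fun J : Finset ι =>
    (∏ i, if i ∈ J then m2 i else m1 i) • N (XJ D C J)) (fun _ _ => zero_le) (Finset.mem_univ J)

variable {D C} {T W : Type} [Ring T] [AddCommGroup W] [Module T W] (E : Act F Γ T W)

/-- **SES** in the form of the assembly -/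
theorem Act.sesH {θ : W →+ W} (h : E.Hig θ) {a b c : TX D C} (s : SesX D C a b c) :
    ∃ (f : E.Y a.v →ₗ[T] E.Y b.v) (g : E.Y b.v →ₗ[T] E.Y c.v),
      Function.Injective f ∧ Function.Exact f g ∧ Function.Surjective g := by
  obtain ⟨hle, g, i, x, -, h1, h2⟩ := E.ses h s
  exact ⟨Submodule.inclusion hle, g, Submodule.inclusion_injective hle, h1, h2⟩

/-- every vector of a reachable `Y` is, at each place, Whittaker or invariant -/
theorem Act.cls (a : TX D C) (i : ι) :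
    (∀ w ∈ E.Y a.v, ∀ x : K i, E.ρ (Pi.mulSingle i ((D i).u x)) w = E.sc ((C i).ψ x) w) ∨
      ∀ w ∈ E.Y a.v, ∀ g : Γ i, E.ρ (Pi.mulSingle i g) w = w := by
  rcases (a i).2 with h | h
  · exact Or.inl fun w hw => (E.kill_Ig (D i) (C i) w).1 fun r hr => hw i r (h hr)
  · exact Or.inr fun w hw => (E.kill_It i w).1 fun r hr => hw i r (by
      show r ∈ (a i).1
      rw [h]
      exact hr)

/-- the tuple with `Ig` on `S` and `It` outside -/
def XS (D : ∀ i, BN (K i) (Γ i)) (C : ∀ i, Ch (K i) F) (S : Finset ι) : TX D C := fun i =>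
  if i ∈ S then ⟨Ig (D i) (C i), Or.inl le_rfl⟩ else ⟨It F (Γ i), Or.inr rfl⟩

/-- every reachable `Y` lies in one of the finitely many classical ones -/
theorem Act.le_XS (a : TX D C) : ∃ S : Finset ι, E.Y a.v ≤ E.Y (XS D C S).v := by
  refine ⟨Finset.univ.filter fun i => Ig (D i) (C i) ≤ (a i).1, E.Y_anti fun i => ?_⟩
  unfold TX.v XS
  split_ifs with hi
  · exact (Finset.mem_filter.1 hi).2
  · exact ((a i).2.resolve_left fun e => hi (Finset.mem_filter.2 ⟨Finset.mem_univ _, e⟩)).ge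

theorem Act.mem_XS (S : Finset ι) (w : W) : w ∈ E.Y (XS D C S).v ↔
    (∀ i ∈ S, ∀ x : K i, E.ρ (Pi.mulSingle i ((D i).u x)) w = E.sc ((C i).ψ x) w) ∧
      ∀ i ∉ S, ∀ g : Γ i, E.ρ (Pi.mulSingle i g) w = w := by
  have e1 : ∀ i ∈ S, (XS D C S).v i = Ig (D i) (C i) := fun i hi => by
    unfold TX.v XS
    rw [if_pos hi]
  have e2 : ∀ i ∉ S, (XS D C S).v i = It F (Γ i) := fun i hi => by
    unfold TX.v XS
    rw [if_neg hi]
  rw [E.mem_Y]
  constructor
  · intro h
    exact ⟨fun i hi => (E.kill_Ig (D i) (C i) w).1 (e1 i hi ▸ h i),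
      fun i hi => (E.kill_It i w).1 (e2 i hi ▸ h i)⟩
  · rintro ⟨h1, h2⟩ i
    by_cases hi : i ∈ S
    · rw [e1 i hi]
      exact (E.kill_Ig (D i) (C i) w).2 (h1 i hi)
    · rw [e2 i hi]
      exact (E.kill_It i w).2 (h2 i hi)

/-- the average of an additive map over the whole product -/
def Act.avg (θ : W →+ W) : W →+ W :=
  ∑ g : ∀ i, Γ i, (E.ρ g).toAddMonoidHom.comp (θ.comp (E.ρ g⁻¹).toAddMonoidHom)

theorem Act.avg_apply (θ : W →+ W) (w : W) :
    E.avg θ w = ∑ g : ∀ i, Γ i, E.ρ g (θ (E.ρ g⁻¹ w)) := by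
  unfold Act.avg
  rw [AddMonoidHom.finset_sum_apply]
  rfl

theorem Act.avg_mem (θ : W →+ W) (hsc : ∀ c w, θ (E.sc c w) = E.sc c (θ w)) {I : Tu F Γ} {w : W}
    (hw : w ∈ E.Y I) : E.avg θ w ∈ E.Y I := by
  have e : ∀ c g w, E.ρ g (E.sc c w) = E.sc c (E.ρ g w) := fun c g w =>
    (LinearMap.congr_fun (E.comm c g).eq w).symm
  refine E.nat_mem _ (fun c w => ?_) (fun k w => ?_) hw
  · rw [E.avg_apply, E.avg_apply, map_sum]
    exact Finset.sum_congr rfl fun g _ => by rw [e, hsc, e]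
  · rw [E.avg_apply, E.avg_apply, map_sum]
    refine (Fintype.sum_equiv (Equiv.mulLeft k) _ _ fun g => ?_).symm
    rw [Equiv.coe_mulLeft, map_mul, Module.End.mul_apply, ← Module.End.mul_apply (E.ρ _⁻¹),
      ← map_mul, mul_inv_rev, inv_mul_cancel_right]

/-- **freeness over an extra group survives on every `Y I`** -/
theorem Act.norm_of_fix {Δ : Type} [Group Δ] [Fintype Δ] (σ : Δ →* Module.End T W) (θ : W →+ W)
    (hsc : ∀ c w, θ (E.sc c w) = E.sc c (θ w))
    (htr : ∀ w, ∑ d : Δ, σ d (∑ g : ∀ i, Γ i, E.ρ g (θ (E.ρ g⁻¹ (σ d⁻¹ w)))) = w)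
    {I : Tu F Γ} {w : W} (hw : w ∈ E.Y I) (hf : ∀ d, σ d w = w) :
    ∃ w' ∈ E.Y I, w = ∑ d : Δ, σ d w' := by
  refine ⟨E.avg θ w, E.avg_mem θ hsc hw, ?_⟩
  conv_lhs => rw [← htr w]
  exact Finset.sum_congr rfl fun d _ => by rw [hf d⁻¹, E.avg_apply]

/-- the trace one operator for the product alone -/
theorem Act.hig_of {Δ : Type} [Group Δ] [Fintype Δ] (σ : Δ →* Module.End T W) (θ : W →+ W)
    (h1 : ∀ d c, Commute (σ d) (E.sc c)) (h2 : ∀ d g, Commute (σ d) (E.ρ g))
    (hsc : ∀ c w, θ (E.sc c w) = E.sc c (θ w))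
    (htr : ∀ w, ∑ d : Δ, σ d (∑ g : ∀ i, Γ i, E.ρ g (θ (E.ρ g⁻¹ (σ d⁻¹ w)))) = w) :
    E.Hig (∑ d : Δ, (σ d).toAddMonoidHom.comp (θ.comp (σ d⁻¹).toAddMonoidHom)) := by
  have e : ∀ w, (∑ d : Δ, (σ d).toAddMonoidHom.comp (θ.comp (σ d⁻¹).toAddMonoidHom)) w =
      ∑ d : Δ, σ d (θ (σ d⁻¹ w)) := fun w => by
    rw [AddMonoidHom.finset_sum_apply]
    rfl
  have e1 : ∀ d c w, σ d (E.sc c w) = E.sc c (σ d w) := fun d c w =>
    LinearMap.congr_fun (h1 d c).eq w
  have e2 : ∀ d g w, σ d (E.ρ g w) = E.ρ g (σ d w) := fun d g w =>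
    LinearMap.congr_fun (h2 d g).eq w
  refine ⟨fun c w => ?_, fun w => ?_⟩
  · rw [e, e, map_sum]
    exact Finset.sum_congr rfl fun d _ => by rw [e1, hsc, e1]
  · conv_rhs => rw [← htr w]
    simp only [e, map_sum, e2]
    exact Finset.sum_comm

end fin

end Vale.Agent.P022D.Rep
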