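import Mathlib

/-!
P022D, block REP: sections of a quotient by a subgroup, and norms in eigenspaces.
-/

set_option linter.all false

noncomputable section

namespace Vale.Agent.P022D.Rep

open Classical

variable {G Γ : Type} [Group G] [Group Γ]

/-- `sec` is an injective homomorphism from `Γ` to the normaliser of `H` modulo `H` -/
structure Sec (H : Subgroup G) (sec : Γ → G) : Prop where
  nrm : ∀ γ, ∀ h ∈ H, (sec γ)⁻¹ * h * sec γ ∈ H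
  mul : ∀ γ γ', (sec (γ * γ'))⁻¹ * (sec γ * sec γ') ∈ H
  inj : ∀ γ, sec γ ∈ H → γ = 1

variable {H : Subgroup G} {sec : Γ → G}

theorem Sec.one (h : Sec H sec) : sec 1 ∈ H := by
  have e := h.mul 1 1
  rwa [mul_one, inv_mul_cancel_left] at e

theorem Sec.inv (h : Sec H sec) (γ : Γ) : sec γ * sec γ⁻¹ ∈ H := by
  have e := H.mul_mem h.one (h.mul γ γ⁻¹)
  rwa [mul_inv_cancel, mul_inv_cancel_left] at e

/-- the preimage of a subgroup -/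
def Sec.up (h : Sec H sec) (S : Subgroup Γ) : Subgroup G where
  carrier := {g | ∃ γ ∈ S, (sec γ)⁻¹ * g ∈ H}
  one_mem' := ⟨1, S.one_mem, by rw [mul_one]; exact H.inv_mem h.one⟩
  mul_mem' := by
    rintro a b ⟨γ, hγ, ha⟩ ⟨γ', hγ', hb⟩
    refine ⟨γ * γ', S.mul_mem hγ hγ', ?_⟩
    have e : (sec (γ * γ'))⁻¹ * (a * b) = (sec (γ * γ'))⁻¹ * (sec γ * sec γ') *
      ((sec γ')⁻¹ * ((sec γ)⁻¹ * a) * sec γ') * ((sec γ')⁻¹ * b) := by group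
    rw [e]
    exact H.mul_mem (H.mul_mem (h.mul γ γ') (h.nrm γ' _ ha)) hb
  inv_mem' := by
    rintro a ⟨γ, hγ, ha⟩
    refine ⟨γ⁻¹, S.inv_mem hγ, ?_⟩
    have e : (sec γ⁻¹)⁻¹ * a⁻¹ = ((sec γ⁻¹)⁻¹ * ((sec γ)⁻¹ * a)⁻¹ * sec γ⁻¹) *
      (sec γ * sec γ⁻¹)⁻¹ := by group
    rw [e]
    exact H.mul_mem (h.nrm _ _ (H.inv_mem ha)) (H.inv_mem (h.inv γ))

theorem Sec.mem_up (h : Sec H sec) {S : Subgroup Γ} {g : G} :
    g ∈ h.up S ↔ ∃ γ ∈ S, (sec γ)⁻¹ * g ∈ H := Iff.rfl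

theorem Sec.le_up (h : Sec H sec) (S : Subgroup Γ) : H ≤ h.up S := fun g hg =>
  ⟨1, S.one_mem, H.mul_mem (H.inv_mem h.one) hg⟩

theorem Sec.up_le (h : Sec H sec) (S : Subgroup Γ) {Hm : Subgroup G} (h1 : H ≤ Hm)
    (h2 : ∀ γ, sec γ ∈ Hm) : h.up S ≤ Hm := by
  rintro g ⟨γ, -, hg⟩
  have e := Hm.mul_mem (h2 γ) (h1 hg)
  rwa [mul_inv_cancel_left] at e

theorem Sec.eq (h : Sec H sec) {γ γ' : Γ} (e : (sec γ)⁻¹ * sec γ' ∈ H) : γ = γ' := by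
  have e1 : sec (γ⁻¹ * γ') = sec γ⁻¹ * sec γ * ((sec γ)⁻¹ * sec γ') *
    ((sec (γ⁻¹ * γ'))⁻¹ * (sec γ⁻¹ * sec γ'))⁻¹ := by group
  have e2 := h.inv γ⁻¹
  rw [inv_inv] at e2
  have e3 := h.inj (γ⁻¹ * γ') (e1 ▸ H.mul_mem (H.mul_mem e2 e) (H.inv_mem (h.mul _ _)))
  exact inv_mul_eq_one.1 e3

theorem Sec.sum (h : Sec H sec) {A : Type} [AddCommMonoid A] (f : G → A) {S : Subgroup Γ}
    {t : Finset Γ} (ht : ∀ γ, γ ∈ t ↔ γ ∈ S) {s s' : Finset G} (hs : ∀ g, g ∈ s ↔ g ∈ H)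
    (hs' : ∀ g, g ∈ s' ↔ g ∈ h.up S) :
    ∑ g ∈ s', f g = ∑ γ ∈ t, ∑ k ∈ s, f (sec γ * k) := by
  rw [← Finset.sum_product']
  refine (Finset.sum_bij (fun x _ => sec x.1 * x.2) ?_ ?_ ?_ fun _ _ => rfl).symm
  · intro x hx
    rw [Finset.mem_product] at hx
    exact (hs' _).2 ⟨x.1, (ht _).1 hx.1, by rw [inv_mul_cancel_left]; exact (hs _).1 hx.2⟩
  · rintro ⟨a, k⟩ ha ⟨a', k'⟩ ha' e
    rw [Finset.mem_product] at ha ha'
    have e' : sec a * k = sec a' * k' := e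
    have e1 : (sec a)⁻¹ * sec a' = k * k'⁻¹ := by
      rw [inv_mul_eq_iff_eq_mul, ← mul_assoc, e', mul_inv_cancel_right]
    have e2 : a = a' := h.eq (e1 ▸ H.mul_mem ((hs _).1 ha.2) (H.inv_mem ((hs _).1 ha'.2)))
    subst e2
    exact Prod.ext rfl (mul_left_cancel e')
  · intro g hg
    obtain ⟨γ, hγ, hk⟩ := (hs' g).1 hg
    exact ⟨⟨γ, (sec γ)⁻¹ * g⟩, Finset.mem_product.2 ⟨(ht _).2 hγ, (hs _).2 hk⟩,
      mul_inv_cancel_left _ _⟩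

/-- **norms for the quotient group from norms for the preimages** -/
theorem Sec.norm [Fintype G] (h : Sec H sec) {O V : Type} [CommRing O] [AddCommGroup V]
    [Module O V] (ρ : G →* Module.End O V) (χ : G → O) {Hm : Subgroup G} (h1 : H ≤ Hm)
    (h2 : ∀ γ, sec γ ∈ Hm) (χm : ∀ a ∈ Hm, ∀ b ∈ Hm, χ (a * b) = χ a * χ b)
    (Y : Submodule O V) (hY : ∀ g ∈ Hm, ∀ u ∈ Y, ρ g u ∈ Y)
    (hχ : ∀ γ, ∀ u ∈ Y, χ (sec γ) • u = u) (χ1 : χ 1 = 1) {v : V} (hv : v ∈ Y)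
    (cut : ∀ (H' : Subgroup G) (s' : Finset G), (∀ g, g ∈ s' ↔ g ∈ H') → H ≤ H' → H' ≤ Hm →
      (∀ g ∈ H', ρ g v = χ g • v) → ∃ u ∈ Y, v = ∑ g ∈ s', χ g⁻¹ • ρ g u)
    (S : Subgroup Γ) (t : Finset Γ) (ht : ∀ γ, γ ∈ t ↔ γ ∈ S)
    (hH : ∀ g ∈ H, ρ g v = χ g • v) (hS : ∀ γ ∈ S, ρ (sec γ) v = v) :
    ∃ u ∈ Y, (∀ g ∈ H, ρ g u = χ g • u) ∧ v = ∑ γ ∈ t, ρ (sec γ) u := by
  let s := Finset.univ.filter fun g => g ∈ H
  have hs : ∀ g, g ∈ s ↔ g ∈ H := by simp [s]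
  obtain ⟨u, hu, e⟩ := cut (h.up S) (Finset.univ.filter fun g => g ∈ h.up S) (by simp) (h.le_up S)
    (h.up_le S h1 h2) (by
      rintro g ⟨γ, hγ, hk⟩
      rw [← mul_inv_cancel_left (sec γ) g, map_mul, Module.End.mul_apply, hH _ hk, map_smul,
        hS γ hγ, χm _ (h2 γ) _ (h1 hk), mul_comm, mul_smul, hχ γ v hv])
  refine ⟨∑ k ∈ s, χ k⁻¹ • ρ k u, Y.sum_mem fun k hk => Y.smul_mem _ (hY _ (h1 ((hs k).1 hk)) _ hu),
    fun g hg => ?_, ?_⟩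
  · rw [map_sum, Finset.smul_sum]
    refine Finset.sum_bij (fun k _ => g * k) (fun k hk => (hs _).2 (H.mul_mem hg ((hs k).1 hk)))
      (fun _ _ _ _ e => mul_left_cancel e) (fun k hk => ⟨g⁻¹ * k,
        (hs _).2 (H.mul_mem (H.inv_mem hg) ((hs k).1 hk)), mul_inv_cancel_left _ _⟩) fun k hk => ?_
    have hk' := h1 ((hs k).1 hk)
    rw [map_smul, smul_smul, map_mul, Module.End.mul_apply, mul_inv_rev,
      χm _ (Hm.inv_mem hk') _ (Hm.inv_mem (h1 hg)), mul_comm (χ k⁻¹), ← mul_assoc,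
      ← χm _ (h1 hg) _ (Hm.inv_mem (h1 hg)), mul_inv_cancel, χ1, one_mul]
  · rw [e, h.sum _ ht hs (by simp)]
    refine Finset.sum_congr rfl fun γ _ => ?_
    rw [map_sum]
    refine Finset.sum_congr rfl fun k hk => ?_
    have hk' := h1 ((hs k).1 hk)
    have hw := hY _ (h2 γ) _ (hY _ hk' _ hu)
    have e1 : χ (sec γ)⁻¹ • ρ (sec γ) (ρ k u) = ρ (sec γ) (ρ k u) := by
      conv_lhs => rw [← hχ γ _ hw, smul_smul, ← χm _ (Hm.inv_mem (h2 γ)) _ (h2 γ), inv_mul_cancel,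
        χ1, one_smul]
    rw [map_smul, map_mul, Module.End.mul_apply, mul_inv_rev,
      χm _ (Hm.inv_mem hk') _ (Hm.inv_mem (h2 γ)), mul_smul, e1]

end Vale.Agent.P022D.Rep
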