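import Vale.Agent.P022D.Rep.Gn
import Vale.Agent.P022D.V.Grp

/-!
P022D, block REP: the factor `GL₂(ℤ/q)` of `GL₂(ℤ/M)`, and actions of products of `PGL₂`.
-/

set_option linter.all false

noncomputable section

namespace Vale.Agent.P022D.Rep

open Classical Vale.Agent.P022D.V Vale.Agent.P022D.V.GrpP

section emb

variable {M M₀ q : ℕ} (h : Sp M M₀ q)

/-- the idempotent that is `1` modulo `q` and `0` modulo `M₀` -/
def eI : ZMod M := (dat h).choose

/-- the other idempotent -/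
def fI : ZMod M := (dat h).choose_spec.choose

theorem datI : Dat M M₀ q (eI h) (fI h) := (dat h).choose_spec.choose_spec

include h in
theorem dq : q ∣ M := ⟨M₀, by rw [h.eq, mul_comm]⟩

/-- reduction modulo `q` -/
abbrev rq : ZMod M →+* ZMod q := ZMod.castHom (dq h) (ZMod q)

theorem e_nat {a b : ℕ} (e : (a : ZMod q) = b) : eI h * a = eI h * b := by
  rw [ZMod.natCast_eq_natCast_iff'] at e
  have h1 := congrArg (Nat.cast : ℕ → ZMod M) (Nat.mod_add_div a q)
  have h2 := congrArg (Nat.cast : ℕ → ZMod M) (Nat.mod_add_div b q)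
  rw [Nat.cast_add, Nat.cast_mul] at h1 h2
  rw [e] at h1
  linear_combination (-(eI h)) * h1 + eI h * h2 +
    (((a / q : ℕ) : ZMod M) - ((b / q : ℕ) : ZMod M)) * (datI h).eq

variable [Fact q.Prime]

/-- the section `ℤ/q → ℤ/M` -/
def lam : ZMod q →ₙ+* ZMod M where
  toFun x := eI h * (x.val : ZMod M)
  map_zero' := by simp
  map_add' x y := by
    rw [← mul_add, ← Nat.cast_add]
    exact e_nat h (by simp)
  map_mul' x y := by
    have e := e_nat h (a := (x * y).val) (b := x.val * y.val) (by simp)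
    rw [e, Nat.cast_mul]
    linear_combination (-(x.val : ZMod M) * (y.val : ZMod M)) * (datI h).ee

theorem lam_nat (n : ℕ) : lam h (n : ZMod q) = eI h * n := e_nat h (by simp)

theorem lam_one : lam h 1 = eI h := by
  have e := lam_nat h 1
  rwa [Nat.cast_one, Nat.cast_one, mul_one] at e

theorem lam_rq (x : ZMod M) : lam h (rq h x) = eI h * x := by
  haveI : NeZero M := ⟨h.odd.pos.ne'⟩
  conv_lhs => rw [← ZMod.natCast_zmod_val x, map_natCast]
  rw [lam_nat, ZMod.natCast_zmod_val]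

theorem rq_f : rq h (fI h) = 0 := by
  obtain ⟨v, hv⟩ := (datI h).fq
  rw [hv, map_mul, map_natCast, ZMod.natCast_self, zero_mul]

theorem rq_e : rq h (eI h) = 1 := by
  have e := congrArg (rq h) (datI h).add
  rwa [map_add, rq_f, add_zero, map_one] at e

theorem rq_lam (x : ZMod q) : rq h (lam h x) = x := by
  show rq h (eI h * (x.val : ZMod M)) = x
  rw [map_mul, rq_e, one_mul, map_natCast, ZMod.natCast_zmod_val]

theorem f_lam (x : ZMod q) : fI h * lam h x = 0 := by
  show fI h * (eI h * (x.val : ZMod M)) = 0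
  rw [← mul_assoc, (datI h).symm.mul, zero_mul]

theorem e_lam (x : ZMod q) : eI h * lam h x = lam h x := by
  show eI h * (eI h * (x.val : ZMod M)) = eI h * (x.val : ZMod M)
  rw [← mul_assoc, (datI h).ee]

theorem f_map (A : Matrix (Fin 2) (Fin 2) (ZMod q)) : fI h • A.map (lam h) = 0 := by
  ext i j
  exact f_lam h _

/-- the section on matrices -/
def embM : Matrix (Fin 2) (Fin 2) (ZMod q) →* Mt M where
  toFun A := fI h • 1 + A.map (lam h)
  map_one' := by
    have e : (1 : Matrix (Fin 2) (Fin 2) (ZMod q)).map (lam h) = eI h • (1 : Mt M) := by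
      ext i j
      by_cases hij : i = j
      · subst hij
        simp [lam_one]
      · simp [hij]
    rw [e, ← add_smul, (datI h).symm.add, one_smul]
  map_mul' A B := by
    simp only [add_mul, mul_add, Matrix.smul_mul, Matrix.mul_smul, Matrix.one_mul, Matrix.mul_one,
      smul_add, f_map, smul_smul, (datI h).symm.ee, add_zero, zero_add, Matrix.map_mul]

/-- **the factor at `q`** -/
def emb : GL (Fin 2) (ZMod q) →* GM M := Units.map (embM h)

theorem emb_coe (g : GL (Fin 2) (ZMod q)) : (emb h g : Mt M) =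
    fI h • 1 + (g : Matrix (Fin 2) (Fin 2) (ZMod q)).map (lam h) := rfl

theorem emb_mem (g : GL (Fin 2) (ZMod q)) : emb h g ∈ Kq M M₀ := by
  rw [(datI h).kq, emb_coe, smul_add, f_map, add_zero, smul_smul, (datI h).symm.ee]

theorem pr_emb (g : GL (Fin 2) (ZMod q)) : pr (dq h) (emb h g) = g := by
  apply Units.ext
  ext i j
  show rq h ((emb h g : Mt M) i j) = _
  rw [emb_coe, Matrix.add_apply, Matrix.smul_apply, Matrix.map_apply, map_add, smul_eq_mul, map_mul,
    rq_f, zero_mul, zero_add, rq_lam]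

theorem emb_pr {k : GM M} (hk : k ∈ Kq M M₀) : emb h (pr (dq h) k) = k := by
  apply Units.ext
  rw [emb_coe, ← (datI h).kq.1 hk]
  ext i j
  show fI h * (k : Mt M) i j + lam h (rq h ((k : Mt M) i j)) = _
  rw [lam_rq, ← add_mul, (datI h).symm.add, one_mul]

theorem emb_inj : Function.Injective (emb h) := fun g g' e => by
  rw [← pr_emb h g, e, pr_emb]

theorem mem_Kq {k : GM M} : k ∈ Kq M M₀ ↔ ∃ g, emb h g = k :=
  ⟨fun hk => ⟨_, emb_pr h hk⟩, fun ⟨g, e⟩ => e ▸ emb_mem h g⟩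

theorem emb_u (x : ZMod q) : emb h (uG x) = un (lam h x) := by
  apply Units.ext
  rw [emb_coe, uG_coe, un_coe]
  ext i j
  fin_cases i <;> fin_cases j <;> simp [lam_one, (datI h).symm.add]

theorem emb_w : IsS M M₀ (emb h (wG (ZMod q))) := by
  rw [(datI h).isS, emb_coe, wG_coe]
  ext i j
  fin_cases i <;> fin_cases j <;> simp [lam_one]

theorem isS_eq {s : GM M} (hs : IsS M M₀ s) : s = emb h (wG (ZMod q)) :=
  Units.ext (((datI h).isS.1 hs).trans ((datI h).isS.1 (emb_w h)).symm)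

/-- the section on units -/
def lamU : (ZMod q)ˣ →* (ZMod M)ˣ := Units.map
  { toFun := fun x => fI h + lam h x
    map_one' := by rw [lam_one, (datI h).symm.add]
    map_mul' := fun x y => by
      rw [map_mul]
      linear_combination (-1 : ZMod M) * (datI h).symm.ee - f_lam h x - f_lam h y }

theorem lamU_coe (a : (ZMod q)ˣ) : (lamU h a : ZMod M) = fI h + lam h a := rfl

theorem lamU_cg (a : (ZMod q)ˣ) : Cg M M₀ (lamU h a) 1 := by
  rw [(datI h).cg, lamU_coe, mul_add, f_lam, add_zero, mul_one, (datI h).symm.ee]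

theorem rq_lamU (a : (ZMod q)ˣ) : rq h (lamU h a) = a := by
  rw [lamU_coe, map_add, rq_f, zero_add, rq_lam]

theorem lamU_surj {b : (ZMod M)ˣ} (hb : Cg M M₀ b 1) :
    lamU h (Units.map (rq h).toMonoidHom b) = b := by
  apply Units.ext
  show fI h + lam h (rq h b) = b
  have e := (datI h).cg.1 hb
  rw [lam_rq]
  linear_combination (b : ZMod M) * (datI h).add - e

theorem emb_t (a d : (ZMod q)ˣ) : emb h (tG a d) = dg (lamU h a) (lamU h d) := by
  apply Units.ext
  rw [emb_coe, tG_coe, dg_coe]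
  ext i j
  fin_cases i <;> fin_cases j <;> simp [lamU_coe]

theorem emb_B {g : GL (Fin 2) (ZMod q)} : emb h g ∈ Bq M M₀ ↔ g ∈ BG (ZMod q) := by
  have e : (emb h g : Mt M) 1 0 = lam h ((g : Matrix (Fin 2) (Fin 2) (ZMod q)) 1 0) := by
    rw [emb_coe]
    simp
  rw [mem_BG]
  constructor
  · intro hg
    rw [← rq_lam h ((g : Matrix (Fin 2) (Fin 2) (ZMod q)) 1 0), ← e, hg.2, map_zero]
  · intro hg
    exact ⟨emb_mem h g, by rw [e, hg, map_zero]⟩

theorem un_Uq (x : ZMod M) : un ((M₀ : ZMod M) * x) = emb h (uG (rq h (M₀ * x))) := by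
  rw [emb_u, lam_rq]
  congr 1
  linear_combination (-((M₀ : ZMod M) * x)) * (datI h).add + x * (datI h).fM

theorem emb_U (x : ZMod q) : emb h (uG x) ∈ Uq M M₀ := by
  obtain ⟨y, hy⟩ := (datI h).mu (f_lam h x)
  exact ⟨y, by rw [emb_u, hy]⟩

theorem sum_Uq {A : Type} [AddCommMonoid A] (φ : GM M → A) :
    ∑ x ∈ Finset.range q, φ (un ((M₀ : ZMod M) * (x : ZMod M))) =
      ∑ y : ZMod q, φ (emb h (uG y)) := by
  have hu : (M₀ : ZMod q) ≠ 0 := by
    rw [Ne, ZMod.natCast_eq_zero_iff]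
    exact (h.prime.coprime_iff_not_dvd).1 h.cop.symm
  rw [← Fintype.sum_equiv (Equiv.mulLeft₀ _ hu) (fun y => φ (emb h (uG ((M₀ : ZMod q) * y)))) _
    fun _ => rfl]
  refine Finset.sum_bij (fun x _ => (x : ZMod q)) (fun _ _ => Finset.mem_univ _) ?_ ?_ ?_
  · intro a ha b hb e
    rw [ZMod.natCast_eq_natCast_iff', Nat.mod_eq_of_lt (Finset.mem_range.1 ha),
      Nat.mod_eq_of_lt (Finset.mem_range.1 hb)] at e
    exact e
  · intro y _
    exact ⟨y.val, Finset.mem_range.2 (ZMod.val_lt y), ZMod.natCast_zmod_val y⟩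
  · intro x _
    rw [un_Uq h, map_mul, map_natCast, map_natCast]

theorem Ts_eq (S R : Type) [CommRing S] [CommRing R] [Algebra S R] {s : GM M} (hs : IsS M M₀ s)
    (w : FT M R) : Ts S R M₀ q s w = ∑ y : ZMod q, rt S R (emb h (uG y * wG (ZMod q))) w := by
  unfold Ts
  rw [LinearMap.sum_apply]
  simp only [map_mul (emb h), ← isS_eq h hs]
  exact sum_Uq h fun g => rt S R (g * s) w

/-- the factor at `q` commutes with everything that is `1` modulo `q` -/
theorem emb_comm (g : GL (Fin 2) (ZMod q)) {k : GM M} (hk : k ∈ Kq M q) :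
    emb h g * k = k * emb h g := (grp M M₀ q h).2.2.2.1 _ (emb_mem h g) _ hk

theorem Kq_mono {N N' : ℕ} (hd : N ∣ N') : Kq M N' ⊆ Kq M N := by
  obtain ⟨c, rfl⟩ := hd
  intro g hg i j
  obtain ⟨y, hy⟩ := hg i j
  exact ⟨c * y, by rw [hy, Nat.cast_mul, mul_assoc]⟩

theorem emb_comm2 {M₁ p : ℕ} [Fact p.Prime] (h' : Sp M M₁ p) (hne : q ≠ p)
    (g : GL (Fin 2) (ZMod q)) (g' : GL (Fin 2) (ZMod p)) :
    emb h g * emb h' g' = emb h' g' * emb h g := by
  refine emb_comm h g (Kq_mono ?_ (emb_mem h' g'))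
  have h1 : q ∣ M₁ * p := h'.eq ▸ dq h
  exact ((Nat.coprime_primes h.prime h'.prime).2 hne).dvd_of_dvd_mul_right h1

end emb

section act

variable {ι : Type} [Fintype ι] [DecidableEq ι] {F : Type} [Field F] {K : ι → Type}
  [∀ i, Field (K i)] [∀ i, Fintype (K i)] {T W : Type} [Ring T] [AddCommGroup W] [Module T W]

/-- commuting actions of the groups `GL₂(K i)`, trivial on the scalar matrices -/
structure Pre (F : Type) [Field F] (K : ι → Type) [∀ i, Field (K i)] (T W : Type) [Ring T]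
    [AddCommGroup W] [Module T W] where
  sc : F →+* Module.End T W
  ρ : ∀ i, GL (Fin 2) (K i) →* Module.End T W
  c1 : ∀ c i g, Commute (sc c) (ρ i g)
  c2 : ∀ i j, i ≠ j → ∀ g g', Commute (ρ i g) (ρ j g')
  z : ∀ i z, ρ i (tG z z) = 1

variable (P : Pre F K T W)

/-- the action of `PGL₂(K i)` -/
def Pre.bar (i : ι) : PG (K i) →* Module.End T W :=
  QuotientGroup.lift _ (P.ρ i) (by
    rintro _ ⟨z, -, rfl⟩
    exact P.z i z)

theorem Pre.bar_comm : Pairwise fun i j => ∀ x y, Commute (P.bar i x) (P.bar j y) := by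
  intro i j hij x y
  obtain ⟨x, rfl⟩ := QuotientGroup.mk_surjective x
  obtain ⟨y, rfl⟩ := QuotientGroup.mk_surjective y
  exact P.c2 i j hij x y

/-- **the action of the product** -/
def Pre.act : Act F (fun i => PG (K i)) T W where
  sc := P.sc
  ρ := MonoidHom.noncommPiCoprod P.bar P.bar_comm
  comm c g := MonoidHom.commute_noncommPiCoprod (hcomm := P.bar_comm) P.bar (fun i x => by
    obtain ⟨x, rfl⟩ := QuotientGroup.mk_surjective x
    exact P.c1 c i x) g

theorem Pre.act_sc : P.act.sc = P.sc := rfl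

theorem Pre.act_ρ (i : ι) (g : GL (Fin 2) (K i)) :
    P.act.ρ (Pi.mulSingle i (QuotientGroup.mk g)) = P.ρ i g :=
  MonoidHom.noncommPiCoprod_mulSingle (hcomm := P.bar_comm) P.bar i _

/-- a property of all the operators of the product -/
theorem Pre.ind (p : Module.End T W → Prop) (h1 : p 1) (hm : ∀ x y, p x → p y → p (x * y))
    (h : ∀ i g, p (P.ρ i g)) (g : ∀ i, PG (K i)) : p (P.act.ρ g) := by
  let S : Submonoid (Module.End T W) := ⟨⟨{x | p x}, fun {x y} => hm x y⟩, h1⟩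
  have e : MonoidHom.mrange P.act.ρ ≤ S := by
    show MonoidHom.mrange (MonoidHom.noncommPiCoprod P.bar P.bar_comm) ≤ S
    rw [MonoidHom.noncommPiCoprod_mrange]
    refine iSup_le fun i => ?_
    rintro _ ⟨x, rfl⟩
    obtain ⟨x, rfl⟩ := QuotientGroup.mk_surjective x
    exact h i x
  exact e ⟨g, rfl⟩

/-- equivariance can be checked on the factors -/
theorem Pre.nat {T' W' : Type} [Ring T'] [AddCommGroup W'] [Module T' W'] (P' : Pre F K T' W')
    (φ : W →+ W') (h : ∀ i g w, φ (P.ρ i g w) = P'.ρ i g (φ w)) (g : ∀ i, PG (K i)) (w : W) :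
    φ (P.act.ρ g w) = P'.act.ρ g (φ w) := by
  let S : Submonoid (∀ i, PG (K i)) :=
    ⟨⟨{g | ∀ w, φ (P.act.ρ g w) = P'.act.ρ g (φ w)}, fun {x y} hx hy w => by
      rw [map_mul, map_mul, Module.End.mul_apply, Module.End.mul_apply, hx, hy]⟩, fun w => by
      rw [map_one, map_one]
      rfl⟩
  have e : g ∈ S := by
    rw [← Finset.noncommProd_mulSingle g]
    refine S.noncommProd_mem _ _ _ fun i _ w => ?_
    obtain ⟨x, hx⟩ := QuotientGroup.mk_surjective (g i)
    rw [← hx, P.act_ρ, P'.act_ρ, h]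
  exact e w

variable [∀ i, Fintype (PG (K i))] [CharP F 2]

theorem Pre.kill_It (i : ι) (w : W) : (∀ r ∈ It F (PG (K i)), P.act.al i r w = 0) ↔
    ∀ g, P.ρ i g w = w := by
  rw [P.act.kill_It]
  constructor
  · intro h g
    rw [← P.act_ρ, h]
  · intro h g
    obtain ⟨g, rfl⟩ := QuotientGroup.mk_surjective g
    rw [P.act_ρ, h]

theorem Pre.kill_Ib (i : ι) (w : W) : (∀ r ∈ Ib (bnP (K i)) F, P.act.al i r w = 0) ↔
    ∀ b ∈ BG (K i), P.ρ i b w = w := by
  rw [P.act.kill_Ib]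
  constructor
  · intro h b hb
    rw [← P.act_ρ]
    exact h _ ⟨b, hb, rfl⟩
  · rintro h _ ⟨b, hb, rfl⟩
    exact (congrArg (fun x : Module.End T W => x w) (P.act_ρ i b)).trans (h b hb)

theorem Pre.kill_Ig (i : ι) (C : Ch (K i) F) (w : W) :
    (∀ r ∈ Ig (bnP (K i)) C, P.act.al i r w = 0) ↔ ∀ x, P.ρ i (uG x) w = P.sc (C.ψ x) w := by
  rw [P.act.kill_Ig]
  refine forall_congr' fun x => ?_
  rw [← P.act_ρ]
  rfl

theorem Pre.al_trB (i : ι) (w : W) : P.act.al i (trB (bnP (K i)) F) w =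
    w + ∑ y : K i, P.ρ i (uG y * wG (K i)) w := by
  rw [P.act.al_trB]
  congr 1
  refine Finset.sum_congr rfl fun y _ => ?_
  rw [← P.act_ρ]
  rfl

theorem Pre.mem_XS (C : ∀ i, Ch (K i) F) (S : Finset ι) (w : W) :
    w ∈ P.act.Y (XS (fun i => bnP (K i)) C S).v ↔
    (∀ i ∈ S, ∀ x, P.ρ i (uG x) w = P.sc ((C i).ψ x) w) ∧ ∀ i ∉ S, ∀ g, P.ρ i g w = w := by
  rw [P.act.mem_XS]
  refine and_congr (forall₂_congr fun i _ => forall_congr' fun x => ?_)
    (forall₂_congr fun i _ => ?_)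
  · rw [← P.act_ρ]
    rfl
  · rw [← P.act.kill_It, P.kill_It]

theorem Pre.mem_TG (C : ∀ i, Ch (K i) F) (w : W) :
    w ∈ P.act.Y (TG (fun i => bnP (K i)) C) ↔ ∀ i x, P.ρ i (uG x) w = P.sc ((C i).ψ x) w :=
  forall_congr' fun i => P.kill_Ig i (C i) w

end act

end Vale.Agent.P022D.Rep
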