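import Vale.Agent.P022D.Rep.Defs

/-!
P022D, block REP: relations in the group algebra.
-/

set_option linter.all false

noncomputable section

namespace Vale.Agent.P022D.Rep

open Classical

variable {K Γ : Type} [Field K] [Group Γ] [Fintype K] [Fintype Γ]
variable {R : Type} [CommRing R] (D : BN K Γ) (C : Ch K R)

theorem BN.u_zero : D.u 0 = 1 := by
  have h := D.u_add 0 0
  rw [add_zero] at h
  exact (mul_eq_left.1 h.symm)

theorem BN.t_one : D.t 1 1 = 1 := by
  have h := D.t_mul 1 1 1 1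
  rw [mul_one] at h
  exact (mul_eq_left.1 h)

theorem BN.t_comm (a d a' d' : Kˣ) : D.t a d * D.t a' d' = D.t a' d' * D.t a d := by
  rw [D.t_mul, D.t_mul, mul_comm a, mul_comm d]

theorem BN.t_w (a d : Kˣ) : D.t a d * D.w = D.w * D.t d a := (D.w_t d a).symm

theorem BN.z_u (z : Kˣ) (x : K) : D.t z z * D.u x = D.u x * D.t z z := by
  rw [D.t_u, mul_comm (z : K) x, mul_assoc, Units.mul_inv, mul_one]

theorem BN.z_comm (z : Kˣ) (g : Γ) : D.t z z * g = g * D.t z z := by
  have hu : ∀ x, Commute (D.t z z) (D.u x) := fun x => D.z_u z x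
  have ht : ∀ a d, Commute (D.t z z) (D.t a d) := fun a d => D.t_comm z z a d
  have hw : Commute (D.t z z) D.w := D.t_w z z
  rcases D.bruhat g with ⟨a, d, x, rfl⟩ | ⟨x, a, d, y, rfl⟩
  · exact (ht a d).mul_right (hu x)
  · exact (((hu x).mul_right (ht a d)).mul_right hw).mul_right (hu y)

theorem BN.low_not (x : K) (hx : x ≠ 0) : D.w * D.u x * D.w ∉ D.B := by
  intro h
  have e := D.wuw (Units.mk0 x hx)
  rw [Units.val_mk0] at e
  rw [e] at h
  apply D.w_not
  have h1 := D.B.mul_mem h (D.B.inv_mem (D.B.mul_mem (D.t_mem (Units.mk0 x hx) (-(Units.mk0 x hx)⁻¹))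
    (D.u_mem (((Units.mk0 x hx)⁻¹ : Kˣ) : K))))
  rw [mul_inv_cancel_right] at h1
  have h2 := D.B.mul_mem (D.B.inv_mem (D.u_mem (((Units.mk0 x hx)⁻¹ : Kˣ) : K))) h1
  rwa [inv_mul_cancel_left] at h2

theorem el_mul (g h : Γ) : el R (g * h) = el R g * el R h := by
  unfold el
  rw [MonoidAlgebra.single_mul_single, mul_one]

theorem el_one : el R (1 : Γ) = 1 := rfl

theorem el_pow (g : Γ) (n : ℕ) : el R (g ^ n) = el R g ^ n := by
  induction n with
  | zero => rw [pow_zero, pow_zero, el_one]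
  | succ n ih => rw [pow_succ, pow_succ, el_mul, ih]

theorem el_ind {p : MonoidAlgebra R Γ → Prop} (a : MonoidAlgebra R Γ) (h1 : ∀ g, p (el R g))
    (h2 : ∀ x y, p x → p y → p (x + y)) (h3 : ∀ (r : R) x, p x → p (r • x)) : p a :=
  MonoidAlgebra.induction_on a (fun g => h1 g) h2 h3

theorem coeff_el (g h : Γ) : (el R g).coeff h = if g = h then 1 else 0 := by
  unfold el
  rw [MonoidAlgebra.coeff_single_apply]

theorem u_ee (c y : K) : el R (D.u y) * ee D C c = C.ψ (c * y) • ee D C c := by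
  unfold ee
  rw [mul_smul_comm, smul_comm (C.ψ (c * y)), Finset.mul_sum]
  congr 1
  rw [Finset.smul_sum]
  refine Fintype.sum_equiv (Equiv.addLeft y) _ _ fun x => ?_
  rw [mul_smul_comm, ← el_mul, ← D.u_add, smul_smul, ← AddChar.map_add_eq_mul, Equiv.coe_addLeft]
  congr 2
  ring

theorem ee_u (c y : K) : ee D C c * el R (D.u y) = C.ψ (c * y) • ee D C c := by
  rw [← u_ee]
  unfold ee
  rw [mul_smul_comm, smul_mul_assoc, Finset.mul_sum, Finset.sum_mul]
  congr 1
  refine Finset.sum_congr rfl fun x _ => ?_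
  rw [mul_smul_comm, smul_mul_assoc, ← el_mul, ← el_mul, ← D.u_add, ← D.u_add, add_comm]

theorem ee_ee (c c' : K) : ee D C c * ee D C c' = if c = c' then ee D C c else 0 := by
  have h : ee D C c * ee D C c' = (C.li * ∑ x : K, C.ψ ((c' - c) * x)) • ee D C c' := by
    conv_lhs => rw [show ee D C c = C.li • ∑ x : K, C.ψ (-(c * x)) • el R (D.u x) from rfl]
    rw [smul_mul_assoc, Finset.sum_mul, mul_smul, Finset.sum_smul]
    congr 1
    refine Finset.sum_congr rfl fun x _ => ?_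
    rw [smul_mul_assoc, u_ee, smul_smul, ← AddChar.map_add_eq_mul]
    congr 2
    ring
  rw [h]
  split_ifs with hc
  · subst hc
    simp [C.li_mul]
  · rw [C.orth _ (sub_ne_zero.2 (Ne.symm hc)), mul_zero, zero_smul]

theorem ee_idem (c : K) : ee D C c * ee D C c = ee D C c := by
  rw [ee_ee, if_pos rfl]

theorem ee_orth {c c' : K} (h : c ≠ c') : ee D C c * ee D C c' = 0 := by
  rw [ee_ee, if_neg h]

theorem sum_ee : ∑ c : K, ee D C c = 1 := by
  unfold ee
  rw [← Finset.smul_sum, Finset.sum_comm]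
  have h : ∀ x : K, ∑ c : K, C.ψ (-(c * x)) • el R (D.u x) =
      if x = 0 then (Fintype.card K : R) • 1 else 0 := by
    intro x
    rw [← Finset.sum_smul]
    split_ifs with hx
    · subst hx
      simp [D.u_zero, el_one]
    · have h1 := C.orth (-x) (neg_ne_zero.2 hx)
      have h2 : ∑ c : K, C.ψ (-(c * x)) = ∑ c : K, C.ψ (-x * c) :=
        Finset.sum_congr rfl fun c _ => by congr 1; ring
      rw [h2, h1, zero_smul]
  rw [Finset.sum_congr rfl fun x _ => h x, Finset.sum_ite_eq' Finset.univ (0 : K),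
    if_pos (Finset.mem_univ _), smul_smul, C.li_mul, one_smul]

theorem t_ee (a d : Kˣ) (c : K) :
    el R (D.t a d) * ee D C c = ee D C (c * (d : K) * ((a⁻¹ : Kˣ) : K)) * el R (D.t a d) := by
  unfold ee
  rw [mul_smul_comm, smul_mul_assoc, Finset.mul_sum, Finset.sum_mul]
  congr 1
  refine Fintype.sum_equiv (Equiv.mulLeft₀ ((a : K) * ((d⁻¹ : Kˣ) : K))
    (mul_ne_zero a.ne_zero (d⁻¹).ne_zero)) _ _ fun x => ?_
  rw [mul_smul_comm, smul_mul_assoc, ← el_mul, ← el_mul, D.t_u, Equiv.mulLeft₀_apply]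
  have h1 : (a : K) * ((d⁻¹ : Kˣ) : K) * x = (a : K) * x * ((d⁻¹ : Kˣ) : K) := by ring
  have h2 : c * (d : K) * ((a⁻¹ : Kˣ) : K) * ((a : K) * x * ((d⁻¹ : Kˣ) : K)) = c * x := by
    have ha := a.ne_zero
    have hd := d.ne_zero
    simp only [Units.val_inv_eq_inv_val]
    field_simp
  simp only [h1, h2]

theorem t_ee0 (a d : Kˣ) : el R (D.t a d) * ee D C 0 = ee D C 0 * el R (D.t a d) := by
  rw [t_ee, zero_mul, zero_mul]

theorem z_mul (z : Kˣ) (x : MonoidAlgebra R Γ) : el R (D.t z z) * x = x * el R (D.t z z) := by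
  refine el_ind (p := fun x => el R (D.t z z) * x = x * el R (D.t z z)) x ?_ ?_ ?_
  · intro g
    rw [← el_mul, ← el_mul, D.z_comm]
  · intro x y hx hy
    rw [mul_add, add_mul, hx, hy]
  · intro r x hx
    rw [mul_smul_comm, smul_mul_assoc, hx]

theorem b_nB {b : Γ} (hb : b ∈ D.B) : el R b * nB D R = nB D R := by
  unfold nB
  rw [Finset.mul_sum]
  refine Finset.sum_bij' (fun x _ => b * x) (fun x _ => b⁻¹ * x) ?_ ?_ ?_ ?_ ?_
  · intro x hx
    simp only [Finset.mem_filter, Finset.mem_univ, true_and] at hx ⊢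
    exact D.B.mul_mem hb hx
  · intro x hx
    simp only [Finset.mem_filter, Finset.mem_univ, true_and] at hx ⊢
    exact D.B.mul_mem (D.B.inv_mem hb) hx
  · intro x _
    rw [inv_mul_cancel_left]
  · intro x _
    rw [mul_inv_cancel_left]
  · intro x _
    rw [el_mul]

theorem coeff_nB (g : Γ) : (nB D R).coeff g = if g ∈ D.B then 1 else 0 := by
  unfold nB
  rw [MonoidAlgebra.coeff_sum, Finsupp.finset_sum_apply]
  simp only [coeff_el]
  rw [Finset.sum_ite_eq']
  simp

theorem coeff_el_mul (g h : Γ) (x : MonoidAlgebra R Γ) :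
    (el R g * x).coeff h = x.coeff (g⁻¹ * h) := by
  unfold el
  rw [MonoidAlgebra.coeff_single_mul_apply, one_mul]

theorem ee0_fix {M : Type} [AddCommGroup M] [Module R M] [Module (MonoidAlgebra R Γ) M]
    [IsScalarTower R (MonoidAlgebra R Γ) M] (x : M) (hx : ∀ y, el R (D.u y) • x = x) :
    ee D C 0 • x = x := by
  unfold ee
  rw [smul_assoc, Finset.sum_smul]
  simp only [zero_mul, neg_zero, AddChar.map_zero_eq_one, one_smul, hx]
  rw [Finset.sum_const, Finset.card_univ, ← Nat.cast_smul_eq_nsmul R, smul_smul, C.li_mul,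
    one_smul]

theorem ee0_nB : ee D C 0 * nB D R = nB D R :=
  ee0_fix D C (nB D R) fun y => b_nB D (D.u_mem y)

theorem ee1_nB : ee D C 1 * nB D R = 0 := by
  rw [← ee0_nB D C, ← mul_assoc, ee_orth D C one_ne_zero, zero_mul]

theorem coeff_v0 : (v0 D C).coeff D.w = C.li := by
  unfold v0 ee
  rw [mul_assoc, smul_mul_assoc, Finset.sum_mul, MonoidAlgebra.coeff_smul_apply,
    MonoidAlgebra.coeff_sum, Finsupp.finset_sum_apply, Finset.sum_eq_single (0 : K)]
  · rw [smul_mul_assoc, MonoidAlgebra.coeff_smul_apply, D.u_zero, el_one, one_mul (el R D.w * nB D R),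
      coeff_el_mul, inv_mul_cancel, coeff_nB, if_pos D.B.one_mem]
    simp
  · intro x _ hx
    rw [smul_mul_assoc, MonoidAlgebra.coeff_smul_apply, coeff_el_mul, coeff_el_mul, coeff_nB,
      if_neg, smul_zero]
    have h1 : (D.u x)⁻¹ = D.u (-x) := by
      rw [inv_eq_iff_mul_eq_one, ← D.u_add, add_neg_cancel, D.u_zero]
    have h2 : D.w⁻¹ = D.w := by
      rw [inv_eq_iff_mul_eq_one, D.w_w]
    rw [h1, h2, ← mul_assoc]
    exact D.low_not _ (neg_ne_zero.2 hx)
  · intro h
    exact absurd (Finset.mem_univ _) h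

theorem ee_v0 : ee D C 1 * v0 D C = v0 D C := by
  unfold v0
  rw [← mul_assoc, ← mul_assoc, ee_idem]

theorem ee_g_nB (c : K) (g : Γ) : ∃ r s : R,
    ee D C c * el R g * nB D R = r • (ee D C c * nB D R) + s • (ee D C c * el R D.w * nB D R) := by
  rcases D.bruhat g with ⟨a, d, x, rfl⟩ | ⟨x, a, d, y, rfl⟩
  · refine ⟨1, 0, ?_⟩
    rw [mul_assoc, b_nB D (D.B.mul_mem (D.t_mem a d) (D.u_mem x)), one_smul, zero_smul, add_zero]
  · refine ⟨0, C.ψ (c * x), ?_⟩
    have h : D.u x * D.t a d * D.w * D.u y = D.u x * (D.w * (D.t d a * D.u y)) := by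
      rw [mul_assoc (D.u x), D.t_w]
      simp only [mul_assoc]
    rw [h, el_mul, el_mul, ← mul_assoc, ee_u, mul_assoc, mul_assoc,
      b_nB D (D.B.mul_mem (D.t_mem d a) (D.u_mem y)), zero_smul, zero_add, smul_mul_assoc, mul_assoc]

theorem ee_a_nB (c : K) (a : MonoidAlgebra R Γ) : ∃ r s : R,
    ee D C c * a * nB D R = r • (ee D C c * nB D R) + s • (ee D C c * el R D.w * nB D R) := by
  refine el_ind (p := fun a => ∃ r s : R, ee D C c * a * nB D R =
    r • (ee D C c * nB D R) + s • (ee D C c * el R D.w * nB D R)) a (ee_g_nB D C c) ?_ ?_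
  · rintro x y ⟨r, s, h⟩ ⟨r', s', h'⟩
    refine ⟨r + r', s + s', ?_⟩
    rw [mul_add, add_mul, h, h', add_smul, add_smul]
    abel
  · rintro k x ⟨r, s, h⟩
    refine ⟨k * r, k * s, ?_⟩
    rw [mul_smul_comm, smul_mul_assoc, h, smul_add, smul_smul, smul_smul]

theorem chi_of {a : MonoidAlgebra R Γ} {s : R} (h : ee D C 1 * a * v0 D C = s • v0 D C) :
    chi D C a = s := by
  unfold chi
  rw [h, MonoidAlgebra.coeff_smul_apply, coeff_v0, smul_eq_mul, mul_left_comm,
    mul_comm _ C.li, C.li_mul, mul_one]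

theorem chi_spec (a : MonoidAlgebra R Γ) : ee D C 1 * a * v0 D C = chi D C a • v0 D C := by
  obtain ⟨r, s, h⟩ := ee_a_nB D C 1 (a * (ee D C 1 * el R D.w))
  have h1 : ee D C 1 * a * v0 D C = s • v0 D C := by
    rw [ee1_nB, smul_zero, zero_add] at h
    unfold v0
    rw [← h]
    simp only [mul_assoc]
  rw [chi_of D C h1, h1]

theorem chi_one : chi D C 1 = 1 := chi_of D C (by rw [mul_one, ee_v0, one_smul])

theorem chi_smul (r : R) (a : MonoidAlgebra R Γ) : chi D C (r • a) = r * chi D C a :=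
  chi_of D C (by rw [mul_smul_comm, smul_mul_assoc, chi_spec, smul_smul])

theorem chi_sub (a b : MonoidAlgebra R Γ) : chi D C (a - b) = chi D C a - chi D C b :=
  chi_of D C (by rw [mul_sub, sub_mul, chi_spec, chi_spec, sub_smul])

theorem chi_ee_mul (a : MonoidAlgebra R Γ) : chi D C (ee D C 1 * a) = chi D C a :=
  chi_of D C (by rw [← mul_assoc, ee_idem, chi_spec])

theorem chi_mul_ee (a : MonoidAlgebra R Γ) : chi D C (a * ee D C 1) = chi D C a :=
  chi_of D C (by rw [mul_assoc, mul_assoc, ee_v0, ← mul_assoc, chi_spec])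

theorem chi_mul (a b : MonoidAlgebra R Γ) :
    chi D C (a * ee D C 1 * b) = chi D C a * chi D C b := by
  apply chi_of
  have h : ee D C 1 * (a * ee D C 1 * b) * v0 D C = ee D C 1 * a * (ee D C 1 * b * v0 D C) := by
    simp only [mul_assoc]
  rw [h, chi_spec, mul_smul_comm, chi_spec, smul_smul, mul_comm]

theorem chi_z (z : Kˣ) : chi D C (el R (D.t z z)) = 1 := by
  apply chi_of
  rw [mul_assoc, one_smul]
  have h : el R (D.t z z) * v0 D C = v0 D C := by
    unfold v0
    rw [← mul_assoc, z_mul, mul_assoc, b_nB D (D.t_mem z z)]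
  rw [h, ee_v0]

end Vale.Agent.P022D.Rep
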