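import Vale.Agent.P022D.Rep.Basic

/-!
P022D, block REP: general lemmas (idempotents, fixed vectors of 2-groups, summands of the group
algebra).
-/

set_option linter.all false

noncomputable section

namespace Vale.Agent.P022D.Rep

open Classical Module

theorem idem_comm {B : Type} [CommRing B] [IsArtinianRing B] (I : Ideal B) :
    ∃ ε ∈ I, ∃ n : ℕ, ε * ε = ε ∧ ∀ x ∈ I ^ n, x * ε = x := by
  obtain ⟨n, hn⟩ := IsArtinian.monotone_stabilizes (R := B) (M := B)
    ⟨fun n => OrderDual.toDual (I ^ (n + 1)), fun a b hab =>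
      (Ideal.pow_le_pow_right (by omega) : I ^ (b + 1) ≤ I ^ (a + 1))⟩
  have h1 : IsIdempotentElem (I ^ (n + 1)) := by
    have h := hn (2 * n + 1) (by omega)
    have h' : I ^ (n + 1) = I ^ (2 * n + 1 + 1) := h
    unfold IsIdempotentElem
    rw [← pow_add, h']
    congr 1
    omega
  obtain ⟨ε, hε, h2⟩ := (Ideal.isIdempotentElem_iff_of_fg _
    (IsNoetherian.noetherian (I ^ (n + 1)))).1 h1
  refine ⟨ε, ?_, n + 1, hε, ?_⟩
  · apply Ideal.pow_le_self (n := n + 1) (by omega)
    rw [h2]
    exact Submodule.mem_span_singleton_self ε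
  · intro x hx
    rw [h2] at hx
    obtain ⟨a, rfl⟩ := Submodule.mem_span_singleton.1 hx
    rw [smul_eq_mul, mul_assoc, hε]

theorem idem_ex {F A : Type} [Field F] [Ring A] [Algebra F A] [Module.Finite F A]
    (I : Submodule F A) (hmul : ∀ x ∈ I, ∀ y ∈ I, x * y ∈ I)
    (hc : ∀ x ∈ I, ∀ y ∈ I, x * y = y * x) :
    ∃ ε ∈ I, ∃ n : ℕ, ε * ε = ε ∧
      ∀ l : List A, l.length = n → (∀ x ∈ l, x ∈ I) → l.prod * ε = l.prod := by
  let B := Algebra.adjoin F (I : Set A)
  have hB : IsMulCommutative B := Algebra.isMulCommutative_adjoin F hc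
  letI : CommRing B := { (inferInstance : Ring B) with mul_comm := hB.is_comm.comm }
  haveI : IsArtinianRing B := IsArtinianRing.of_finite F B
  have hst : ∀ b ∈ B, ∀ x ∈ I, b * x ∈ I := by
    intro b hb
    induction hb using Algebra.adjoin_induction with
    | mem y hy => exact fun x hx => hmul y hy x hx
    | algebraMap r =>
      intro x hx
      rw [← Algebra.smul_def]
      exact I.smul_mem r hx
    | add y z _ _ hy hz =>
      intro x hx
      rw [add_mul]
      exact I.add_mem (hy x hx) (hz x hx)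
    | mul y z _ _ hy hz =>
      intro x hx
      rw [mul_assoc]
      exact hy _ (hz x hx)
  let J : Ideal B :=
    { carrier := {b | (b : A) ∈ I}
      zero_mem' := I.zero_mem
      add_mem' := fun ha hb => I.add_mem ha hb
      smul_mem' := fun b x hx => hst b b.2 x hx }
  obtain ⟨ε, hε, n, h1, h2⟩ := idem_comm J
  refine ⟨ε, hε, n, congrArg Subtype.val h1, ?_⟩
  have h3 : ∀ l : List A, (∀ x ∈ l, x ∈ I) → ∃ y ∈ J ^ l.length, (y : A) = l.prod := by
    intro l
    induction l with
    | nil => exact fun _ => ⟨1, by simp, rfl⟩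
    | cons a l ih =>
      intro h
      obtain ⟨y, hy, e⟩ := ih fun x hx => h x (List.mem_cons_of_mem a hx)
      have ha : a ∈ I := h a List.mem_cons_self
      refine ⟨⟨a, Algebra.subset_adjoin ha⟩ * y, ?_, ?_⟩
      · rw [List.length_cons, pow_succ']
        exact Ideal.mul_mem_mul ha hy
      · rw [List.prod_cons, ← e]
        rfl
  intro l hl h
  obtain ⟨y, hy, e⟩ := h3 l h
  rw [hl] at hy
  rw [← e]
  exact congrArg Subtype.val (h2 y hy)

theorem fixvec {H V : Type} [Group H] [Finite H] (hH : IsPGroup 2 H) [AddCommGroup V]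
    (act : H → V →+ V) (h1 : ∀ v, act 1 v = v) (hm : ∀ g h v, act (g * h) v = act g (act h v))
    (h2 : ∀ v : V, v + v = 0) (W : AddSubgroup V) (hW : ∀ g, ∀ v ∈ W, act g v ∈ W)
    (v : V) (hv : v ∈ W) (h0 : v ≠ 0) : ∃ w ∈ W, w ≠ 0 ∧ ∀ g, act g w = w := by
  let S := AddSubgroup.closure (Set.range fun g => act g v)
  have hSW : S ≤ W := by
    rw [AddSubgroup.closure_le]
    rintro _ ⟨g, rfl⟩
    exact hW g v hv
  have hS : ∀ g, ∀ x ∈ S, act g x ∈ S := by
    intro g x hx
    have h : S ≤ S.comap (act g) := by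
      rw [AddSubgroup.closure_le]
      rintro _ ⟨h, rfl⟩
      exact AddSubgroup.subset_closure ⟨g * h, hm g h v⟩
    exact h hx
  haveI : AddGroup.FG S := by
    rw [AddGroup.fg_iff_addSubgroup_fg]
    exact (AddSubgroup.fg_iff _).2 ⟨_, rfl, Set.finite_range _⟩
  haveI : Finite S := by
    apply AddCommGroup.finite_of_fg_torsion
    intro x
    rw [isOfFinAddOrder_iff_nsmul_eq_zero]
    exact ⟨2, by norm_num, Subtype.ext (by rw [two_nsmul]; exact h2 x)⟩
  letI : MulAction H S :=
    { smul := fun g x => ⟨act g x, hS g x x.2⟩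
      one_smul := fun x => Subtype.ext (h1 x)
      mul_smul := fun g h x => Subtype.ext (hm g h x) }
  have hvS : v ∈ S := AddSubgroup.subset_closure ⟨1, h1 v⟩
  have hd : 2 ∣ Nat.card S := by
    have h : addOrderOf (⟨v, hvS⟩ : S) = 2 :=
      addOrderOf_eq_prime (Subtype.ext (by rw [two_nsmul]; exact h2 v))
        (fun h => h0 (congrArg Subtype.val h))
    rw [← h]
    exact addOrderOf_dvd_natCard _
  obtain ⟨b, hb, hne⟩ := hH.exists_fixed_point_of_prime_dvd_card_of_fixed_point S hd
    (a := 0) (fun g => Subtype.ext (map_zero (act g)))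
  exact ⟨b, hSW b.2, fun h => hne (Subtype.ext h.symm), fun g => congrArg Subtype.val (hb g)⟩

section proj

variable {F Γ : Type} [Field F] [CharP F 2] [Group Γ] [Fintype Γ]

theorem proj_ineq (H : Subgroup Γ) (hH : IsPGroup 2 H) (X : Submodule F (MonoidAlgebra F Γ))
    (hX : ∀ h : H, ∀ x ∈ X, el F (h : Γ) * x ∈ X) :
    Nat.card H * finrank F (X.map (LinearMap.mulLeft F (∑ h : H, el F (h : Γ)))) ≤
      finrank F X := by
  set Y := X.map (LinearMap.mulLeft F (∑ h : H, el F (h : Γ))) with hY
  let b := Module.finBasis F Y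
  have hx : ∀ i, ∃ x ∈ X, (∑ h : H, el F (h : Γ)) * x = b i := fun i => (b i).2
  choose x hxX hxb using hx
  let φ : (Fin (finrank F Y) → H → F) →ₗ[F] MonoidAlgebra F Γ :=
    { toFun := fun c => ∑ i, ∑ h : H, c i h • (el F (h : Γ) * x i)
      map_add' := fun c d => by
        simp only [Pi.add_apply, add_smul, Finset.sum_add_distrib]
      map_smul' := fun r c => by
        simp only [Pi.smul_apply, smul_eq_mul, mul_smul, Finset.smul_sum, RingHom.id_apply] }
  have hφ : ∀ c, φ c = ∑ i, ∑ h : H, c i h • (el F (h : Γ) * x i) := fun c => rfl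
  have hinj : Function.Injective φ := by
    rw [injective_iff_map_eq_zero]
    intro c hc
    by_contra h0
    let act : H → (Fin (finrank F Y) → H → F) →+ (Fin (finrank F Y) → H → F) := fun g =>
      { toFun := fun c i h => c i (g⁻¹ * h), map_zero' := rfl, map_add' := fun _ _ => rfl }
    obtain ⟨w, hw, hw0, hfix⟩ := fixvec hH act
      (fun v => by ext i h; simp [act]) (fun g h v => by ext i k; simp [act, mul_assoc])
      (fun v => by ext i h; exact CharTwo.add_self_eq_zero _) φ.toAddMonoidHom.ker
      (fun g v hv => by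
        have hv' : φ v = 0 := hv
        have h : φ (fun i h => v i (g⁻¹ * h)) = el F (g : Γ) * φ v := by
          rw [hφ, hφ, Finset.mul_sum]
          refine Finset.sum_congr rfl fun i _ => ?_
          rw [Finset.mul_sum]
          refine (Fintype.sum_equiv (Equiv.mulLeft g) _ _ fun k => ?_).symm
          rw [Equiv.coe_mulLeft, inv_mul_cancel_left, mul_smul_comm, ← mul_assoc, ← el_mul]
          rfl
        rw [hv', mul_zero] at h
        exact h) c hc h0
    have hw' : φ w = 0 := hw
    have hc1 : ∀ i h, w i h = w i 1 := by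
      intro i h
      have e := congrFun (congrFun (hfix h) i) h
      have e' : w i (h⁻¹ * h) = w i h := e
      rw [inv_mul_cancel] at e'
      exact e'.symm
    have hs : ∑ i, w i 1 • b i = 0 := by
      apply Subtype.ext
      rw [Submodule.coe_sum, Submodule.coe_zero, ← hw', hφ]
      refine Finset.sum_congr rfl fun i _ => ?_
      rw [Submodule.coe_smul, ← hxb, Finset.sum_mul, Finset.smul_sum]
      refine Finset.sum_congr rfl fun h _ => ?_
      rw [hc1 i h]
    have hz := Fintype.linearIndependent_iff.1 b.linearIndependent _ hs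
    apply hw0
    ext i h
    rw [hc1, hz]
    rfl
  have hle : LinearMap.range φ ≤ X := by
    rintro _ ⟨c, rfl⟩
    rw [hφ]
    exact X.sum_mem fun i _ => X.sum_mem fun h _ => X.smul_mem _ (hX h _ (hxX i))
  have h1 := Submodule.finrank_mono hle
  rw [LinearMap.finrank_range_of_inj hinj, Module.finrank_pi_fintype] at h1
  simp only [Module.finrank_fintype_fun_eq_card, Finset.sum_const, Finset.card_univ,
    Fintype.card_fin, smul_eq_mul] at h1
  rw [Nat.card_eq_fintype_card, mul_comm]
  exact h1

theorem proj_free (H : Subgroup Γ) : Fintype.card Γ ≤ Nat.card H *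
    finrank F (LinearMap.range (LinearMap.mulLeft F (∑ h : H, el F (h : Γ)))) := by
  have hli : LinearIndependent F fun q : Γ ⧸ H =>
      (∑ h : H, el F (h : Γ)) * el F (q.out)⁻¹ := by
    rw [Fintype.linearIndependent_iff]
    intro c hc q
    have h := congrArg (fun x : MonoidAlgebra F Γ => x.coeff (q.out)⁻¹) hc
    simp only [MonoidAlgebra.coeff_sum, Finsupp.finset_sum_apply, MonoidAlgebra.coeff_smul_apply,
      Finset.sum_mul, ← el_mul, coeff_el, MonoidAlgebra.coeff_zero, Finsupp.zero_apply] at h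
    rw [Finset.sum_eq_single q, Finset.sum_eq_single (1 : H)] at h
    · simpa using h
    · intro k _ hk
      rw [if_neg]
      intro e
      apply hk
      apply Subtype.ext
      exact mul_eq_right.1 e
    · intro h
      exact absurd (Finset.mem_univ _) h
    · intro q' _ hq
      rw [Finset.sum_eq_zero, smul_zero]
      intro k _
      rw [if_neg]
      intro e
      apply hq
      rw [← q.out_eq, ← q'.out_eq, eq_comm, QuotientGroup.eq, ← e, inv_mul_cancel_right]
      exact k.2
    · intro h
      exact absurd (Finset.mem_univ _) h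
  have h1 : Fintype.card (Γ ⧸ H) ≤
      finrank F (LinearMap.range (LinearMap.mulLeft F (∑ h : H, el F (h : Γ)))) := by
    rw [← finrank_span_eq_card hli]
    apply Submodule.finrank_mono
    rw [Submodule.span_le]
    rintro _ ⟨q, rfl⟩
    exact ⟨_, rfl⟩
  have h2 := H.card_eq_card_quotient_mul_card_subgroup
  rw [Nat.card_eq_fintype_card, Nat.card_eq_fintype_card (α := Γ ⧸ H)] at h2
  rw [h2, mul_comm]
  exact Nat.mul_le_mul_left _ h1

/-- the dimension of a summand of the group algebra is divisible by the order of a 2-subgroup -/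
theorem proj_dvd (H : Subgroup Γ) (hH : IsPGroup 2 H)
    (q : MonoidAlgebra F Γ →ₗ[F] MonoidAlgebra F Γ) (hq : ∀ x, q (q x) = q x)
    (hc : ∀ (h : H) x, q (el F (h : Γ) * x) = el F (h : Γ) * q x) :
    Nat.card H ∣ finrank F (LinearMap.range q) := by
  have h1 := proj_ineq H hH (LinearMap.range q) (by
    rintro h _ ⟨x, rfl⟩
    exact ⟨_, hc h x⟩)
  have h2 := proj_ineq H hH (LinearMap.ker q) (by
    intro h x hx
    rw [LinearMap.mem_ker] at hx ⊢
    rw [hc, hx, mul_zero])
  have h3 := proj_free (F := F) H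
  have h4 := LinearMap.finrank_range_add_finrank_ker q
  have h5 : finrank F (MonoidAlgebra F Γ) = Fintype.card Γ :=
    Module.finrank_eq_card_basis (MonoidAlgebra.basis Γ F)
  set N := LinearMap.mulLeft F (∑ h : H, el F (h : Γ)) with hN
  have h6 : LinearMap.range N ≤ (LinearMap.range q).map N ⊔ (LinearMap.ker q).map N := by
    rintro _ ⟨x, rfl⟩
    have e : N x = N (q x) + N (x - q x) := by rw [← map_add, add_sub_cancel]
    rw [e]
    refine Submodule.add_mem_sup ⟨_, ⟨x, rfl⟩, rfl⟩ ⟨_, ?_, rfl⟩
    rw [SetLike.mem_coe, LinearMap.mem_ker, map_sub, hq, sub_self]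
  have h7 := (Submodule.finrank_mono h6).trans (Submodule.finrank_add_le_finrank_add_finrank _ _)
  have h8 := Nat.mul_le_mul_left (Nat.card H) h7
  rw [mul_add] at h8
  exact ⟨finrank F ((LinearMap.range q).map N), by omega⟩

end proj

end Vale.Agent.P022D.Rep
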