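import Vale.Agent.P022D.Rep.Dec
import Vale.Agent.P022D.Rep.Gen

/-!
P022D, block REP: the multiplicities of `Triv` and `Pib` in the unipotent summand of the
Gelfand-Graev module.
-/

set_option linter.all false

noncomputable section

namespace Vale.Agent.P022D.Rep

open Classical Module

theorem numer {a b c u w q m : ℕ} (hu : Odd u) (hw : Odd w) (h1 : q = 2 ^ a * u + 1)
    (h2 : q + 1 = 2 ^ b * w) (ha : 1 ≤ a) (hd : 2 ^ (a + c + b) ∣ 2 ^ (a + c) + (q - 1) * m)
    (hm : 2 ^ (a + c) ≤ 2 * m) : 2 ^ (a + c) + 2 ^ (c + b) ≤ 2 * m := by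
  have e1 : 2 ^ (a + c) + (q - 1) * m = 2 ^ a * (2 ^ c + u * m) := by
    rw [h1, Nat.add_sub_cancel]
    ring
  have e2 : 2 ^ (a + c + b) = 2 ^ a * (2 ^ c * 2 ^ b) := by ring
  rw [e1, e2, Nat.mul_dvd_mul_iff_left (by positivity)] at hd
  have h3 : 2 ^ c ∣ u * m := (Nat.dvd_add_right dvd_rfl).1 ((dvd_mul_right _ _).trans hd)
  obtain ⟨n, rfl⟩ : 2 ^ c ∣ m :=
    (Nat.Coprime.pow_left c (Nat.coprime_two_left.2 hu)).dvd_of_dvd_mul_left h3
  have e3 : 2 ^ c + u * (2 ^ c * n) = 2 ^ c * (1 + u * n) := by ring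
  rw [e3, Nat.mul_dvd_mul_iff_left (by positivity)] at hd
  have h4 : 2 ^ a ≤ 2 * n := by
    have e : 2 * (2 ^ c * n) = 2 ^ c * (2 * n) := by ring
    rw [pow_add, mul_comm, e] at hm
    exact Nat.le_of_mul_le_mul_left hm (by positivity)
  have h5 : 2 ^ a + 2 ^ b ≤ 2 * n := by
    obtain ⟨a', rfl⟩ := Nat.exists_eq_add_of_le' ha
    obtain ⟨w', rfl⟩ := hw
    obtain ⟨u', rfl⟩ := hu
    rcases b with _ | b'
    · exfalso
      rw [pow_succ] at h1
      have : 2 ^ a' * 2 * (2 * u' + 1) = 2 * (2 ^ a' * (2 * u' + 1)) := by ring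
      omega
    rcases a' with _ | a''
    · obtain ⟨s, hs⟩ := hd
      have h6 : 2 * u' + 2 = 2 ^ b' * (2 * w' + 1) := by
        have : 2 ^ (b' + 1) * (2 * w' + 1) = 2 * (2 ^ b' * (2 * w' + 1)) := by ring
        omega
      rw [pow_succ] at hs
      rw [pow_succ 2 b']
      generalize 2 ^ b' = p at *
      obtain ⟨n', rfl⟩ : ∃ n', n = n' + 1 := ⟨n - 1, by omega⟩
      have h7 : (p : ℤ) ∣ n' := by
        refine ⟨(2 * w' + 1) * (n' + 1) - 2 * s, ?_⟩
        have h6' : (2 * u' + 2 : ℤ) = p * (2 * w' + 1) := by exact_mod_cast h6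
        have hs' : (1 + (2 * u' + 1) * (n' + 1) : ℤ) = p * 2 * s := by exact_mod_cast hs
        linear_combination (-(n' + 1 : ℤ)) * h6' * (-1) + (-1) * hs'
      rcases Nat.eq_zero_or_pos n' with h0 | h0
      · exfalso
        subst h0
        have hp : 0 < p := by
          rcases Nat.eq_zero_or_pos p with h | h
          · subst h
            omega
          · exact h
        have h8 : p * (2 * w' + 1) = p * (2 * s) := by
          rw [← h6, ← mul_assoc, ← hs]
          ring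
        have := Nat.eq_of_mul_eq_mul_left hp h8
        omega
      · have := Nat.le_of_dvd h0 (Int.natCast_dvd_natCast.1 h7)
        omega
    · have e4 : 2 ^ (a'' + 1 + 1) = 4 * 2 ^ a'' := by ring
      rcases b' with _ | b''
      · obtain ⟨s, hs⟩ := hd
        have e5 : (2 * u' + 1) * n = 2 * (u' * n) + n := by ring
        rw [e4] at h4 ⊢
        omega
      · exfalso
        have e5 : 2 ^ (b'' + 1 + 1) * (2 * w' + 1) = 4 * (2 ^ b'' * (2 * w' + 1)) := by ring
        have e6 : 2 ^ (a'' + 1 + 1) * (2 * u' + 1) = 4 * (2 ^ a'' * (2 * u' + 1)) := by ring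
        omega
  calc 2 ^ (a + c) + 2 ^ (c + b) = 2 ^ c * (2 ^ a + 2 ^ b) := by ring
    _ ≤ 2 ^ c * (2 * n) := Nat.mul_le_mul_left _ h5
    _ = 2 * (2 ^ c * n) := by ring

variable {K Γ : Type} [Field K] [Group Γ] [Fintype K] [Fintype Γ]
variable {F : Type} [Field F] [CharP F 2] {D : BN K Γ} {C : Ch K F}

section cyc

variable {X : Type} [AddCommGroup X] [Module F X] [Module (MonoidAlgebra F Γ) X]
  [IsScalarTower F (MonoidAlgebra F Γ) X]

theorem Wh.z {v : X} (h : Wh D C v) (z : Kˣ) (a : MonoidAlgebra F Γ) :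
    el F (D.t z z) • a • v = a • v := by
  have e := h (el F (D.t z z))
  rw [chi_z, one_smul, ← z_mul, mul_smul, h.fix] at e
  rw [smul_smul, z_mul, mul_smul, e]

theorem ee0_span {v : X} (h : ee D C 1 • v = v) (W : Submodule F X)
    (hW : ∀ a d, el F (D.t a d) • (ee D C 0 * el F D.w) • v ∈ W) (a : MonoidAlgebra F Γ) :
    (ee D C 0 * a) • v ∈ W := by
  refine el_ind (p := fun a => (ee D C 0 * a) • v ∈ W) a ?_ ?_ ?_
  · intro g
    rw [← h, smul_smul]
    rcases ee0_g_ee D C g with e | ⟨a, d, r, e⟩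
    · rw [e, zero_smul]
      exact W.zero_mem
    · rw [e, smul_assoc, mul_smul, mul_smul, h]
      exact W.smul_mem _ (hW a d)
  · intro x y hx hy
    rw [mul_add, add_smul]
    exact W.add_mem hx hy
  · intro r x hx
    rw [mul_smul_comm, smul_assoc]
    exact W.smul_mem _ hx

theorem cyc_le [Module.Finite F X] {v : X} (h : Wh D C v)
    (hs : ∀ x : X, ∃ a : MonoidAlgebra F Γ, a • v = x) : dm F (ee D C 0) X ≤ 2 := by
  obtain ⟨g, hg⟩ := IsCyclic.exists_monoid_generator (α := Kˣ)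
  set y := (ee D C 0 * el F D.w) • v with hy
  have hsq : ∀ s : Kˣ, el F (D.t (s * s) 1) • y = y := by
    intro s
    have e : D.t (s * s) 1 = D.t s s * D.t s s⁻¹ := by rw [D.t_mul, mul_inv_cancel]
    rw [e, el_mul, mul_smul, (h.ng _).sl, hy, h.z]
  have hle : Fx F (ee D C 0) X ≤ Submodule.span F (({y, el F (D.t g 1) • y} : Finset X) : Set X) := by
    intro x hx
    obtain ⟨a, rfl⟩ := hs x
    have hx' : ee D C 0 • a • v = a • v := hx
    rw [← hx', smul_smul (ee D C 0)]
    refine ee0_span h.fix _ (fun a d => ?_) a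
    have e : D.t a d = D.t (a * d⁻¹) 1 * D.t d d := by
      rw [D.t_mul, one_mul, inv_mul_cancel_right]
    rw [e, el_mul, mul_smul, h.z, ← hy]
    obtain ⟨n, hn⟩ := hg (a * d⁻¹)
    rw [← hn]
    apply Submodule.subset_span
    rcases Nat.even_or_odd' n with ⟨k, rfl | rfl⟩
    · simp only [two_mul, pow_add, hsq]
      simp
    · have e2 : D.t (g ^ (2 * k + 1)) 1 = D.t g 1 * D.t (g ^ k * g ^ k) 1 := by
        rw [D.t_mul, one_mul, pow_succ', two_mul, pow_add]
      simp only [e2, el_mul, mul_smul, hsq]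
      simp
  exact (Submodule.finrank_mono hle).trans ((finrank_span_finset_le_card _).trans Finset.card_le_two)

theorem cyc_unip {v : X} (h : Wh D C v) (hs : ∀ x : X, ∃ a : MonoidAlgebra F Γ, a • v = x)
    (a d : Kˣ) (x : X) (hx : ee D C 0 • x = x) : (el F (D.t a d) - 1) ^ 2 • x = 0 := by
  obtain ⟨b, rfl⟩ := hs x
  rw [← hx, smul_smul (ee D C 0), pow_two, sq_two, sub_smul, (h.ng b).sq, h.z, one_smul, sub_self]

end cyc

/-- modules of the block generated by their Whittaker vectors -/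
theorem gen_bound (X : Type) [AddCommGroup X] [Module F X] [Module (MonoidAlgebra F Γ) X]
    [IsScalarTower F (MonoidAlgebra F Γ) X] [Module.Finite F X] (h : InC D C X)
    (hg : Submodule.span (MonoidAlgebra F Γ) {x : X | ee D C 1 • x = x} = ⊤) :
    dm F (ee D C 0) X ≤ 2 * dm F (ee D C 1) X ∧ ∃ n : ℕ, ∀ (a d : Kˣ) (x : X),
      ee D C 0 • x = x → (el F (D.t a d) - 1) ^ n • x = 0 := by
  revert h hg
  refine mod_ind (F := F) (A := MonoidAlgebra F Γ) (fun X _ _ _ _ => InC D C X →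
    Submodule.span (MonoidAlgebra F Γ) {x : X | ee D C 1 • x = x} = ⊤ →
    dm F (ee D C 0) X ≤ 2 * dm F (ee D C 1) X ∧ ∃ n : ℕ, ∀ (a d : Kˣ) (x : X),
      ee D C 0 • x = x → (el F (D.t a d) - 1) ^ n • x = 0) ?_ X
  intro X _ _ _ _ _ ih h hg
  by_cases h0 : ∀ x : X, ee D C 1 • x = x → x = 0
  · have h1 : (⊤ : Submodule (MonoidAlgebra F Γ) X) = ⊥ := by
      rw [← hg, Submodule.span_eq_bot]
      exact h0
    haveI : Subsingleton X := subsingleton_of_forall_eq 0 fun x => by
      have : x ∈ (⊤ : Submodule (MonoidAlgebra F Γ) X) := trivial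
      rw [h1] at this
      exact this
    refine ⟨?_, 0, fun _ _ _ _ => Subsingleton.elim _ _⟩
    rw [dm, finrank_zero_of_subsingleton]
    exact Nat.zero_le _
  · push Not at h0
    obtain ⟨x, hx, hx0⟩ := h0
    obtain ⟨v, hv, hw⟩ := h.wh hx hx0
    let S := Submodule.span (MonoidAlgebra F Γ) {v}
    have hvS : v ∈ S := Submodule.mem_span_singleton_self v
    have hS : S ≠ ⊥ := (Submodule.ne_bot_iff S).2 ⟨v, hvS, hv⟩
    have hw' : Wh D C (⟨v, hvS⟩ : S) := fun a => Subtype.ext (hw a)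
    have hs' : ∀ x : S, ∃ a : MonoidAlgebra F Γ, a • (⟨v, hvS⟩ : S) = x := by
      intro x
      obtain ⟨a, ha⟩ := Submodule.mem_span_singleton.1 x.2
      exact ⟨a, Subtype.ext ha⟩
    haveI : Module.Finite F S :=
      Module.Finite.of_injective (S.subtype.restrictScalars F) S.injective_subtype
    obtain ⟨h1, n, h2⟩ := ih S hS (h.surj S.mkQ S.mkQ_surjective) (by
      rw [eq_top_iff, ← Submodule.range_mkQ, ← Submodule.map_top, ← hg, Submodule.map_span]
      apply Submodule.span_mono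
      rintro _ ⟨y, hy, rfl⟩
      have hy' : ee D C 1 • y = y := hy
      show ee D C 1 • S.mkQ y = S.mkQ y
      rw [← map_smul, hy'])
    have h3 := cyc_le hw' hs'
    have h4 : 1 ≤ dm F (ee D C 1) S := by
      rw [dm, Nat.one_le_iff_ne_zero]
      intro e
      have e1 := Submodule.finrank_eq_zero.1 e
      have e2 : (⟨v, hvS⟩ : S) ∈ Fx F (ee D C 1) S := hw'.fix
      rw [e1] at e2
      exact hv (congrArg Subtype.val e2)
    refine ⟨?_, 2 + n, fun a d x hx => ?_⟩
    · rw [dm_sub (ee_idem D C 0) S, dm_sub (ee_idem D C 1) S]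
      omega
    · have h5 := h2 a d (S.mkQ x) (by rw [← map_smul, hx])
      rw [← map_smul] at h5
      have h6 : (el F (D.t a d) - 1) ^ n • x ∈ S := (Submodule.Quotient.mk_eq_zero _).1 h5
      have hc : Commute (ee D C 0) ((el F (D.t a d) - 1) ^ n) :=
        (Commute.sub_right (t_ee0 D C a d).symm (Commute.one_right _)).pow_right n
      have h7 := cyc_unip hw' hs' a d ⟨_, h6⟩ (Subtype.ext (by
        show ee D C 0 • (el F (D.t a d) - 1) ^ n • x = (el F (D.t a d) - 1) ^ n • x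
        rw [smul_smul, hc.eq, mul_smul, hx]))
      rw [pow_add, mul_smul]
      exact congrArg Subtype.val h7

end Vale.Agent.P022D.Rep
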