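import Vale.Agent.P022D.Rep.Basic

/-!
P022D, block REP: the Hecke algebra `e A e` is commutative; the constant function.
-/

set_option linter.all false

noncomputable section

namespace Vale.Agent.P022D.Rep

open Classical

variable {K Γ : Type} [Field K] [Group Γ] [Fintype K] [Fintype Γ]
variable {R : Type} [CommRing R] (D : BN K Γ) (C : Ch K R)

theorem BN.th_one : D.th 1 = 1 := by
  rw [← D.u_zero, D.th_u]

/-- the anti-involution on the group algebra -/
def thA (R : Type) [CommRing R] : MonoidAlgebra R Γ →ₐ[R] (MonoidAlgebra R Γ)ᵐᵒᵖ :=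
  MonoidAlgebra.lift R _ Γ
    { toFun := fun g => MulOpposite.op (el R (D.th g))
      map_one' := by rw [D.th_one, el_one, MulOpposite.op_one]
      map_mul' := fun g h => by rw [D.th_mul, el_mul, MulOpposite.op_mul] }

/-- the anti-involution as a map -/
def thM (x : MonoidAlgebra R Γ) : MonoidAlgebra R Γ := MulOpposite.unop (thA D R x)

theorem thM_el (g : Γ) : thM D (el R g) = el R (D.th g) := by
  unfold thM thA el
  rw [MonoidAlgebra.lift_single, one_smul]
  rfl

theorem thM_mul (x y : MonoidAlgebra R Γ) : thM D (x * y) = thM D y * thM D x := by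
  unfold thM
  rw [map_mul, MulOpposite.unop_mul]

theorem thM_add (x y : MonoidAlgebra R Γ) : thM D (x + y) = thM D x + thM D y := by
  unfold thM
  rw [map_add, MulOpposite.unop_add]

theorem thM_smul (r : R) (x : MonoidAlgebra R Γ) : thM D (r • x) = r • thM D x := by
  unfold thM
  rw [map_smul, MulOpposite.unop_smul]

theorem thM_zero : thM D (0 : MonoidAlgebra R Γ) = 0 := by
  unfold thM
  rw [map_zero, MulOpposite.unop_zero]

theorem thM_ee (c : K) : thM D (ee D C c) = ee D C c := by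
  unfold ee
  rw [thM_smul]
  congr 1
  induction (Finset.univ : Finset K) using Finset.induction_on with
  | empty => simp [thM_zero]
  | insert a s ha ih => rw [Finset.sum_insert ha, thM_add, ih, thM_smul, thM_el, D.th_u]

theorem ee_t_ee {a d : Kˣ} (h : a ≠ d) : ee D C 1 * el R (D.t a d) * ee D C 1 = 0 := by
  rw [mul_assoc, t_ee, ← mul_assoc, ee_orth, zero_mul]
  intro h1
  apply h
  apply Units.ext
  have ha := a.ne_zero
  rw [one_mul, Units.val_inv_eq_inv_val] at h1
  field_simp at h1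
  exact h1

theorem ee_th_ee (g : Γ) :
    ee D C 1 * el R (D.th g) * ee D C 1 = ee D C 1 * el R g * ee D C 1 := by
  rcases D.bruhat g with ⟨a, d, x, rfl⟩ | ⟨x, a, d, y, rfl⟩
  · rw [D.th_mul, D.th_u, D.th_t, el_mul, el_mul, ← mul_assoc, ee_u, mul_assoc _ (_ * _),
      mul_assoc (el R (D.t a d)), u_ee, smul_mul_assoc, smul_mul_assoc, mul_smul_comm,
      mul_smul_comm, ← mul_assoc]
    by_cases h : a = d
    · rw [h]
    · rw [ee_t_ee D C h, ee_t_ee D C (Ne.symm h)]
  · have h1 : D.th (D.u x * D.t a d * D.w * D.u y) = D.u y * (D.t a d * D.w) * D.u x := by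
      rw [D.th_mul, D.th_mul, D.th_mul, D.th_u, D.th_u, D.th_t, D.th_w, ← mul_assoc D.w, D.w_t]
      simp only [mul_assoc]
    have h2 : D.u x * D.t a d * D.w * D.u y = D.u x * (D.t a d * D.w) * D.u y := by
      simp only [mul_assoc]
    have h3 : ∀ x y : K, ∀ g : Γ, ee D C 1 * el R (D.u x * g * D.u y) * ee D C 1 =
        (C.ψ (1 * x) * C.ψ (1 * y)) • (ee D C 1 * el R g * ee D C 1) := by
      intro x y g
      rw [el_mul, el_mul, ← mul_assoc, ← mul_assoc, ee_u, mul_assoc _ (el R (D.u y)), u_ee,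
        smul_mul_assoc, smul_mul_assoc, mul_smul_comm, smul_smul]
    rw [h1, h2, h3, h3, mul_comm]

theorem thM_fix (a : MonoidAlgebra R Γ) :
    thM D (ee D C 1 * a * ee D C 1) = ee D C 1 * a * ee D C 1 := by
  refine el_ind (p := fun a => thM D (ee D C 1 * a * ee D C 1) = ee D C 1 * a * ee D C 1) a
    ?_ ?_ ?_
  · intro g
    rw [thM_mul, thM_mul, thM_ee, thM_el, ← mul_assoc, ee_th_ee]
  · intro x y hx hy
    rw [mul_add, add_mul, thM_add, hx, hy]
  · intro r x hx
    rw [mul_smul_comm, smul_mul_assoc, thM_smul, hx]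

/-- the Hecke algebra of the Gelfand-Graev module is commutative -/
theorem hecke_comm (a b : MonoidAlgebra R Γ) :
    ee D C 1 * a * ee D C 1 * (ee D C 1 * b * ee D C 1) =
      ee D C 1 * b * ee D C 1 * (ee D C 1 * a * ee D C 1) := by
  have h := thM_fix D C (a * ee D C 1 * (ee D C 1 * b))
  have h1 : ee D C 1 * (a * ee D C 1 * (ee D C 1 * b)) * ee D C 1 =
      ee D C 1 * a * ee D C 1 * (ee D C 1 * b * ee D C 1) := by
    simp only [mul_assoc]
  rw [h1, thM_mul, thM_fix, thM_fix] at h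
  exact h.symm

theorem hecke_comm' {x y : MonoidAlgebra R Γ} (hx : ee D C 1 * x * ee D C 1 = x)
    (hy : ee D C 1 * y * ee D C 1 = y) : x * y = y * x := by
  have h := hecke_comm D C x y
  rwa [hx, hy] at h

theorem wuw_nB (x : K) (hx : x ≠ 0) :
    el R D.w * el R (D.u x) * el R D.w * nB D R = el R (D.u x⁻¹) * el R D.w * nB D R := by
  have e := D.wuw (Units.mk0 x hx)
  rw [Units.val_mk0] at e
  rw [← el_mul, ← el_mul, e, el_mul, mul_assoc,
    b_nB D (D.B.mul_mem (D.t_mem _ _) (D.u_mem _)), el_mul]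
  simp

theorem sum_psi : ∑ x ∈ Finset.univ.erase (0 : K), C.ψ x = -1 := by
  have h := C.orth 1 one_ne_zero
  simp only [one_mul] at h
  rw [← Finset.add_sum_erase _ _ (Finset.mem_univ (0 : K)), AddChar.map_zero_eq_one] at h
  exact eq_neg_of_add_eq_zero_right h

theorem ee_w_ee_w (c c' : K) : ee D C c * el R D.w * ee D C c' * el R D.w * nB D R =
    C.li • (ee D C c * nB D R + (∑ x ∈ Finset.univ.erase (0 : K), C.ψ (-(c' * x)) * C.ψ (c * x⁻¹)) •
      (ee D C c * el R D.w * nB D R)) := by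
  conv_lhs => rw [show ee D C c' = C.li • ∑ x : K, C.ψ (-(c' * x)) • el R (D.u x) from rfl]
  rw [mul_smul_comm, smul_mul_assoc, smul_mul_assoc]
  congr 1
  rw [Finset.mul_sum, Finset.sum_mul, Finset.sum_mul,
    ← Finset.add_sum_erase _ _ (Finset.mem_univ (0 : K)), Finset.sum_smul]
  congr 1
  · rw [mul_zero, neg_zero, AddChar.map_zero_eq_one, one_smul, D.u_zero, el_one, mul_one,
      mul_assoc _ (el R D.w) (el R D.w), ← el_mul, D.w_w, el_one, mul_one]
  · refine Finset.sum_congr rfl fun x hx => ?_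
    have hx0 := (Finset.mem_erase.1 hx).1
    have h := wuw_nB (R := R) D x hx0
    rw [mul_smul_comm, smul_mul_assoc, smul_mul_assoc, mul_smul]
    congr 1
    have h1 : ee D C c * el R D.w * el R (D.u x) * el R D.w * nB D R =
        ee D C c * (el R D.w * el R (D.u x) * el R D.w * nB D R) := by
      simp only [mul_assoc]
    rw [h1, h, ← mul_assoc, ← mul_assoc, ee_u, smul_mul_assoc, smul_mul_assoc]

/-- the constant function on the projective line -/
def c0 : MonoidAlgebra R Γ := nB D R + (Fintype.card K : R) • (ee D C 0 * el R D.w * nB D R)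

theorem u_c0 (x : K) : el R (D.u x) * c0 D C = c0 D C := by
  unfold c0
  rw [mul_add, b_nB D (D.u_mem x), mul_smul_comm, ← mul_assoc, ← mul_assoc, u_ee, zero_mul,
    AddChar.map_zero_eq_one, one_smul]

theorem t_c0 (a d : Kˣ) : el R (D.t a d) * c0 D C = c0 D C := by
  unfold c0
  rw [mul_add, b_nB D (D.t_mem a d), mul_smul_comm, ← mul_assoc, ← mul_assoc, t_ee0,
    mul_assoc (ee D C 0), ← el_mul, D.t_w, el_mul, mul_assoc, mul_assoc, b_nB D (D.t_mem d a),
    mul_assoc]

theorem ee_c0 : ee D C 1 * c0 D C = 0 := by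
  have h : ee D C 0 * c0 D C = c0 D C := ee0_fix D C (c0 D C) (u_c0 D C)
  rw [← h, ← mul_assoc, ee_orth D C one_ne_zero, zero_mul]

theorem ee_w_c0 : ee D C 1 * el R D.w * c0 D C = 0 := by
  unfold c0
  rw [mul_add, mul_smul_comm, ← mul_assoc, ← mul_assoc, ee_w_ee_w, ee1_nB, zero_add]
  have h : ∑ x ∈ Finset.univ.erase (0 : K), C.ψ (-(0 * x)) * C.ψ (1 * x⁻¹) = -1 := by
    rw [← sum_psi C]
    refine Finset.sum_bij' (fun x _ => x⁻¹) (fun x _ => x⁻¹) ?_ ?_ ?_ ?_ ?_
    · intro x hx
      simpa using hx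
    · intro x hx
      simpa using hx
    · intro x _
      rw [inv_inv]
    · intro x _
      rw [inv_inv]
    · intro x _
      simp
  rw [h, smul_smul, mul_comm _ C.li, C.li_mul, one_smul, neg_smul, one_smul, add_neg_cancel]

theorem ee_a_c0 (a : MonoidAlgebra R Γ) : ee D C 1 * a * c0 D C = 0 := by
  refine el_ind (p := fun a => ee D C 1 * a * c0 D C = 0) a ?_ ?_ ?_
  · intro g
    rcases D.bruhat g with ⟨a, d, x, rfl⟩ | ⟨x, a, d, y, rfl⟩
    · rw [el_mul, mul_assoc, mul_assoc, u_c0, t_c0, ee_c0]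
    · have h : D.u x * D.t a d * D.w * D.u y = D.u x * (D.w * (D.t d a * D.u y)) := by
        rw [mul_assoc (D.u x), D.t_w]
        simp only [mul_assoc]
      rw [h, el_mul, el_mul, el_mul, ← mul_assoc, ee_u, mul_assoc, mul_assoc, mul_assoc, u_c0,
        t_c0, smul_mul_assoc, ← mul_assoc, ee_w_c0, smul_zero]
  · intro x y hx hy
    rw [mul_add, add_mul, hx, hy, add_zero]
  · intro r x hx
    rw [mul_smul_comm, smul_mul_assoc, hx, smul_zero]

theorem ee0_w_v0 :
    ee D C 0 * el R D.w * v0 D C = C.li • (nB D R - ee D C 0 * el R D.w * nB D R) := by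
  unfold v0
  rw [← mul_assoc, ← mul_assoc, ee_w_ee_w, ee0_nB]
  have h : ∑ x ∈ Finset.univ.erase (0 : K), C.ψ (-(1 * x)) * C.ψ (0 * x⁻¹) = -1 := by
    rw [← sum_psi C]
    refine Finset.sum_bij' (fun x _ => -x) (fun x _ => -x) ?_ ?_ ?_ ?_ ?_
    · intro x hx
      simpa using hx
    · intro x hx
      simpa using hx
    · intro x _
      rw [neg_neg]
    · intro x _
      rw [neg_neg]
    · intro x _
      simp
  rw [h, neg_smul, one_smul, sub_eq_add_neg]

/-- `e₀ A e` is spanned by the `t e₀ w e` -/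
theorem ee0_g_ee (g : Γ) : ee D C 0 * el R g * ee D C 1 = 0 ∨ ∃ (a d : Kˣ) (r : R),
    ee D C 0 * el R g * ee D C 1 = r • (el R (D.t a d) * (ee D C 0 * el R D.w * ee D C 1)) := by
  rcases D.bruhat g with ⟨a, d, x, rfl⟩ | ⟨x, a, d, y, rfl⟩
  · left
    rw [el_mul, ← mul_assoc, ← t_ee0, mul_assoc, u_ee, mul_smul_comm, mul_assoc,
      ee_orth D C zero_ne_one, mul_zero, smul_zero]
  · right
    refine ⟨a, d, C.ψ (1 * y), ?_⟩
    rw [el_mul, el_mul, el_mul, ← mul_assoc, ← mul_assoc, ← mul_assoc, ee_u, zero_mul,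
      AddChar.map_zero_eq_one, one_smul, ← t_ee0, mul_assoc _ (el R (D.u y)), u_ee, mul_smul_comm]
    simp only [mul_assoc]

end Vale.Agent.P022D.Rep
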