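import Vale.Agent.P022D.Rep.Fx

/-!
P022D, block REP: modules of the unipotent block have the factors `Triv` and `Pib` only.
-/

set_option linter.all false

noncomputable section

namespace Vale.Agent.P022D.Rep

open Classical Module

variable {K Γ : Type} [Field K] [Group Γ] [Fintype K] [Fintype Γ]
variable {F : Type} [Field F] (D : BN K Γ) (C : Ch K F)

/-- the elements of the maximal ideal of the Hecke algebra -/
def sA (a : MonoidAlgebra F Γ) : MonoidAlgebra F Γ :=
  ee D C 1 * a * ee D C 1 - chi D C a • ee D C 1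

section ng

variable {X : Type} [AddCommGroup X] [Module F X] [Module (MonoidAlgebra F Γ) X]
  [IsScalarTower F (MonoidAlgebra F Γ) X]

/-- non generic vectors -/
def Ng (x : X) : Prop := ∀ a : MonoidAlgebra F Γ, (ee D C 1 * a) • x = 0

variable {D C}

theorem Ng.smul {x : X} (h : Ng D C x) (b : MonoidAlgebra F Γ) : Ng D C (b • x) := by
  intro a
  rw [smul_smul, mul_assoc]
  exact h (a * b)

theorem Ng.u {x : X} (h : Ng D C x) (y : K) : el F (D.u y) • x = x := by
  have h1 : ∀ c : K, c ≠ 0 → ee D C c • x = 0 := by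
    intro c hc
    have e := t_ee D C 1 (Units.mk0 c hc) 1
    rw [inv_one, Units.val_one, mul_one, one_mul, Units.val_mk0] at e
    have e2 : ee D C c = el F (D.t 1 (Units.mk0 c hc)) *
        (ee D C 1 * el F (D.t 1 (Units.mk0 c hc))⁻¹) := by
      rw [← mul_assoc, e, mul_assoc, ← el_mul, mul_inv_cancel, el_one, mul_one]
    rw [e2, mul_smul, h, smul_zero]
  have h2 : ee D C 0 • x = x := by
    conv_rhs => rw [← one_smul (MonoidAlgebra F Γ) x, ← sum_ee D C, Finset.sum_smul]
    rw [Finset.sum_eq_single (0 : K)]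
    · exact fun c _ hc => h1 c hc
    · intro h
      exact absurd (Finset.mem_univ _) h
  rw [← h2, smul_smul, u_ee, zero_mul, AddChar.map_zero_eq_one, one_smul]

theorem Ng.w {x : X} (h : Ng D C x) (s : Kˣ) : el F D.w • x = el F (D.t s (-s⁻¹)) • x := by
  have e := congrArg (fun g => el F g • x) (D.wuw s)
  simp only [el_mul, mul_smul] at e
  rw [(h.smul _).u, h.u, ((h.smul _).smul _).u] at e
  have e2 := congrArg (fun z => el F D.w • z) e
  simp only [smul_smul, ← el_mul, ← mul_assoc, D.w_w, one_mul, mul_one] at e2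
  exact e2

theorem Ng.sl {x : X} (h : Ng D C x) (s : Kˣ) : el F (D.t s s⁻¹) • x = x := by
  have e := (h.w s).symm.trans (h.w 1)
  have e2 := congrArg (fun z => el F (D.t 1 (-1)) • z) e
  simp only [smul_smul, ← el_mul, D.t_mul, inv_one, one_mul, mul_neg, neg_mul, neg_neg, D.t_one,
    el_one, one_smul] at e2
  exact e2

theorem ng_t (g : Γ) : ∃ a d, ∀ x : X, Ng D C x → el F g • x = el F (D.t a d) • x := by
  rcases D.bruhat g with ⟨a, d, y, rfl⟩ | ⟨y, a, d, y', rfl⟩
  · exact ⟨a, d, fun x hx => by rw [el_mul, mul_smul, hx.u]⟩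
  · refine ⟨a * 1, d * -1⁻¹, fun x hx => ?_⟩
    rw [el_mul, el_mul, el_mul, mul_smul, mul_smul, mul_smul, hx.u, ((hx.smul _).smul _).u, hx.w 1,
      smul_smul, ← el_mul, D.t_mul]

theorem Ng.sq {x : X} (h : Ng D C x) (a d : Kˣ) :
    (el F (D.t a d) * el F (D.t a d)) • x = el F (D.t (a * d) (a * d)) • x := by
  have e : D.t a d * D.t a d = D.t (a * d) (a * d) * D.t (a * d⁻¹) (a * d⁻¹)⁻¹ := by
    rw [D.t_mul, D.t_mul]
    congr 1
    · rw [mul_mul_mul_comm, mul_inv_cancel, mul_one]
    · rw [mul_inv, inv_inv, mul_mul_mul_comm, mul_inv_cancel, one_mul]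
  rw [← el_mul, e, el_mul, mul_smul, h.sl]

end ng

/-- modules of the unipotent block -/
def InC (X : Type) [AddCommGroup X] [Module (MonoidAlgebra F Γ) X] : Prop :=
  (∃ n : ℕ, ∀ (z : Kˣ) (x : X), (el F (D.t z z) - 1) ^ n • x = 0) ∧
  (∃ n : ℕ, ∀ l : List (MonoidAlgebra F Γ), l.length = n →
    ∀ x : X, ((l.map (sA D C)).prod * ee D C 1) • x = 0)

variable {D C}

theorem InC.inj {X Y : Type} [AddCommGroup X] [Module (MonoidAlgebra F Γ) X] [AddCommGroup Y]
    [Module (MonoidAlgebra F Γ) Y] (h : InC D C Y) (f : X →ₗ[MonoidAlgebra F Γ] Y)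
    (hf : Function.Injective f) : InC D C X := by
  obtain ⟨⟨n, h1⟩, m, h2⟩ := h
  exact ⟨⟨n, fun z x => hf (by rw [map_smul, h1, map_zero])⟩,
    m, fun l hl x => hf (by rw [map_smul, h2 l hl, map_zero])⟩

theorem InC.surj {X Y : Type} [AddCommGroup X] [Module (MonoidAlgebra F Γ) X] [AddCommGroup Y]
    [Module (MonoidAlgebra F Γ) Y] (h : InC D C X) (f : X →ₗ[MonoidAlgebra F Γ] Y)
    (hf : Function.Surjective f) : InC D C Y := by
  obtain ⟨⟨n, h1⟩, m, h2⟩ := h
  refine ⟨⟨n, fun z y => ?_⟩, m, fun l hl y => ?_⟩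
  · obtain ⟨x, rfl⟩ := hf y
    rw [← map_smul, h1, map_zero]
  · obtain ⟨x, rfl⟩ := hf y
    rw [← map_smul, h2 l hl, map_zero]

section wh

variable {X : Type} [AddCommGroup X] [Module F X] [Module (MonoidAlgebra F Γ) X]
  [IsScalarTower F (MonoidAlgebra F Γ) X]

variable (D C) in
/-- Whittaker vectors with the character `chi` -/
def Wh (v : X) : Prop := ∀ a : MonoidAlgebra F Γ, (ee D C 1 * a) • v = chi D C a • v

theorem Wh.fix {v : X} (h : Wh D C v) : ee D C 1 • v = v := by
  have e := h 1
  rwa [mul_one, chi_one, one_smul] at e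

theorem InC.wh (h : InC D C X) {x : X} (hx : ee D C 1 • x = x) (h0 : x ≠ 0) :
    ∃ v : X, v ≠ 0 ∧ Wh D C v := by
  obtain ⟨n, hn⟩ := h.2
  have key : ∀ n : ℕ, ∀ x : X, ee D C 1 • x = x → x ≠ 0 →
      (∀ l : List (MonoidAlgebra F Γ), l.length = n → (l.map (sA D C)).prod • x = 0) →
      ∃ v : X, v ≠ 0 ∧ Wh D C v := by
    intro n
    induction n with
    | zero =>
      intro x _ h0 h
      exact absurd (by simpa using h [] rfl) h0
    | succ n ih =>
      intro x hx h0 h
      by_cases h1 : ∀ a, sA D C a • x = 0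
      · refine ⟨x, h0, fun a => ?_⟩
        have e := h1 a
        unfold sA at e
        rw [sub_smul, mul_smul, smul_assoc, hx, sub_eq_zero] at e
        exact e
      · push Not at h1
        obtain ⟨a, ha⟩ := h1
        refine ih _ ?_ ha fun l hl => ?_
        · unfold sA
          rw [smul_smul, mul_sub, mul_smul_comm, ← mul_assoc, ← mul_assoc, ee_idem]
        · have e := h (l ++ [a]) (by simp [hl])
          rw [List.map_append, List.prod_append, mul_smul] at e
          simpa using e
  refine key n x hx h0 fun l hl => ?_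
  have e := hn l hl x
  rwa [mul_smul, hx] at e

end wh

variable [CharP F 2]

theorem card_one (C : Ch K F) : (Fintype.card K : F) = 1 := by
  have h := C.li_mul
  rcases Nat.even_or_odd' (Fintype.card K) with ⟨k, hk | hk⟩
  · rw [hk, Nat.cast_mul, CharP.cast_eq_zero F 2, zero_mul, mul_zero] at h
    exact absurd h zero_ne_one
  · rw [hk, Nat.cast_add, Nat.cast_mul, CharP.cast_eq_zero F 2, zero_mul, zero_add, Nat.cast_one]

theorem li_one (C : Ch K F) : C.li = 1 := by
  have h := C.li_mul
  rwa [card_one C, mul_one] at h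

variable (D C) in
theorem ee0_w_v0_two : ee D C 0 * el F D.w * v0 D C = c0 D C := by
  rw [ee0_w_v0, li_one, one_smul, c0, card_one C, one_smul, sub_eq_add_neg, ← neg_one_smul F,
    CharTwo.neg_eq, one_smul]

variable (D C) in
theorem chi_ee0 (b a : MonoidAlgebra F Γ) : chi D C (b * (ee D C 0 * a)) = 0 := by
  refine el_ind (p := fun a => chi D C (b * (ee D C 0 * a)) = 0) a ?_ ?_ ?_
  · intro g
    rw [← chi_mul_ee, mul_assoc]
    rcases ee0_g_ee D C g with h | ⟨a, d, r, h⟩
    · rw [h, mul_zero]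
      simp [chi]
    · rw [h, mul_smul_comm, chi_smul]
      have h1 : chi D C (b * (el F (D.t a d) * (ee D C 0 * el F D.w * ee D C 1))) = 0 := by
        apply chi_of
        have e := ee_a_c0 D C (b * el F (D.t a d))
        rw [← ee0_w_v0_two, ← ee_v0] at e
        rw [zero_smul, ← e]
        simp only [mul_assoc]
      rw [h1, mul_zero]
  · intro x y hx hy
    rw [mul_add, mul_add, chi_add, hx, hy, add_zero]
  · intro r x hx
    rw [mul_smul_comm, mul_smul_comm, chi_smul, hx, mul_zero]

section simple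

variable {X : Type} [AddCommGroup X] [Module F X] [Module (MonoidAlgebra F Γ) X]
  [IsScalarTower F (MonoidAlgebra F Γ) X]

theorem Wh.ng {v : X} (h : Wh D C v) (a : MonoidAlgebra F Γ) : Ng D C ((ee D C 0 * a) • v) := by
  intro b
  rw [smul_smul, mul_assoc, h, chi_ee0, zero_smul]

theorem sq_two (a : MonoidAlgebra F Γ) : (a - 1) * (a - 1) = a * a - 1 := by
  have h : a + a = 0 := by
    rw [← two_smul F a, CharTwo.two_eq_zero, zero_smul]
  have h1 : (1 : MonoidAlgebra F Γ) + 1 = 0 := by
    rw [← two_smul F (1 : MonoidAlgebra F Γ), CharTwo.two_eq_zero, zero_smul]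
  have e : (a - 1) * (a - 1) = a * a - 1 - (a + a) + (1 + 1) := by noncomm_ring
  rw [e, h, h1, sub_zero, add_zero]

theorem simple_triv [IsSimpleModule (MonoidAlgebra F Γ) X] (h : InC D C X)
    (hn : ∀ x : X, Ng D C x) (g : Γ) (x : X) : el F g • x = x := by
  obtain ⟨a, d, hg⟩ := ng_t (D := D) (C := C) (X := X) g
  rw [hg x (hn x)]
  have hcomm : ∀ (b : MonoidAlgebra F Γ) (y : X),
      b • (el F (D.t a d) - 1) • y = (el F (D.t a d) - 1) • b • y := by
    intro b
    refine el_ind (p := fun b => ∀ y : X,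
      b • (el F (D.t a d) - 1) • y = (el F (D.t a d) - 1) • b • y) b ?_ ?_ ?_
    · intro g' y
      obtain ⟨a', d', hg'⟩ := ng_t (D := D) (C := C) (X := X) g'
      rw [hg' _ (hn _), hg' _ (hn _), smul_smul, smul_smul, mul_sub, sub_mul, ← el_mul, ← el_mul,
        D.t_comm, mul_one, one_mul]
    · intro b c hb hc y
      rw [add_smul, add_smul, smul_add, hb, hc]
    · intro r b hb y
      rw [smul_assoc, smul_assoc, hb, smul_comm r]
  let φ : X →ₗ[MonoidAlgebra F Γ] X :=
    { toFun := fun y => (el F (D.t a d) - 1) • y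
      map_add' := fun y z => smul_add _ y z
      map_smul' := fun b y => (hcomm b y).symm }
  rcases LinearMap.injective_or_eq_zero φ with hi | h0
  · obtain ⟨n, h1⟩ := h.1
    have h2 : ∀ y : X, (el F (D.t (a * d) (a * d)) - 1) • y = 0 → y = 0 := by
      intro y hy
      apply hi
      apply hi
      rw [map_zero, map_zero]
      show (el F (D.t a d) - 1) • (el F (D.t a d) - 1) • y = 0
      rw [smul_smul, sq_two, sub_smul, (hn y).sq, ← sub_smul, hy]
    have h3 : ∀ (n : ℕ) (y : X), (el F (D.t (a * d) (a * d)) - 1) ^ n • y = 0 → y = 0 := by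
      intro n
      induction n with
      | zero => intro y hy; simpa using hy
      | succ n ih =>
        intro y hy
        rw [pow_succ, mul_smul] at hy
        exact h2 y (ih _ hy)
    rw [h3 n x (h1 _ x), smul_zero]
  · have e : (el F (D.t a d) - 1) • x = 0 := LinearMap.congr_fun h0 x
    rw [sub_smul, one_smul, sub_eq_zero] at e
    exact e

theorem triv_smul (hg : ∀ (g : Γ) (x : X), el F g • x = x) (a : MonoidAlgebra F Γ) : ∃ r : F,
    (a - r • 1 ∈ Submodule.span (MonoidAlgebra F Γ) (Set.range fun g : Γ => el F g - 1)) ∧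
      ∀ x : X, a • x = r • x := by
  refine el_ind (p := fun a => ∃ r : F, (a - r • 1 ∈ Submodule.span (MonoidAlgebra F Γ)
    (Set.range fun g : Γ => el F g - 1)) ∧ ∀ x : X, a • x = r • x) a ?_ ?_ ?_
  · intro g
    refine ⟨1, ?_, fun x => by rw [hg, one_smul]⟩
    rw [one_smul]
    exact Submodule.subset_span ⟨g, rfl⟩
  · rintro a b ⟨r, h1, h2⟩ ⟨s, h3, h4⟩
    refine ⟨r + s, ?_, fun x => by rw [add_smul, add_smul, h2, h4]⟩
    have e : a + b - (r + s) • 1 = (a - r • 1) + (b - s • 1) := by
      rw [add_smul]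
      abel
    rw [e]
    exact Submodule.add_mem _ h1 h3
  · rintro k a ⟨r, h1, h2⟩
    refine ⟨k * r, ?_, fun x => by rw [smul_assoc, h2, smul_smul]⟩
    rw [mul_smul, ← smul_sub]
    exact Submodule.smul_of_tower_mem _ k h1

theorem simple_case1 [IsSimpleModule (MonoidAlgebra F Γ) X]
    (hg : ∀ (g : Γ) (x : X), el F g • x = x) :
    Nonempty (Triv F Γ ≃ₗ[MonoidAlgebra F Γ] X) ∧ finrank F X = 1 := by
  haveI := IsSimpleModule.nontrivial (MonoidAlgebra F Γ) X
  obtain ⟨v, hv⟩ := exists_ne (0 : X)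
  have hs := IsSimpleModule.toSpanSingleton_surjective (MonoidAlgebra F Γ) hv
  constructor
  · have hk : Submodule.span (MonoidAlgebra F Γ) (Set.range fun g : Γ => el F g - 1) =
        LinearMap.ker (LinearMap.toSpanSingleton (MonoidAlgebra F Γ) X v) := by
      apply le_antisymm
      · rw [Submodule.span_le]
        rintro _ ⟨g, rfl⟩
        show (el F g - 1) • v = 0
        rw [sub_smul, hg, one_smul, sub_self]
      · intro a ha
        obtain ⟨r, h1, h2⟩ := triv_smul hg a
        have ha' : a • v = 0 := ha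
        rw [h2, smul_eq_zero] at ha'
        rw [ha'.resolve_right hv, zero_smul, sub_zero] at h1
        exact h1
    exact ⟨(Submodule.quotEquivOfEq _ _ hk).trans (LinearMap.quotKerEquivOfSurjective _ hs)⟩
  · rw [finrank_eq_one_iff_of_nonzero' v hv]
    intro x
    obtain ⟨a, rfl⟩ := hs x
    obtain ⟨r, _, h2⟩ := triv_smul hg a
    exact ⟨r, (h2 v).symm⟩

theorem simple_case2 [IsSimpleModule (MonoidAlgebra F Γ) X] {v : X} (hv : v ≠ 0)
    (hw : Wh D C v) : Nonempty (Pib D C ≃ₗ[MonoidAlgebra F Γ] X) ∧ dm F (ee D C 0) X = 0 ∧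
      dm F (ee D C 1) X = 1 := by
  have hs := IsSimpleModule.toSpanSingleton_surjective (MonoidAlgebra F Γ) hv
  have hng : ∀ x : X, Ng D C x → x = 0 := by
    intro x hx
    by_contra h0
    obtain ⟨a, ha⟩ := IsSimpleModule.toSpanSingleton_surjective (MonoidAlgebra F Γ) h0 v
    have ha' : a • x = v := ha
    have e := hx a
    rw [mul_smul, ha', hw.fix] at e
    exact hv e
  refine ⟨?_, ?_, ?_⟩
  · let φ : GG D C →ₗ[MonoidAlgebra F Γ] X :=
      (LinearMap.toSpanSingleton (MonoidAlgebra F Γ) X v).comp (GG D C).subtype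
    have hφ : Function.Surjective φ := by
      intro x
      obtain ⟨a, rfl⟩ := hs x
      refine ⟨⟨a * ee D C 1, Submodule.mem_span_singleton.2 ⟨a, rfl⟩⟩, ?_⟩
      show (a * ee D C 1) • v = a • v
      rw [mul_smul, hw.fix]
    have hk : Kk D C = LinearMap.ker φ := by
      ext x
      constructor
      · intro hx
        apply hng
        intro a
        show (ee D C 1 * a) • ((x : MonoidAlgebra F Γ) • v) = 0
        rw [smul_smul, mul_assoc, hw, hx a, zero_smul]
      · intro hx a
        have hx' : (x : MonoidAlgebra F Γ) • v = 0 := hx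
        have e := hw (a * x)
        rw [← mul_assoc, mul_smul, hx', smul_zero, eq_comm, smul_eq_zero] at e
        exact e.resolve_right hv
    exact ⟨(Submodule.quotEquivOfEq _ _ hk).trans (LinearMap.quotKerEquivOfSurjective _ hφ)⟩
  · have h : Fx F (ee D C 0) X = ⊥ := by
      rw [eq_bot_iff]
      intro x hx
      obtain ⟨a, rfl⟩ := hs x
      have hx' : ee D C 0 • a • v = a • v := hx
      have e := hng _ (hw.ng a)
      rw [mul_smul, hx'] at e
      exact e
    rw [dm, h, finrank_bot]
  · have h : Fx F (ee D C 1) X = Submodule.span F {v} := by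
      apply le_antisymm
      · intro x hx
        obtain ⟨a, rfl⟩ := hs x
        have hx' : ee D C 1 • a • v = a • v := hx
        refine Submodule.mem_span_singleton.2 ⟨chi D C a, ?_⟩
        rw [← hw, mul_smul]
        exact hx'
      · rw [Submodule.span_le, Set.singleton_subset_iff]
        exact hw.fix
    rw [dm, h, finrank_span_singleton hv]

theorem simple_cases [IsSimpleModule (MonoidAlgebra F Γ) X] (h : InC D C X) :
    (Nonempty (Triv F Γ ≃ₗ[MonoidAlgebra F Γ] X) ∧ dm F (ee D C 0) X = 1 ∧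
      dm F (ee D C 1) X = 0) ∨
    (Nonempty (Pib D C ≃ₗ[MonoidAlgebra F Γ] X) ∧ dm F (ee D C 0) X = 0 ∧
      dm F (ee D C 1) X = 1) := by
  by_cases h0 : ∀ x : X, ee D C 1 • x = 0
  · left
    have hn : ∀ x : X, Ng D C x := fun x a => by rw [mul_smul, h0]
    have hg := simple_triv h hn
    obtain ⟨h1, h2⟩ := simple_case1 hg
    refine ⟨h1, ?_, ?_⟩
    · have e : Fx F (ee D C 0) X = ⊤ := by
        rw [eq_top_iff]
        intro x _
        exact ee0_fix D C x fun y => hg _ x
      rw [dm, e, finrank_top, h2]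
    · have e : Fx F (ee D C 1) X = ⊥ := by
        rw [eq_bot_iff]
        intro x hx
        have hx' : ee D C 1 • x = x := hx
        rw [h0] at hx'
        exact hx'.symm
      rw [dm, e, finrank_bot]
  · right
    push Not at h0
    obtain ⟨x, hx⟩ := h0
    obtain ⟨v, hv, hw⟩ := h.wh (x := ee D C 1 • x) (by rw [smul_smul, ee_idem]) hx
    exact simple_case2 hv hw

end simple

/-- an additive function on a module of the unipotent block -/
theorem dec {Ω : Type} [AddCommMonoid Ω] {lam : MFun F (MonoidAlgebra F Γ) Ω} (hl : IsAdd lam)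
    (X : Type) [AddCommGroup X] [Module F X] [Module (MonoidAlgebra F Γ) X]
    [IsScalarTower F (MonoidAlgebra F Γ) X] [Module.Finite F X] (h : InC D C X) :
    lam X = dm F (ee D C 0) X • lam (Triv F Γ) + dm F (ee D C 1) X • lam (Pib D C) := by
  revert h
  refine mod_ind (F := F) (A := MonoidAlgebra F Γ) (fun X _ _ _ _ => InC D C X →
    lam X = dm F (ee D C 0) X • lam (Triv F Γ) + dm F (ee D C 1) X • lam (Pib D C)) ?_ X
  intro X _ _ _ _ _ ih h
  rcases subsingleton_or_nontrivial X with hX | hX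
  · rw [hl.zero X hX, dm, dm, finrank_zero_of_subsingleton, finrank_zero_of_subsingleton,
      zero_smul, zero_smul, add_zero]
  · obtain ⟨S, hS, hsim⟩ := ex_simple (F := F) (A := MonoidAlgebra F Γ) X
    have h1 := ih S hS (h.surj S.mkQ S.mkQ_surjective)
    rw [hl.sub S, h1, dm_sub (ee_idem D C 0) S, dm_sub (ee_idem D C 1) S, add_smul, add_smul]
    rcases simple_cases (h.inj S.subtype S.injective_subtype) with ⟨⟨e⟩, h2, h3⟩ | ⟨⟨e⟩, h2, h3⟩
    · rw [hl.congr e, h2, h3, one_smul, zero_smul, zero_add, add_assoc]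
    · rw [hl.congr e, h2, h3, one_smul, zero_smul, zero_add]
      abel

end Vale.Agent.P022D.Rep
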