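import Mathlib

/-!
P022D, block REP: the Gelfand-Graev module of `GL₂(K)` (or of a quotient by scalars), `K` finite.
Definitions.
-/

set_option linter.all false

noncomputable section

namespace Vale.Agent.P022D.Rep

open Classical

/-- the Bruhat data of `GL₂(K)` or of a quotient of it by a group of scalars -/
structure BN (K Γ : Type) [Field K] [Group Γ] where
  u : K → Γ
  t : Kˣ → Kˣ → Γ
  w : Γ
  B : Subgroup Γ
  th : Γ → Γ
  u_add : ∀ x y, u (x + y) = u x * u y
  t_mul : ∀ a d a' d', t a d * t a' d' = t (a * a') (d * d')
  t_u : ∀ a d x, t a d * u x = u ((a : K) * x * ((d⁻¹ : Kˣ) : K)) * t a d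
  w_t : ∀ a d, w * t a d = t d a * w
  w_w : w * w = 1
  wuw : ∀ x : Kˣ, w * u x * w = u ((x⁻¹ : Kˣ) : K) * w * (t x (-x⁻¹) * u ((x⁻¹ : Kˣ) : K))
  bruhat : ∀ g, (∃ a d x, g = t a d * u x) ∨ (∃ x a d y, g = u x * t a d * w * u y)
  t_mem : ∀ a d, t a d ∈ B
  u_mem : ∀ x, u x ∈ B
  w_not : w ∉ B
  th_mul : ∀ g h, th (g * h) = th h * th g
  th_u : ∀ x, th (u x) = u x
  th_t : ∀ a d, th (t a d) = t d a
  th_w : th w = w

variable {K Γ : Type} [Field K] [Group Γ] [Fintype K] [Fintype Γ]

/-- a character `ψ` of `K` with values in `R`, all of whose multiples are non trivial, and an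
inverse `li` of the order of `K` -/
structure Ch (K R : Type) [Field K] [Fintype K] [CommRing R] where
  ψ : AddChar K R
  li : R
  li_mul : li * (Fintype.card K : R) = 1
  orth : ∀ c : K, c ≠ 0 → ∑ x : K, ψ (c * x) = 0

section ring

variable {R : Type} [CommRing R] (D : BN K Γ) (C : Ch K R)

/-- the group element `g` in the group algebra -/
def el (R : Type) [CommRing R] (g : Γ) : MonoidAlgebra R Γ := MonoidAlgebra.single g 1

/-- the idempotent of the character `x ↦ ψ (c x)` of the unipotent group -/
def ee (c : K) : MonoidAlgebra R Γ := C.li • ∑ x : K, C.ψ (-(c * x)) • el R (D.u x)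

/-- the sum of the elements of the Borel subgroup -/
def nB (R : Type) [CommRing R] : MonoidAlgebra R Γ :=
  ∑ b ∈ Finset.univ.filter (fun b => b ∈ D.B), el R b

/-- the Whittaker vector of the permutation module on the projective line -/
def v0 : MonoidAlgebra R Γ := ee D C 1 * el R D.w * nB D R

/-- the character of the Hecke algebra `e A e` on the Whittaker vector: `e a v0 = chi a • v0` -/
def chi (a : MonoidAlgebra R Γ) : R := (Fintype.card K : R) * (ee D C 1 * a * v0 D C).coeff D.w

/-- the Gelfand-Graev module, the left ideal `A e` -/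
def GG : Submodule (MonoidAlgebra R Γ) (MonoidAlgebra R Γ) := Submodule.span _ {ee D C 1}

/-- the permutation module on the projective line, the left ideal `A nB` -/
def Ind (R : Type) [CommRing R] : Submodule (MonoidAlgebra R Γ) (MonoidAlgebra R Γ) :=
  Submodule.span _ {nB D R}

theorem chi_add (a b : MonoidAlgebra R Γ) : chi D C (a + b) = chi D C a + chi D C b := by
  unfold chi
  rw [mul_add, add_mul, MonoidAlgebra.coeff_add, Finsupp.add_apply, mul_add]

/-- the kernel of the map from the Gelfand-Graev module to its simple quotient `Pib` -/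
def Kk : Submodule (MonoidAlgebra R Γ) (GG D C) where
  carrier := {x | ∀ a : MonoidAlgebra R Γ, chi D C (a * (x : MonoidAlgebra R Γ)) = 0}
  zero_mem' := by
    intro a
    simp [chi]
  add_mem' := by
    intro x y hx hy a
    rw [Submodule.coe_add, mul_add, chi_add, hx a, hy a, add_zero]
  smul_mem' := by
    intro b x hx a
    have h := hx (a * b)
    rw [mul_assoc] at h
    exact h

/-- the cuspidal module of dimension `q - 1` (in characteristic two) -/
abbrev Pib : Type := (GG D C) ⧸ Kk D C

end ring

/-- the trivial module: the quotient of the group algebra by the augmentation ideal -/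
abbrev Triv (R Γ : Type) [CommRing R] [Group Γ] : Type :=
  MonoidAlgebra R Γ ⧸ Submodule.span (MonoidAlgebra R Γ) (Set.range fun g : Γ => el R g - 1)

/-- functions of modules over the algebra `A` -/
abbrev MFun (F A Ω : Type) [Field F] [Ring A] [Algebra F A] : Type 1 :=
  ∀ (M : Type) [AddCommGroup M] [Module F M] [Module A M] [IsScalarTower F A M], Ω

/-- `lam` is additive on short exact sequences of finite dimensional modules -/
structure IsAdd {F A Ω : Type} [Field F] [Ring A] [Algebra F A] [AddCommMonoid Ω]
    (lam : MFun F A Ω) : Prop where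
  zero : ∀ (M : Type) [AddCommGroup M] [Module F M] [Module A M] [IsScalarTower F A M],
    Subsingleton M → lam M = 0
  add : ∀ (N M Q : Type) [AddCommGroup N] [Module F N] [Module A N] [IsScalarTower F A N]
    [AddCommGroup M] [Module F M] [Module A M] [IsScalarTower F A M]
    [AddCommGroup Q] [Module F Q] [Module A Q] [IsScalarTower F A Q]
    (f : N →ₗ[A] M) (g : M →ₗ[A] Q), Module.Finite F M → Function.Injective f →
    Function.Exact f g → Function.Surjective g → lam M = lam N + lam Q

end Vale.Agent.P022D.Rep
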