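import Vale.Agent.P022D.Rep.Comm

/-!
P022D, block REP: dimensions of the images of idempotents, induction over simple submodules.
-/

set_option linter.all false

noncomputable section

namespace Vale.Agent.P022D.Rep

open Classical Module

section gen

variable (F : Type) {A : Type} [Field F] [Ring A] [Algebra F A]

/-- the vectors fixed by `a` -/
def Fx (a : A) (X : Type) [AddCommGroup X] [Module F X] [Module A X] [IsScalarTower F A X] :
    Submodule F X where
  carrier := {x | a • x = x}
  zero_mem' := smul_zero a
  add_mem' := by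
    intro x y hx hy
    have hx' : a • x = x := hx
    have hy' : a • y = y := hy
    show a • (x + y) = x + y
    rw [smul_add, hx', hy']
  smul_mem' := by
    intro r x hx
    have hx' : a • x = x := hx
    show a • (r • x) = r • x
    rw [smul_comm, hx']

/-- the dimension of the space of the vectors fixed by `a` -/
def dm (a : A) (X : Type) [AddCommGroup X] [Module F X] [Module A X] [IsScalarTower F A X] : ℕ :=
  finrank F (Fx F a X)

variable {F}

theorem mem_Fx {a : A} {X : Type} [AddCommGroup X] [Module F X] [Module A X]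
    [IsScalarTower F A X] {x : X} : x ∈ Fx F a X ↔ a • x = x := Iff.rfl

theorem dm_add {a : A} (ha : a * a = a) {N M Q : Type}
    [AddCommGroup N] [Module F N] [Module A N] [IsScalarTower F A N]
    [AddCommGroup M] [Module F M] [Module A M] [IsScalarTower F A M]
    [AddCommGroup Q] [Module F Q] [Module A Q] [IsScalarTower F A Q]
    (f : N →ₗ[A] M) (g : M →ₗ[A] Q) [Module.Finite F M] (hf : Function.Injective f)
    (he : Function.Exact f g) (hg : Function.Surjective g) :
    dm F a M = dm F a N + dm F a Q := by
  let g' : Fx F a M →ₗ[F] Fx F a Q := (g.restrictScalars F).restrict fun x hx => by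
    rw [mem_Fx] at hx ⊢
    rw [LinearMap.restrictScalars_apply, ← map_smul, hx]
  let f' : Fx F a N →ₗ[F] Fx F a M := (f.restrictScalars F).restrict fun x hx => by
    rw [mem_Fx] at hx ⊢
    rw [LinearMap.restrictScalars_apply, ← map_smul, hx]
  have h1 : LinearMap.range g' = ⊤ := by
    rw [LinearMap.range_eq_top]
    rintro ⟨y, hy⟩
    obtain ⟨x, rfl⟩ := hg y
    refine ⟨⟨a • x, by rw [mem_Fx, smul_smul, ha]⟩, Subtype.ext ?_⟩
    show g (a • x) = g x
    rw [map_smul]
    exact hy
  have h2 : Function.Injective f' := fun x y h => Subtype.ext (hf (congrArg Subtype.val h))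
  have h3 : LinearMap.ker g' = LinearMap.range f' := by
    ext x
    constructor
    · intro hx
      have hx' : g x = 0 := congrArg Subtype.val hx
      obtain ⟨y, hy⟩ := (he x).1 hx'
      refine ⟨⟨y, ?_⟩, Subtype.ext hy⟩
      rw [mem_Fx]
      apply hf
      rw [map_smul, hy]
      exact x.2
    · rintro ⟨y, rfl⟩
      exact Subtype.ext ((he _).2 ⟨y, rfl⟩)
  have h4 := LinearMap.finrank_range_add_finrank_ker g'
  rw [h1, h3, finrank_top, LinearMap.finrank_range_of_inj h2] at h4
  unfold dm
  omega

theorem dm_sub {a : A} (ha : a * a = a) {M : Type}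
    [AddCommGroup M] [Module F M] [Module A M] [IsScalarTower F A M] [Module.Finite F M]
    (S : Submodule A M) : dm F a M = dm F a S + dm F a (M ⧸ S) :=
  dm_add ha S.subtype S.mkQ S.injective_subtype (LinearMap.exact_subtype_mkQ S) S.mkQ_surjective

theorem IsAdd.sub {Ω : Type} [AddCommMonoid Ω] {lam : MFun F A Ω} (h : IsAdd lam) {M : Type}
    [AddCommGroup M] [Module F M] [Module A M] [IsScalarTower F A M] [Module.Finite F M]
    (S : Submodule A M) : lam M = lam S + lam (M ⧸ S) :=
  h.add S M (M ⧸ S) S.subtype S.mkQ inferInstance S.injective_subtype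
    (LinearMap.exact_subtype_mkQ S) S.mkQ_surjective

theorem IsAdd.congr {Ω : Type} [AddCommMonoid Ω] {lam : MFun F A Ω} (h : IsAdd lam) {M N : Type}
    [AddCommGroup M] [Module F M] [Module A M] [IsScalarTower F A M] [Module.Finite F M]
    [AddCommGroup N] [Module F N] [Module A N] [IsScalarTower F A N] (e : M ≃ₗ[A] N) :
    lam N = lam M := by
  haveI : Module.Finite F N := Module.Finite.equiv (e.restrictScalars F)
  have h1 := h.add M N (N ⧸ (⊤ : Submodule A N)) e.toLinearMap (⊤ : Submodule A N).mkQ
    inferInstance e.injective (by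
      intro x
      constructor
      · intro _
        exact e.surjective x
      · intro _
        exact (Submodule.Quotient.mk_eq_zero _).2 trivial) (Submodule.mkQ_surjective _)
  rw [h1, h.zero (N ⧸ (⊤ : Submodule A N)) inferInstance, add_zero]

theorem fin_quot_lt {M : Type}
    [AddCommGroup M] [Module F M] [Module A M] [IsScalarTower F A M] [Module.Finite F M]
    (S : Submodule A M) (hS : S ≠ ⊥) : finrank F (M ⧸ S) < finrank F M := by
  have h := LinearMap.finrank_range_add_finrank_ker (S.mkQ.restrictScalars F)
  have h1 : LinearMap.range (S.mkQ.restrictScalars F) = ⊤ :=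
    LinearMap.range_eq_top.2 S.mkQ_surjective
  have h2 : LinearMap.ker (S.mkQ.restrictScalars F) ≠ ⊥ := by
    obtain ⟨x, hx, h0⟩ := (Submodule.ne_bot_iff S).1 hS
    exact (Submodule.ne_bot_iff _).2 ⟨x, (Submodule.Quotient.mk_eq_zero _).2 hx, h0⟩
  have h3 : finrank F (LinearMap.ker (S.mkQ.restrictScalars F)) ≠ 0 := by
    intro h0
    exact h2 (Submodule.finrank_eq_zero.1 h0)
  rw [h1, finrank_top] at h
  omega

/-- induction over quotients by non zero submodules -/
theorem mod_ind (P : MFun F A Prop)
    (h : ∀ (X : Type) [AddCommGroup X] [Module F X] [Module A X] [IsScalarTower F A X]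
      [Module.Finite F X], (∀ S : Submodule A X, S ≠ ⊥ → P (X ⧸ S)) → P X)
    (X : Type) [AddCommGroup X] [Module F X] [Module A X] [IsScalarTower F A X]
    [Module.Finite F X] : P X := by
  have key : ∀ n : ℕ, ∀ (X : Type) [AddCommGroup X] [Module F X] [Module A X]
      [IsScalarTower F A X] [Module.Finite F X], finrank F X < n → P X := by
    intro n
    induction n with
    | zero => intro X _ _ _ _ _ hX; omega
    | succ n ih =>
      intro X _ _ _ _ _ hX
      refine h X fun S hS => ih _ ?_
      have := fin_quot_lt (F := F) S hS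
      omega
  exact key _ X (Nat.lt_succ_self _)

theorem ex_simple (X : Type) [AddCommGroup X] [Module F X] [Module A X] [IsScalarTower F A X]
    [Module.Finite F X] [Nontrivial X] : ∃ S : Submodule A X, S ≠ ⊥ ∧ IsSimpleModule A S := by
  haveI : IsArtinian A X := isArtinian_of_tower F inferInstance
  obtain h | ⟨S, hS, _⟩ := eq_bot_or_exists_atom_le (⊤ : Submodule A X)
  · exact absurd h top_ne_bot
  · exact ⟨S, hS.1, isSimpleModule_iff_isAtom.2 hS⟩

end gen

section dec

variable {K Γ : Type} [Field K] [Group Γ] [Fintype K] [Fintype Γ]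
variable {F : Type} [Field F] (D : BN K Γ) (C : Ch K F)
variable (X : Type) [AddCommGroup X] [Module F X] [Module (MonoidAlgebra F Γ) X]
  [IsScalarTower F (MonoidAlgebra F Γ) X] [Module.Finite F X]

theorem dm_c (c : K) (hc : c ≠ 0) : dm F (ee D C c) X = dm F (ee D C 1) X := by
  have key : ∀ (a : Kˣ) (c : K), dm F (ee D C c) X ≤ dm F (ee D C (c * (a : K))) X := by
    intro a c
    let f : Fx F (ee D C c) X →ₗ[F] Fx F (ee D C (c * (a : K))) X :=
      (Algebra.lsmul F F X (el F (D.t 1 a))).restrict fun x hx => by
        rw [mem_Fx] at hx ⊢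
        have h := t_ee D C 1 a c
        rw [inv_one, Units.val_one, mul_one] at h
        rw [Algebra.lsmul_coe, smul_smul, ← h, mul_smul, hx]
    refine LinearMap.finrank_le_finrank_of_injective (f := f) fun x y h => Subtype.ext ?_
    have h1 : el F (D.t 1 a) • (x : X) = el F (D.t 1 a) • (y : X) := congrArg Subtype.val h
    have h2 := congrArg (fun z => el F (D.t 1 a)⁻¹ • z) h1
    simpa only [smul_smul, ← el_mul, inv_mul_cancel, el_one, one_smul] using h2
  apply le_antisymm
  · have h := key (Units.mk0 c hc)⁻¹ c
    rwa [Units.val_inv_eq_inv_val, Units.val_mk0, mul_inv_cancel₀ hc] at h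
  · have h := key (Units.mk0 c hc) 1
    rwa [Units.val_mk0, one_mul] at h

theorem finrank_dm : finrank F X =
    dm F (ee D C 0) X + (Fintype.card K - 1) * dm F (ee D C 1) X := by
  let f : X →ₗ[F] ∀ c : K, Fx F (ee D C c) X := LinearMap.pi fun c =>
    (Algebra.lsmul F F X (ee D C c)).codRestrict _ fun x => by
      rw [mem_Fx, Algebra.lsmul_coe, smul_smul, ee_idem]
  have hf : ∀ x c, (f x c : X) = ee D C c • x := fun x c => rfl
  have hb : Function.Bijective f := by
    constructor
    · rw [injective_iff_map_eq_zero]
      intro x hx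
      have h : ∀ c, ee D C c • x = 0 := fun c => by rw [← hf, hx]; rfl
      rw [← one_smul (MonoidAlgebra F Γ) x, ← sum_ee D C, Finset.sum_smul]
      exact Finset.sum_eq_zero fun c _ => h c
    · intro y
      refine ⟨∑ c, (y c : X), funext fun c => Subtype.ext ?_⟩
      rw [hf, Finset.smul_sum, Finset.sum_eq_single c]
      · exact (y c).2
      · intro c' _ hc
        have h : ee D C c' • (y c' : X) = y c' := (y c').2
        rw [← h, smul_smul, ee_orth D C (Ne.symm hc), zero_smul]
      · intro h
        exact absurd (Finset.mem_univ _) h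
  rw [(LinearEquiv.ofBijective f hb).finrank_eq, Module.finrank_pi_fintype,
    ← Finset.add_sum_erase _ _ (Finset.mem_univ (0 : K))]
  congr 1
  show ∑ c ∈ Finset.univ.erase (0 : K), dm F (ee D C c) X = _
  rw [Finset.sum_congr rfl fun c hc => dm_c D C X c (Finset.mem_erase.1 hc).1, Finset.sum_const,
    Finset.card_erase_of_mem (Finset.mem_univ _), Finset.card_univ, smul_eq_mul]

end dec

end Vale.Agent.P022D.Rep
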