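import Vale.Agent.P022D.Rep.Rs

/-!
P022D, block REP: the reachable parts are generated by the Whittaker part; maps between actions.
-/

set_option linter.all false

noncomputable section

namespace Vale.Agent.P022D.Rep

open Classical Module

section one

variable {K Γ : Type} [Field K] [Group Γ] [Fintype K] [Fintype Γ]
variable {F : Type} [Field F] [CharP F 2] (D : BN K Γ) (C : Ch K F)

theorem Ig_le_Ip1 : Ig D C ≤ Ip D C := by
  rw [Ig, Submodule.span_le, Set.singleton_subset_iff]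
  intro a
  rw [mul_sub, mul_one, chi_sub, chi_mul_ee, sub_self]

theorem Ig_not_le_It : ¬ Ig D C ≤ It F Γ := by
  intro h
  have h1 : 1 - ee D C 1 ∈ It F Γ := h (Submodule.mem_span_singleton_self _)
  have hq : ∀ g : Γ, el F g • (Submodule.Quotient.mk 1 : MonoidAlgebra F Γ ⧸ It F Γ) =
      Submodule.Quotient.mk 1 := fun g => by
    rw [← Submodule.Quotient.mk_smul, Submodule.Quotient.eq, smul_eq_mul, mul_one]
    exact Submodule.subset_span ⟨g, rfl⟩
  have h2 := ee1_bf D C (x := (Submodule.Quotient.mk 1 : MonoidAlgebra F Γ ⧸ It F Γ))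
    fun b _ => hq b
  rw [← Submodule.Quotient.mk_smul, Submodule.Quotient.mk_eq_zero, smul_eq_mul, mul_one] at h2
  have h3 : (1 : MonoidAlgebra F Γ) ∈ It F Γ := by
    have e := (It F Γ).add_mem h1 h2
    rwa [sub_add_cancel] at e
  have h4 := (col_t D C 1).2 h3
  have h5 := nB_ann D _ h4
  rw [one_mul, trB_nB D C] at h5
  exact c0_ne D C h5

variable {D C}

/-- the trivial module is a subquotient of the Gelfand-Graev module -/
theorem MulR.ex_triv {m1 m2 : ℕ} (h : MulR D C m1 m2) (h1 : m1 ≠ 0) :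
    ∃ (a : Submodule (MonoidAlgebra F Γ) (MonoidAlgebra F Γ)) (x : MonoidAlgebra F Γ),
      Ig D C ≤ a ∧ ∀ r, r * x ∈ a ↔ r ∈ It F Γ := by
  by_contra hn
  have hne : ∀ a, Ig D C ≤ a → a ≠ It F Γ := fun a ha e => Ig_not_le_It D C (e ▸ ha)
  have e := h (fun a => if a = It F Γ then 1 else 0) fun a I x ha hI hx => by
    rcases hI with rfl | rfl
    · exact absurd ⟨a, x, ha, hx⟩ hn
    · beta_reduce
      rw [if_neg (hne a ha), if_neg (hne _ (ha.trans le_sup_left)), if_neg (hne _ (Ig_le_Ip1 D C)),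
        add_zero]
  beta_reduce at e
  rw [if_pos rfl, if_neg (hne _ (Ig_le_Ip1 D C)), if_neg (hne _ le_rfl), smul_zero, add_zero,
    nsmul_one, nonpos_iff_eq_zero, Nat.cast_eq_zero] at e
  exact h1 e

end one

section fin

variable {ι : Type} [Fintype ι] [DecidableEq ι] {F : Type} [Field F] [CharP F 2]
  {Γ K : ι → Type} [∀ i, Group (Γ i)] [∀ i, Fintype (Γ i)] [∀ i, Field (K i)] [∀ i, Fintype (K i)]
  {D : ∀ i, BN (K i) (Γ i)} {C : ∀ i, Ch (K i) F}
  {T W : Type} [Ring T] [AddCommGroup W] [Module T W] (E : Act F Γ T W)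

/-- **the reachable parts lie in the submodule generated by the Whittaker part** -/
theorem Act.gen_ind {θ : W →+ W} (h : E.Hig θ) {m1 m2 : ι → ℕ}
    (hm : ∀ i, MulR (D i) (C i) (m1 i) (m2 i)) (h1 : ∀ i, m1 i ≠ 0) (p : W → Prop)
    (hp : ∀ i r w, p w → p (E.al i r w)) (h0 : ∀ w ∈ E.Y (TG D C), p w) (a : TX D C) :
    ∀ w ∈ E.Y a.v, p w := by
  let I : Finset ι → Tu F Γ := fun s i => if i ∈ s then It F (Γ i) else Ig (D i) (C i)
  have i1 : ∀ s i, i ∈ s → I s i = It F (Γ i) := fun s i h => if_pos h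
  have i2 : ∀ s i, i ∉ s → I s i = Ig (D i) (C i) := fun s i h => if_neg h
  have key : ∀ s : Finset ι, ∀ w ∈ E.Y (I s), p w := by
    intro s
    induction s using Finset.induction_on with
    | empty =>
      intro w hw
      exact h0 w fun i r hr => hw i r (by rwa [i2 _ _ (Finset.notMem_empty i)])
    | insert i s hi ih =>
      intro w hw
      obtain ⟨b, x, hb, hx⟩ := (hm i).ex_triv (h1 i)
      obtain ⟨v, hv⟩ := E.stp_surj h (I s) i hx
        ⟨w, E.mem_Y_update.2 ⟨fun r hr => hw i r (by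
          rwa [i1 _ _ (Finset.mem_insert_self i s)]), fun j hj r hr => hw j r (by
            by_cases hs : j ∈ s
            · rw [i1 _ _ hs] at hr
              rwa [i1 _ _ (Finset.mem_insert_of_mem hs)]
            · rw [i2 _ _ hs] at hr
              rwa [i2 _ _ (fun e => (Finset.mem_insert.1 e).elim hj hs)])⟩⟩
      have e : E.al i x v = w := congrArg Subtype.val hv
      rw [← e]
      refine hp i x _ (ih _ fun j r hr => ?_)
      have hv2 := E.mem_Y_update.1 v.2
      by_cases hj : j = i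
      · subst hj
        rw [i2 _ _ hi] at hr
        exact hv2.1 r (hb hr)
      · exact hv2.2 j hj r hr
  intro w hw
  refine key (Finset.univ.filter fun i => ¬ Ig (D i) (C i) ≤ (a i).1) w fun i r hr => hw i r ?_
  by_cases hi : Ig (D i) (C i) ≤ (a i).1
  · rw [i2 _ _ (by simpa using hi)] at hr
    exact hi hr
  · rw [i1 _ _ (by simpa using hi), ← (a i).2.resolve_left hi] at hr
    exact hr

variable {T' W' : Type} [Ring T'] [AddCommGroup W'] [Module T' W'] (E' : Act F Γ T' W')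

/-- an additive map between two actions -/
theorem Act.al_nat2 (φ : W →+ W') (h1 : ∀ c w, φ (E.sc c w) = E'.sc c (φ w))
    (h2 : ∀ g w, φ (E.ρ g w) = E'.ρ g (φ w)) (i : ι) (r : MonoidAlgebra F (Γ i)) (w : W) :
    φ (E.al i r w) = E'.al i r (φ w) := by
  refine el_ind (p := fun r => φ (E.al i r w) = E'.al i r (φ w)) r ?_ ?_ ?_
  · intro g
    rw [E.al_el, E'.al_el, h2]
  · intro x y hx hy
    rw [map_add, map_add, LinearMap.add_apply, LinearMap.add_apply, map_add, hx, hy]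
  · intro c x hx
    rw [E.al_smul, E'.al_smul, Module.End.mul_apply, Module.End.mul_apply, h1, hx]

theorem Act.nat_mem2 (φ : W →+ W') (h1 : ∀ c w, φ (E.sc c w) = E'.sc c (φ w))
    (h2 : ∀ g w, φ (E.ρ g w) = E'.ρ g (φ w)) {I : Tu F Γ} {w : W} (hw : w ∈ E.Y I) :
    φ w ∈ E'.Y I := fun i r hr => by
  rw [← E.al_nat2 E' φ h1 h2, hw i r hr, map_zero]

/-- an equivariant map that kills the Whittaker part kills all reachable parts -/
theorem Act.kill_of_G {θ : W →+ W} (h : E.Hig θ) {m1 m2 : ι → ℕ}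
    (hm : ∀ i, MulR (D i) (C i) (m1 i) (m2 i)) (hm1 : ∀ i, m1 i ≠ 0) (φ : W →+ W')
    (h1 : ∀ c w, φ (E.sc c w) = E'.sc c (φ w)) (h2 : ∀ g w, φ (E.ρ g w) = E'.ρ g (φ w))
    (h0 : ∀ w ∈ E.Y (TG D C), φ w = 0) (a : TX D C) : ∀ w ∈ E.Y a.v, φ w = 0 :=
  E.gen_ind h hm hm1 (fun w => φ w = 0)
    (fun i r w hw => by rw [E.al_nat2 E' φ h1 h2, hw, map_zero]) h0 a

/-- every reachable vector is `x v` for a Whittaker vector `v` and an operator `x` in the ring
generated by the action -/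
theorem Act.ex_gen {θ : W →+ W} (h : E.Hig θ) {m1 m2 : ι → ℕ}
    (hm : ∀ i, MulR (D i) (C i) (m1 i) (m2 i)) (hm1 : ∀ i, m1 i ≠ 0) (a : TX D C) (w : W)
    (hw : w ∈ E.Y a.v) : ∃ v ∈ E.Y (TG D C), ∃ x : Module.End T W, w = x v ∧
      x ∈ Submonoid.closure {y | ∃ i r, y = E.al i r} :=
  E.gen_ind h hm hm1 (fun w => ∃ v ∈ E.Y (TG D C), ∃ x : Module.End T W, w = x v ∧
      x ∈ Submonoid.closure {y | ∃ i r, y = E.al i r})
    (fun i r w ⟨v, hv, x, e, hx⟩ => ⟨v, hv, E.al i r * x, by rw [e, Module.End.mul_apply],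
      Submonoid.mul_mem _ (Submonoid.subset_closure ⟨i, r, rfl⟩) hx⟩)
    (fun w hw => ⟨w, hw, 1, rfl, Submonoid.one_mem _⟩) a w hw

end fin

end Vale.Agent.P022D.Rep
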