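import Vale.Agent.P022D.Rep.Ser

/-!
P022D, block REP: modules with a trace one element; the submodules killed by tuples of left
ideals and their exact sequences.
-/

set_option linter.all false

noncomputable section

namespace Vale.Agent.P022D.Rep

open Classical Module

section one

variable {F Γ T W : Type} [Field F] [Group Γ] [Fintype Γ] [Ring T] [AddCommGroup W] [Module T W]

/-- extension of equivariant maps from a left ideal -/
theorem hig_ext (α : MonoidAlgebra F Γ →+* Module.End T W) (θ : W →+ W)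
    (hθ : ∀ (c : F) w, θ (α (algebraMap F _ c) w) = α (algebraMap F _ c) (θ w))
    (hH : ∀ w, ∑ g : Γ, α (el F g) (θ (α (el F g⁻¹) w)) = w)
    (W' : AddSubgroup W) (h1 : ∀ r, ∀ w ∈ W', α r w ∈ W') (h2 : ∀ w ∈ W', θ w ∈ W')
    (b : Submodule (MonoidAlgebra F Γ) (MonoidAlgebra F Γ)) (φ : b →+ W)
    (hφ : ∀ (r : MonoidAlgebra F Γ) (z : b), φ (r • z) = α r (φ z)) (hW : ∀ z, φ z ∈ W') :
    ∃ v ∈ W', ∀ z : b, α (z : MonoidAlgebra F Γ) v = φ z := by
  obtain ⟨π, hπ⟩ := LinearMap.exists_leftInverse_of_injective (b.subtype.restrictScalars F)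
    (LinearMap.ker_eq_bot.2 b.injective_subtype)
  have hπ' : ∀ z : b, π (z : MonoidAlgebra F Γ) = z := fun z => LinearMap.congr_fun hπ z
  let Φ : MonoidAlgebra F Γ → W := fun y => ∑ g : Γ, α (el F g) (θ (φ (π (el F g⁻¹ * y))))
  have hΦ : ∀ y, Φ y = ∑ g : Γ, α (el F g) (θ (φ (π (el F g⁻¹ * y)))) := fun y => rfl
  have hlin : ∀ r y, Φ (r * y) = α r (Φ y) := by
    intro r
    refine el_ind (p := fun r => ∀ y, Φ (r * y) = α r (Φ y)) r ?_ ?_ ?_
    · intro h y
      rw [hΦ, hΦ, map_sum]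
      refine (Fintype.sum_equiv (Equiv.mulLeft h) _ _ fun g => ?_).symm
      rw [Equiv.coe_mulLeft, ← mul_assoc, ← el_mul, mul_inv_rev, inv_mul_cancel_right, el_mul,
        map_mul α, Module.End.mul_apply]
    · intro r s hr hs y
      rw [map_add, LinearMap.add_apply, ← hr, ← hs, hΦ, hΦ, hΦ, ← Finset.sum_add_distrib]
      refine Finset.sum_congr rfl fun g _ => ?_
      rw [add_mul, mul_add, map_add, map_add, map_add, map_add]
    · intro c r hr y
      rw [Algebra.smul_def c r, map_mul, Module.End.mul_apply, ← hr, hΦ, hΦ, map_sum]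
      refine Finset.sum_congr rfl fun g _ => ?_
      rw [← Algebra.smul_def, smul_mul_assoc, mul_smul_comm, map_smul,
        ← algebraMap_smul (MonoidAlgebra F Γ) c, hφ, hθ, ← Module.End.mul_apply,
        ← Module.End.mul_apply (α (algebraMap F _ c)), ← map_mul, ← map_mul, Algebra.commutes]
  refine ⟨Φ 1, ?_, fun z => ?_⟩
  · rw [hΦ]
    exact W'.sum_mem fun g _ => h1 _ _ (h2 _ (hW _))
  · rw [← hlin, mul_one, hΦ, ← hH (φ z)]
    refine Finset.sum_congr rfl fun g _ => ?_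
    have e : el F g⁻¹ * (z : MonoidAlgebra F Γ) = ((el F g⁻¹ • z : b) : MonoidAlgebra F Γ) := rfl
    rw [e, hπ', hφ]

/-- surjectivity of one step -/
theorem hig_step (α : MonoidAlgebra F Γ →+* Module.End T W) (θ : W →+ W)
    (hθ : ∀ (c : F) w, θ (α (algebraMap F _ c) w) = α (algebraMap F _ c) (θ w))
    (hH : ∀ w, ∑ g : Γ, α (el F g) (θ (α (el F g⁻¹) w)) = w)
    (W' : AddSubgroup W) (h1 : ∀ r, ∀ w ∈ W', α r w ∈ W') (h2 : ∀ w ∈ W', θ w ∈ W')
    (a I : Submodule (MonoidAlgebra F Γ) (MonoidAlgebra F Γ)) (x : MonoidAlgebra F Γ)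
    (hx : ∀ r, r * x ∈ a → r ∈ I) (y : W) (hy : y ∈ W') (hI : ∀ r ∈ I, α r y = 0) :
    ∃ v ∈ W', (∀ r ∈ a, α r v = 0) ∧ α x v = y := by
  let b := a ⊔ Submodule.span (MonoidAlgebra F Γ) {x}
  have hb : ∀ z : b, ∃ r : MonoidAlgebra F Γ, (z : MonoidAlgebra F Γ) - r * x ∈ a := by
    intro z
    obtain ⟨u, hu, v, hv, e⟩ := Submodule.mem_sup.1 z.2
    obtain ⟨r, rfl⟩ := Submodule.mem_span_singleton.1 hv
    refine ⟨r, ?_⟩
    rw [← e, smul_eq_mul, add_sub_cancel_right]
    exact hu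
  choose ρ hρ using hb
  have hwd : ∀ (z : b) (r : MonoidAlgebra F Γ), (z : MonoidAlgebra F Γ) - r * x ∈ a →
      α (ρ z) y = α r y := by
    intro z r hr
    have h := a.sub_mem hr (hρ z)
    have e : (z : MonoidAlgebra F Γ) - r * x - (z - ρ z * x) = (ρ z - r) * x := by
      rw [sub_mul]
      abel
    rw [e] at h
    have h' := hI _ (hx _ h)
    rwa [map_sub, LinearMap.sub_apply, sub_eq_zero] at h'
  let φ : b →+ W := AddMonoidHom.mk' (fun z => α (ρ z) y) fun z z' => by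
    rw [← LinearMap.add_apply, ← map_add]
    apply hwd
    have e : ((z + z' : b) : MonoidAlgebra F Γ) - (ρ z + ρ z') * x =
        (z - ρ z * x) + (z' - ρ z' * x) := by
      rw [Submodule.coe_add, add_mul]
      abel
    rw [e]
    exact a.add_mem (hρ z) (hρ z')
  have hφ : ∀ z, φ z = α (ρ z) y := fun z => rfl
  obtain ⟨v, hv, h⟩ := hig_ext α θ hθ hH W' h1 h2 b φ (fun r z => by
    rw [hφ, hφ, ← Module.End.mul_apply, ← map_mul]
    apply hwd
    have e : ((r • z : b) : MonoidAlgebra F Γ) - r * ρ z * x = r • (z - ρ z * x) := by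
      rw [Submodule.coe_smul, smul_eq_mul, smul_eq_mul, mul_sub, mul_assoc]
    rw [e]
    exact a.smul_mem r (hρ z)) fun z => h1 _ _ hy
  refine ⟨v, hv, fun r hr => ?_, ?_⟩
  · have e := h ⟨r, Submodule.mem_sup_left hr⟩
    rw [hφ, hwd _ 0 (by simpa using hr), map_zero] at e
    exact e
  · have e := h ⟨x, Submodule.mem_sup_right (Submodule.mem_span_singleton_self x)⟩
    rw [hφ, hwd _ 1 (by simp), map_one] at e
    exact e

end one

section multi

variable {ι : Type} [Fintype ι] [DecidableEq ι]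

/-- an action of a product of groups, with scalars, on a `T`-module -/
structure Act (F : Type) (Γ : ι → Type) (T W : Type) [Field F] [∀ i, Group (Γ i)] [Ring T]
    [AddCommGroup W] [Module T W] where
  sc : F →+* Module.End T W
  ρ : (∀ i, Γ i) →* Module.End T W
  comm : ∀ c g, Commute (sc c) (ρ g)

variable {F : Type} {Γ : ι → Type} {T W : Type} [Field F] [∀ i, Group (Γ i)]
  [∀ i, Fintype (Γ i)] [Ring T] [AddCommGroup W] [Module T W] (E : Act F Γ T W)

/-- the action of the group algebra of one factor -/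
def Act.al (i : ι) : MonoidAlgebra F (Γ i) →+* Module.End T W :=
  MonoidAlgebra.liftNCRingHom E.sc (E.ρ.comp (MonoidHom.mulSingle Γ i)) fun c g => E.comm c _

theorem Act.al_single (i : ι) (g : Γ i) (c : F) :
    E.al i (MonoidAlgebra.single g c) = E.sc c * E.ρ (Pi.mulSingle i g) :=
  MonoidAlgebra.liftNC_single _ _ g c

theorem Act.al_el (i : ι) (g : Γ i) : E.al i (el F g) = E.ρ (Pi.mulSingle i g) := by
  rw [el, E.al_single, map_one, one_mul]

theorem Act.al_alg (i : ι) (c : F) : E.al i (algebraMap F _ c) = E.sc c := by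
  have e : algebraMap F (MonoidAlgebra F (Γ i)) c = MonoidAlgebra.single 1 c := rfl
  rw [e, E.al_single, Pi.mulSingle_one, map_one, mul_one]

theorem Act.al_smul (i : ι) (c : F) (r : MonoidAlgebra F (Γ i)) :
    E.al i (c • r) = E.sc c * E.al i r := by
  rw [Algebra.smul_def, map_mul, E.al_alg]

/-- an additive map that commutes with the scalars and with the factor `i` -/
theorem Act.al_nat (i : ι) (θ : W →+ W) (h1 : ∀ c w, θ (E.sc c w) = E.sc c (θ w))
    (h2 : ∀ g w, θ (E.ρ (Pi.mulSingle i g) w) = E.ρ (Pi.mulSingle i g) (θ w))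
    (r : MonoidAlgebra F (Γ i)) (w : W) : θ (E.al i r w) = E.al i r (θ w) := by
  refine el_ind (p := fun r => θ (E.al i r w) = E.al i r (θ w)) r ?_ ?_ ?_
  · intro g
    rw [E.al_el, h2]
  · intro x y hx hy
    rw [map_add, LinearMap.add_apply, LinearMap.add_apply, map_add, hx, hy]
  · intro c x hx
    rw [E.al_smul, Module.End.mul_apply, Module.End.mul_apply, h1, hx]

theorem Act.al_comm {i j : ι} (h : i ≠ j) (r : MonoidAlgebra F (Γ i)) (s : MonoidAlgebra F (Γ j))
    (w : W) : E.al j s (E.al i r w) = E.al i r (E.al j s w) := by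
  refine E.al_nat i (E.al j s).toAddMonoidHom (fun c w => ?_) (fun g w => ?_) r w
  · have e := congrArg (fun z => E.al j z w) (Algebra.commutes c s)
    simp only [map_mul, Module.End.mul_apply, E.al_alg] at e
    exact e.symm
  · refine (E.al_nat j (E.ρ (Pi.mulSingle i g)).toAddMonoidHom (fun c w => ?_)
      (fun g' w => ?_) s w).symm
    · exact (LinearMap.congr_fun (E.comm c _).eq w).symm
    · have e := congrArg (fun z => E.ρ z w) (Pi.mulSingle_commute h g g').eq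
      simp only [map_mul, Module.End.mul_apply] at e
      exact e

/-- the vectors killed by a tuple of left ideals -/
def Act.Y (I : ∀ i, Submodule (MonoidAlgebra F (Γ i)) (MonoidAlgebra F (Γ i))) :
    Submodule T W where
  carrier := {w | ∀ i, ∀ r ∈ I i, E.al i r w = 0}
  zero_mem' := fun i r _ => map_zero _
  add_mem' := fun {x y} hx hy i r hr => by rw [map_add, hx i r hr, hy i r hr, add_zero]
  smul_mem' := fun c x hx i r hr => by rw [map_smul, hx i r hr, smul_zero]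

theorem Act.mem_Y {I : ∀ i, Submodule (MonoidAlgebra F (Γ i)) (MonoidAlgebra F (Γ i))} {w : W} :
    w ∈ E.Y I ↔ ∀ i, ∀ r ∈ I i, E.al i r w = 0 := Iff.rfl

theorem Act.mem_Y_update {I : ∀ i, Submodule (MonoidAlgebra F (Γ i)) (MonoidAlgebra F (Γ i))}
    {i : ι} {a : Submodule (MonoidAlgebra F (Γ i)) (MonoidAlgebra F (Γ i))} {w : W} :
    w ∈ E.Y (Function.update I i a) ↔
      (∀ r ∈ a, E.al i r w = 0) ∧ ∀ j, j ≠ i → ∀ r ∈ I j, E.al j r w = 0 := by
  rw [E.mem_Y]
  constructor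
  · intro h
    refine ⟨fun r hr => h i r (by rwa [Function.update_self]), fun j hj r hr => h j r ?_⟩
    rwa [Function.update_of_ne hj]
  · rintro ⟨h1, h2⟩ j r hr
    by_cases hj : j = i
    · subst hj
      rw [Function.update_self] at hr
      exact h1 r hr
    · rw [Function.update_of_ne hj] at hr
      exact h2 j hj r hr

theorem Act.Y_anti {I J : ∀ i, Submodule (MonoidAlgebra F (Γ i)) (MonoidAlgebra F (Γ i))}
    (h : ∀ i, I i ≤ J i) : E.Y J ≤ E.Y I := fun w hw i r hr => hw i r (h i hr)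

/-- additive maps that commute with the action preserve all `Y I` -/
theorem Act.nat_mem (θ : W →+ W) (h1 : ∀ c w, θ (E.sc c w) = E.sc c (θ w))
    (h2 : ∀ g w, θ (E.ρ g w) = E.ρ g (θ w))
    {I : ∀ i, Submodule (MonoidAlgebra F (Γ i)) (MonoidAlgebra F (Γ i))} {w : W}
    (hw : w ∈ E.Y I) : θ w ∈ E.Y I := fun i r hr => by
  rw [← E.al_nat i θ h1 (fun g w => h2 _ w), hw i r hr, map_zero]

/-- a trace one operator -/
structure Act.Hig (θ : W →+ W) : Prop where
  sc : ∀ c w, θ (E.sc c w) = E.sc c (θ w)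
  tr : ∀ w, ∑ g : ∀ i, Γ i, E.ρ g (θ (E.ρ g⁻¹ w)) = w

/-- the average over the factors different from `i` -/
def Act.av (θ : W →+ W) (i : ι) : W →+ W :=
  ∑ g : (Pi.evalMonoidHom Γ i).ker, (E.ρ g).toAddMonoidHom.comp (θ.comp (E.ρ g⁻¹).toAddMonoidHom)

theorem Act.av_apply (θ : W →+ W) (i : ι) (w : W) : E.av θ i w =
    ∑ g : (Pi.evalMonoidHom Γ i).ker, E.ρ g (θ (E.ρ (g : ∀ i, Γ i)⁻¹ w)) := by
  unfold Act.av
  rw [AddMonoidHom.finset_sum_apply]
  rfl

theorem Act.av_sc {θ : W →+ W} (h : E.Hig θ) (i : ι) (c : F) (w : W) :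
    E.av θ i (E.sc c w) = E.sc c (E.av θ i w) := by
  rw [E.av_apply, E.av_apply, map_sum]
  refine Finset.sum_congr rfl fun g _ => ?_
  have e : ∀ g w, E.ρ g (E.sc c w) = E.sc c (E.ρ g w) := fun g w =>
    (LinearMap.congr_fun (E.comm c g).eq w).symm
  rw [e, h.sc, e]

theorem Act.av_ρ (θ : W →+ W) {i j : ι} (hj : j ≠ i) (k : Γ j) (w : W) :
    E.av θ i (E.ρ (Pi.mulSingle j k) w) = E.ρ (Pi.mulSingle j k) (E.av θ i w) := by
  have hk : Pi.mulSingle j k ∈ (Pi.evalMonoidHom Γ i).ker := Pi.mulSingle_eq_of_ne hj.symm k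
  rw [E.av_apply, E.av_apply, map_sum]
  refine (Fintype.sum_equiv (Equiv.mulLeft (⟨_, hk⟩ : (Pi.evalMonoidHom Γ i).ker)) _ _
    fun g => ?_).symm
  rw [Equiv.coe_mulLeft, Subgroup.coe_mul, map_mul, Module.End.mul_apply,
    ← Module.End.mul_apply (E.ρ _⁻¹), ← map_mul, mul_inv_rev, inv_mul_cancel_right]

theorem Act.av_tr {θ : W →+ W} (h : E.Hig θ) (i : ι) (w : W) :
    ∑ g : Γ i, E.al i (el F g) (E.av θ i (E.al i (el F g⁻¹) w)) = w := by
  conv_rhs => rw [← h.tr w]
  simp only [E.al_el, E.av_apply, map_sum]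
  rw [← Finset.sum_product']
  refine Fintype.sum_bijective (fun p : Γ i × (Pi.evalMonoidHom Γ i).ker =>
    Pi.mulSingle i p.1 * (p.2 : ∀ i, Γ i)) ⟨?_, ?_⟩ _ _ fun p => ?_
  · rintro ⟨a, g⟩ ⟨a', g'⟩ e
    have e1 := congrFun e i
    have hg : (g : ∀ i, Γ i) i = 1 := g.2
    have hg' : (g' : ∀ i, Γ i) i = 1 := g'.2
    simp only [Pi.mul_apply, Pi.mulSingle_eq_same, hg, hg', mul_one] at e1
    subst e1
    exact Prod.ext rfl (Subtype.ext (mul_left_cancel e))
  · intro g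
    refine ⟨⟨g i, ⟨(Pi.mulSingle i (g i))⁻¹ * g, ?_⟩⟩, mul_inv_cancel_left _ _⟩
    show ((Pi.mulSingle i (g i))⁻¹ * g) i = 1
    simp
  · rw [map_mul, Module.End.mul_apply, mul_inv_rev, map_mul, Module.End.mul_apply,
      Pi.mulSingle_inv]

/-- the map given by `x` -/
def Act.stp (I : ∀ i, Submodule (MonoidAlgebra F (Γ i)) (MonoidAlgebra F (Γ i))) (i : ι)
    {a I₁ : Submodule (MonoidAlgebra F (Γ i)) (MonoidAlgebra F (Γ i))} {x : MonoidAlgebra F (Γ i)}
    (hx : ∀ r, r * x ∈ a ↔ r ∈ I₁) :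
    E.Y (Function.update I i a) →ₗ[T] E.Y (Function.update I i I₁) :=
  (E.al i x).restrict fun w hw => by
    rw [E.mem_Y_update] at hw ⊢
    refine ⟨fun r hr => ?_, fun j hj r hr => ?_⟩
    · rw [← Module.End.mul_apply, ← map_mul]
      exact hw.1 _ ((hx r).2 hr)
    · rw [E.al_comm hj.symm, hw.2 j hj r hr, map_zero]

theorem Act.stp_coe (I : ∀ i, Submodule (MonoidAlgebra F (Γ i)) (MonoidAlgebra F (Γ i))) (i : ι)
    {a I₁ : Submodule (MonoidAlgebra F (Γ i)) (MonoidAlgebra F (Γ i))} {x : MonoidAlgebra F (Γ i)}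
    (hx : ∀ r, r * x ∈ a ↔ r ∈ I₁) (w : E.Y (Function.update I i a)) :
    (E.stp I i hx w : W) = E.al i x w := rfl

theorem Act.stp_le (I : ∀ i, Submodule (MonoidAlgebra F (Γ i)) (MonoidAlgebra F (Γ i))) (i : ι)
    (a : Submodule (MonoidAlgebra F (Γ i)) (MonoidAlgebra F (Γ i))) (x : MonoidAlgebra F (Γ i)) :
    E.Y (Function.update I i (a ⊔ Submodule.span _ {x})) ≤ E.Y (Function.update I i a) := by
  intro w hw
  rw [E.mem_Y_update] at hw ⊢
  exact ⟨fun r hr => hw.1 r (Submodule.mem_sup_left hr), hw.2⟩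

theorem Act.stp_exact (I : ∀ i, Submodule (MonoidAlgebra F (Γ i)) (MonoidAlgebra F (Γ i))) (i : ι)
    {a I₁ : Submodule (MonoidAlgebra F (Γ i)) (MonoidAlgebra F (Γ i))} {x : MonoidAlgebra F (Γ i)}
    (hx : ∀ r, r * x ∈ a ↔ r ∈ I₁) :
    Function.Exact (Submodule.inclusion (E.stp_le I i a x)) (E.stp I i hx) := by
  intro w
  constructor
  · intro h
    have h' : E.al i x w = 0 := congrArg Subtype.val h
    have hw := (E.mem_Y_update).1 w.2
    refine ⟨⟨w, (E.mem_Y_update).2 ⟨fun r hr => ?_, hw.2⟩⟩, rfl⟩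
    obtain ⟨u, hu, v, hv, rfl⟩ := Submodule.mem_sup.1 hr
    obtain ⟨s, rfl⟩ := Submodule.mem_span_singleton.1 hv
    rw [map_add, LinearMap.add_apply, hw.1 u hu, smul_eq_mul, map_mul, Module.End.mul_apply, h',
      map_zero, add_zero]
  · rintro ⟨v, rfl⟩
    exact Subtype.ext (((E.mem_Y_update).1 v.2).1 x
      (Submodule.mem_sup_right (Submodule.mem_span_singleton_self x)))

theorem Act.stp_surj {θ : W →+ W} (h : E.Hig θ)
    (I : ∀ i, Submodule (MonoidAlgebra F (Γ i)) (MonoidAlgebra F (Γ i))) (i : ι)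
    {a I₁ : Submodule (MonoidAlgebra F (Γ i)) (MonoidAlgebra F (Γ i))} {x : MonoidAlgebra F (Γ i)}
    (hx : ∀ r, r * x ∈ a ↔ r ∈ I₁) : Function.Surjective (E.stp I i hx) := by
  intro y
  have hy := (E.mem_Y_update).1 y.2
  obtain ⟨v, hv, h1, h2⟩ := hig_step (E.al i) (E.av θ i)
    (fun c w => by rw [E.al_alg, E.av_sc h]) (E.av_tr h i)
    (E.Y (Function.update I i ⊥)).toAddSubgroup
    (fun r w hw => by
      have hw' := (E.mem_Y_update).1 hw
      refine (E.mem_Y_update).2 ⟨fun s hs => ?_, fun j hj s hs => ?_⟩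
      · rw [(Submodule.mem_bot _).1 hs, map_zero, LinearMap.zero_apply]
      · rw [E.al_comm hj.symm, hw'.2 j hj s hs, map_zero])
    (fun w hw => by
      have hw' := (E.mem_Y_update).1 hw
      refine (E.mem_Y_update).2 ⟨fun s hs => ?_, fun j hj s hs => ?_⟩
      · rw [(Submodule.mem_bot _).1 hs, map_zero, LinearMap.zero_apply]
      · rw [← E.al_nat j _ (E.av_sc h i) (E.av_ρ θ hj), hw'.2 j hj s hs, map_zero])
    a I₁ x (fun r hr => (hx r).1 hr) y
    ((E.mem_Y_update).2 ⟨fun s hs => by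
      rw [(Submodule.mem_bot _).1 hs, map_zero, LinearMap.zero_apply], hy.2⟩) hy.1
  exact ⟨⟨v, (E.mem_Y_update).2 ⟨h1, ((E.mem_Y_update).1 hv).2⟩⟩, Subtype.ext h2⟩

end multi

end Vale.Agent.P022D.Rep
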