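import Vale.Agent.P022D.Rep.Cnt

/-!
P022D, block REP: the unipotent summand of the Gelfand-Graev module.
-/

set_option linter.all false

noncomputable section

namespace Vale.Agent.P022D.Rep

open Classical Module

variable {K Γ : Type} [Field K] [Group Γ] [Fintype K] [Fintype Γ]

/-- the torus as a homomorphism -/
def BN.tH (D : BN K Γ) : Kˣ × Kˣ →* Γ where
  toFun p := D.t p.1 p.2
  map_one' := D.t_one
  map_mul' p q := (D.t_mul p.1 p.2 q.1 q.2).symm

variable {F : Type} [Field F] (D : BN K Γ) (C : Ch K F)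

theorem sA_fix (a : MonoidAlgebra F Γ) : ee D C 1 * sA D C a * ee D C 1 = sA D C a := by
  unfold sA
  rw [mul_sub, sub_mul, mul_smul_comm, smul_mul_assoc, ee_idem, ee_idem, ← mul_assoc, ← mul_assoc,
    ee_idem, mul_assoc _ (ee D C 1) (ee D C 1), ee_idem]

theorem chi_sA (a : MonoidAlgebra F Γ) : chi D C (sA D C a) = 0 := by
  unfold sA
  have h : chi D C (ee D C 1) = 1 := by
    have e := chi_ee_mul D C 1
    rwa [mul_one, chi_one] at e
  rw [chi_sub, chi_smul, h, mul_one, chi_mul_ee, chi_ee_mul, sub_self]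

theorem fix_left {x : MonoidAlgebra F Γ} (hx : ee D C 1 * x * ee D C 1 = x) :
    ee D C 1 * x = x := by
  rw [← hx, ← mul_assoc, ← mul_assoc, ee_idem]

theorem fix_right {x : MonoidAlgebra F Γ} (hx : ee D C 1 * x * ee D C 1 = x) :
    x * ee D C 1 = x := by
  rw [← hx, mul_assoc _ (ee D C 1) (ee D C 1), ee_idem]

theorem fix_mul {x y : MonoidAlgebra F Γ} (hx : ee D C 1 * x * ee D C 1 = x)
    (hy : ee D C 1 * y * ee D C 1 = y) : ee D C 1 * (x * y) * ee D C 1 = x * y := by
  rw [← mul_assoc, fix_left D C hx, mul_assoc, fix_right D C hy]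

/-- the local idempotent of the Hecke algebra at `chi` -/
theorem ex_f : ∃ f : MonoidAlgebra F Γ, f * f = f ∧ ee D C 1 * f * ee D C 1 = f ∧
    chi D C f = 1 ∧ ∃ n : ℕ, ∀ l : List (MonoidAlgebra F Γ), l.length = n →
      (l.map (sA D C)).prod * f = 0 := by
  let I : Submodule F (MonoidAlgebra F Γ) :=
    { carrier := {x | ee D C 1 * x * ee D C 1 = x ∧ chi D C x = 0}
      zero_mem' := ⟨by rw [mul_zero, zero_mul], by simp [chi]⟩
      add_mem' := by
        rintro x y ⟨h1, h2⟩ ⟨h3, h4⟩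
        exact ⟨by rw [mul_add, add_mul, h1, h3], by rw [chi_add, h2, h4, add_zero]⟩
      smul_mem' := by
        rintro r x ⟨h1, h2⟩
        exact ⟨by rw [mul_smul_comm, smul_mul_assoc, h1], by rw [chi_smul, h2, mul_zero]⟩ }
  have hmul : ∀ x ∈ I, ∀ y ∈ I, x * y ∈ I := by
    rintro x ⟨h1, h2⟩ y ⟨h3, h4⟩
    refine ⟨fix_mul D C h1 h3, ?_⟩
    rw [← fix_right D C h1, chi_mul, h2, zero_mul]
  obtain ⟨ε, ⟨h1, h2⟩, n, h3, h4⟩ := idem_ex I hmul fun x hx y hy => hecke_comm' D C hx.1 hy.1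
  have he : chi D C (ee D C 1) = 1 := by
    have e := chi_ee_mul D C 1
    rwa [mul_one, chi_one] at e
  refine ⟨ee D C 1 - ε, ?_, ?_, ?_, n + 1, fun l hl => ?_⟩
  · rw [mul_sub, sub_mul, sub_mul, ee_idem, fix_left D C h1, fix_right D C h1, h3, sub_self,
      sub_zero]
  · rw [mul_sub, sub_mul, ee_idem, ee_idem, h1]
  · rw [chi_sub, he, h2, sub_zero]
  · obtain ⟨l', a, rfl⟩ : ∃ l' a, l = l' ++ [a] := by
      rcases List.eq_nil_or_concat' l with h | ⟨l', a, h⟩
      · subst h
        simp at hl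
      · exact ⟨l', a, h⟩
    have hl' : (l'.map (sA D C)).length = n := by simpa using hl
    have h5 := h4 _ hl' (by
      intro x hx
      obtain ⟨b, _, rfl⟩ := List.mem_map.1 hx
      exact ⟨sA_fix D C b, chi_sA D C b⟩)
    rw [List.map_append, List.prod_append, List.map_singleton, List.prod_singleton, mul_assoc,
      mul_sub, fix_right D C (sA_fix D C a), hecke_comm' D C (sA_fix D C a) h1, mul_sub,
      ← mul_assoc, h5, sub_self]

theorem prod_fix (l : List (MonoidAlgebra F Γ)) :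
    ee D C 1 * ((l.map (sA D C)).prod * ee D C 1) * ee D C 1 =
      (l.map (sA D C)).prod * ee D C 1 := by
  induction l with
  | nil => simp [ee_idem]
  | cons a l ih =>
    rw [List.map_cons, List.prod_cons, mul_assoc (sA D C a)]
    exact fix_mul D C (sA_fix D C a) ih

theorem inC_span {f : MonoidAlgebra F Γ} (hf : ee D C 1 * f * ee D C 1 = f) {n : ℕ}
    (hn : ∀ l : List (MonoidAlgebra F Γ), l.length = n → (l.map (sA D C)).prod * f = 0) :
    InC D C (Submodule.span (MonoidAlgebra F Γ) {f}) := by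
  refine ⟨⟨n, fun z x => Subtype.ext ?_⟩, n, fun l hl x => Subtype.ext ?_⟩
  · obtain ⟨b, hb⟩ := Submodule.mem_span_singleton.1 x.2
    have h1 : sA D C (el F (D.t z z)) = (el F (D.t z z) - 1) * ee D C 1 := by
      unfold sA
      rw [chi_z, one_smul, ← z_mul, mul_assoc, ee_idem, sub_mul, one_mul]
    have hc : ∀ y, Commute (el F (D.t z z) - 1) y := fun y =>
      Commute.sub_left (z_mul D z y) (Commute.one_left y)
    have h2 : ∀ k : ℕ, sA D C (el F (D.t z z)) ^ k * f = (el F (D.t z z) - 1) ^ k * f := by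
      intro k
      induction k with
      | zero => rw [pow_zero, pow_zero]
      | succ k ih =>
        rw [pow_succ', mul_assoc, ih, h1, mul_assoc, ← mul_assoc (ee D C 1),
          ← ((hc (ee D C 1)).pow_left k).eq, mul_assoc, fix_left D C hf, ← mul_assoc, ← pow_succ']
    have h3 := hn (List.replicate n (el F (D.t z z))) List.length_replicate
    rw [List.map_replicate, List.prod_replicate, h2] at h3
    show (el F (D.t z z) - 1) ^ n * (x : MonoidAlgebra F Γ) = 0
    rw [← hb, smul_eq_mul, ← mul_assoc, ((hc b).pow_left n).eq, mul_assoc, h3, mul_zero]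
  · obtain ⟨b, hb⟩ := Submodule.mem_span_singleton.1 x.2
    show (l.map (sA D C)).prod * ee D C 1 * (x : MonoidAlgebra F Γ) = 0
    have h1 : ee D C 1 * (ee D C 1 * b * ee D C 1) * ee D C 1 = ee D C 1 * b * ee D C 1 := by
      rw [← mul_assoc, ← mul_assoc, ee_idem, mul_assoc _ (ee D C 1) (ee D C 1), ee_idem]
    have h2 := hecke_comm' D C (prod_fix D C l) h1
    have h3 : (l.map (sA D C)).prod * ee D C 1 * (b * f) =
        (l.map (sA D C)).prod * ee D C 1 * (ee D C 1 * b * ee D C 1) * f := by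
      conv_lhs => rw [← ee_idem D C 1, ← fix_left D C hf]
      simp only [mul_assoc]
    rw [← hb, smul_eq_mul, h3, h2, mul_assoc, mul_assoc _ (ee D C 1) f, fix_left D C hf, hn l hl,
      mul_zero]

theorem c0_ne : c0 D C ≠ 0 := by
  intro h
  have h1 : (ee D C 0 * el F D.w * nB D F).coeff 1 = 0 := by
    unfold ee
    rw [mul_assoc, smul_mul_assoc, Finset.sum_mul, MonoidAlgebra.coeff_smul_apply,
      MonoidAlgebra.coeff_sum, Finsupp.finset_sum_apply, Finset.sum_eq_zero, smul_zero]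
    intro x _
    rw [smul_mul_assoc, MonoidAlgebra.coeff_smul_apply, coeff_el_mul, coeff_el_mul, coeff_nB,
      if_neg, smul_zero]
    intro hB
    apply D.w_not
    have h2 := D.B.mul_mem hB (D.u_mem x)
    rw [mul_one, inv_mul_cancel_right] at h2
    exact (D.B.inv_mem_iff).1 h2
  have h2 := congrArg (fun x : MonoidAlgebra F Γ => x.coeff 1) h
  simp only [c0, MonoidAlgebra.coeff_add, Finsupp.add_apply, MonoidAlgebra.coeff_smul_apply, h1,
    coeff_nB, if_pos D.B.one_mem] at h2
  simp at h2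

variable [CharP F 2]

theorem sub_one_pow (a : MonoidAlgebra F Γ) (n : ℕ) : (a - 1) ^ 2 ^ n = a ^ 2 ^ n - 1 := by
  induction n with
  | zero => simp
  | succ n ih => rw [pow_succ, pow_mul, pow_mul, ih, pow_two, pow_two, sq_two]

theorem d0_le {X : Type} [AddCommGroup X] [Module F X] [Module (MonoidAlgebra F Γ) X]
    [IsScalarTower F (MonoidAlgebra F Γ) X] [Module.Finite F X] {v : X} (hv : ee D C 1 • v = v)
    (hs : ∀ x : X, ∃ a : MonoidAlgebra F Γ, a • v = x) {n : ℕ}
    (hn : ∀ (a d : Kˣ) (x : X), ee D C 0 • x = x → (el F (D.t a d) - 1) ^ n • x = 0)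
    {k m : ℕ} (hm : Odd m) (hT : Nat.card D.tH.range = 2 ^ k * m) :
    dm F (ee D C 0) X ≤ 2 ^ k := by
  set y : X := (ee D C 0 * el F D.w) • v with hy
  have hy0 : ee D C 0 • y = y := by rw [hy, smul_smul, ← mul_assoc, ee_idem]
  let H : Subgroup Γ := (D.tH.comp (powMonoidHom m)).range
  have hH : IsPGroup 2 H := by
    rintro ⟨_, p, rfl⟩
    refine ⟨k, Subtype.ext ?_⟩
    have e := pow_card_eq_one' (G := D.tH.range) (x := ⟨D.tH p, p, rfl⟩)
    rw [hT] at e
    have e' : D.tH p ^ (2 ^ k * m) = 1 := congrArg Subtype.val e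
    show D.tH (p ^ m) ^ 2 ^ k = 1
    rw [map_pow, ← pow_mul, mul_comm, e']
  have hc : Nat.card H ≤ 2 ^ k := by
    obtain ⟨i, hi⟩ := IsPGroup.iff_card.1 hH
    have hle : H ≤ D.tH.range := by
      rintro _ ⟨p, rfl⟩
      exact ⟨_, rfl⟩
    have hdv := Subgroup.card_dvd_of_le hle
    rw [hi, hT] at hdv
    rw [hi]
    exact Nat.le_of_dvd (by positivity)
      ((Nat.Coprime.pow_left i (Nat.coprime_two_left.2 hm)).dvd_of_dvd_mul_right hdv)
  have hle : Fx F (ee D C 0) X ≤ Submodule.span F (Set.range fun h : H => el F (h : Γ) • y) := by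
    intro x hx
    obtain ⟨b, hb'⟩ := hs x
    have hx' : ee D C 0 • x = x := hx
    rw [← hx', ← hb', smul_smul]
    refine ee0_span hv _ (fun a d => ?_) b
    rw [← hy]
    apply Submodule.subset_span
    have h2 : el F (D.t a d ^ 2 ^ n) • y = y := by
      have e := hn a d y hy0
      have e2 : (el F (D.t a d) - 1) ^ 2 ^ n • y = 0 := by
        obtain ⟨j, hj⟩ := Nat.exists_eq_add_of_le' (Nat.lt_two_pow_self (n := n)).le
        rw [hj, pow_add, mul_smul, e, smul_zero]
      rw [sub_one_pow, sub_smul, one_smul, sub_eq_zero] at e2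
      rw [el_pow, e2]
    have h3 : ∀ j : ℕ, el F ((D.t a d ^ 2 ^ n) ^ j) • y = y := by
      intro j
      induction j with
      | zero => rw [pow_zero, el_one, one_smul]
      | succ j ih => rw [pow_succ, el_mul, mul_smul, h2, ih]
    obtain ⟨α, _, hα⟩ := Nat.exists_mul_mod_eq_of_coprime 1
      (Nat.Coprime.pow_right n (Nat.coprime_two_right.2 hm)) (by positivity)
    change m * α ≡ 1 [MOD 2 ^ n] at hα
    have hpos : 1 ≤ m * α + 2 ^ n := le_add_left Nat.one_le_two_pow
    obtain ⟨j, hj⟩ : 2 ^ n ∣ m * α + 2 ^ n - 1 :=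
      (Nat.modEq_iff_dvd' hpos).1 (by
        have e : m * α + 2 ^ n ≡ 1 + 0 [MOD 2 ^ n] :=
          hα.add (Nat.modEq_zero_iff_dvd.2 dvd_rfl)
        exact e.symm)
    refine ⟨⟨D.t a d ^ (m * α), (a, d) ^ α, ?_⟩, ?_⟩
    · show D.tH (((a, d) ^ α) ^ m) = _
      rw [← pow_mul, map_pow, mul_comm]
      rfl
    · show el F (D.t a d ^ (m * α)) • y = _
      have e : D.t a d ^ (m * α) * D.t a d ^ 2 ^ n = D.t a d * (D.t a d ^ 2 ^ n) ^ j := by
        rw [← pow_add, ← pow_mul, ← pow_succ']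
        congr 1
        omega
      rw [← h2, smul_smul, ← el_mul, e, el_mul, mul_smul, h3, h2]
  refine (Submodule.finrank_mono hle).trans ((finrank_range_le_card _).trans ?_)
  rwa [← Nat.card_eq_fintype_card]

theorem d0_eq {f : MonoidAlgebra F Γ} (h0 : f * f = f) (hf : ee D C 1 * f * ee D C 1 = f)
    (h1 : chi D C f = 1) {n : ℕ}
    (hn : ∀ (a d : Kˣ) (x : Submodule.span (MonoidAlgebra F Γ) {f}),
      ee D C 0 • x = x → (el F (D.t a d) - 1) ^ n • x = 0)
    {k m : ℕ} (hm : Odd m) (hT : Nat.card D.tH.range = 2 ^ k * m) :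
    dm F (ee D C 0) (Submodule.span (MonoidAlgebra F Γ) {f}) = 2 ^ k := by
  set P := Submodule.span (MonoidAlgebra F Γ) {f} with hP
  have hfP : f ∈ P := Submodule.mem_span_singleton_self f
  let ι : Fx F (ee D C 0) P →ₗ[F] MonoidAlgebra F Γ :=
    (P.subtype.restrictScalars F).comp (Fx F (ee D C 0) P).subtype
  have hι : Function.Injective ι := fun x y h => Subtype.ext (Subtype.ext h)
  let q : MonoidAlgebra F Γ →ₗ[F] MonoidAlgebra F Γ :=
    (LinearMap.mulLeft F (ee D C 0)).comp (LinearMap.mulRight F f)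
  have hq : ∀ x, q x = ee D C 0 * (x * f) := fun x => rfl
  have hr : LinearMap.range ι = LinearMap.range q := by
    ext y
    constructor
    · rintro ⟨x, rfl⟩
      obtain ⟨b, hb⟩ := Submodule.mem_span_singleton.1 x.1.2
      have hx : ee D C 0 * (x.1 : MonoidAlgebra F Γ) = x.1 := congrArg Subtype.val x.2
      refine ⟨b, ?_⟩
      rw [hq, ← smul_eq_mul b, hb, hx]
      rfl
    · rintro ⟨b, rfl⟩
      refine ⟨⟨(ee D C 0 * b) • ⟨f, hfP⟩, ?_⟩, ?_⟩
      · rw [mem_Fx, smul_smul, ← mul_assoc, ee_idem]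
      · exact mul_assoc (ee D C 0) b f
  have hd : dm F (ee D C 0) P = finrank F (LinearMap.range q) := by
    rw [← hr, LinearMap.finrank_range_of_inj hι, dm]
  have hlow : 2 ^ k ∣ dm F (ee D C 0) P := by
    obtain ⟨H, hH⟩ := Sylow.exists_subgroup_card_pow_prime (G := D.tH.range) 2 (n := k)
      (hT ▸ dvd_mul_right _ _)
    have hc : Nat.card (H.map D.tH.range.subtype) = 2 ^ k := by
      rw [Subgroup.card_map_of_injective D.tH.range.subtype_injective, hH]
    rw [hd, ← hc]
    refine proj_dvd _ (IsPGroup.of_card hc) q (fun x => ?_) fun h x => ?_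
    · rw [hq, hq, mul_assoc, mul_assoc, h0, ← mul_assoc, ee_idem]
    · obtain ⟨s, _, hs⟩ := h.2
      obtain ⟨p, hp⟩ := s.2
      have e : (h : Γ) = D.t p.1 p.2 := by
        rw [← hs]
        exact hp.symm
      rw [hq, hq, e, ← mul_assoc, ← mul_assoc, ← t_ee0]
      simp only [mul_assoc]
  set y : P := (ee D C 0 * el F D.w) • ⟨f, hfP⟩ with hy
  have hy0 : ee D C 0 • y = y := by rw [hy, smul_smul, ← mul_assoc, ee_idem]
  have hne : dm F (ee D C 0) P ≠ 0 := by
    intro e
    have e1 := Submodule.finrank_eq_zero.1 e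
    have e2 : y ∈ Fx F (ee D C 0) P := hy0
    rw [e1] at e2
    have e3 : ee D C 0 * el F D.w * f = 0 := congrArg Subtype.val e2
    have e4 := chi_spec D C f
    rw [h1, one_smul, fix_left D C hf] at e4
    apply c0_ne D C
    rw [← ee0_w_v0_two, ← e4, ← mul_assoc, e3, zero_mul]
  haveI : Module.Finite F P :=
    Module.Finite.of_injective (P.subtype.restrictScalars F) P.injective_subtype
  have hup : dm F (ee D C 0) P ≤ 2 ^ k :=
    d0_le D C (v := (⟨f, hfP⟩ : P)) (Subtype.ext (fix_left D C hf)) (fun x => by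
      obtain ⟨b, hb⟩ := Submodule.mem_span_singleton.1 x.2
      exact ⟨b, Subtype.ext hb⟩) hn hm hT
  exact le_antisymm hup (Nat.le_of_dvd (Nat.pos_of_ne_zero hne) hlow)

/-- the unipotent summand `P` of the Gelfand-Graev module and its multiplicities -/
theorem ex_P {a b c u w m : ℕ} (hu : Odd u) (hw : Odd w) (h1 : Fintype.card K = 2 ^ a * u + 1)
    (h2 : Fintype.card K + 1 = 2 ^ b * w) (ha : 1 ≤ a) (hm : Odd m)
    (hT : Nat.card D.tH.range = 2 ^ (a + c) * m) (hG : 2 ^ (a + c + b) ∣ Nat.card Γ) :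
    ∃ P : Submodule (MonoidAlgebra F Γ) (MonoidAlgebra F Γ), P ≤ GG D C ∧ InC D C P ∧
      dm F (ee D C 0) P = 2 ^ (a + c) ∧ 2 ^ (a + c) + 2 ^ (c + b) ≤ 2 * dm F (ee D C 1) P := by
  obtain ⟨f, h0, hf, hχ, n, hn⟩ := ex_f D C
  have hC := inC_span D C hf hn
  set P := Submodule.span (MonoidAlgebra F Γ) {f} with hP
  have hfP : f ∈ P := Submodule.mem_span_singleton_self f
  haveI : Module.Finite F P :=
    Module.Finite.of_injective (P.subtype.restrictScalars F) P.injective_subtype
  obtain ⟨h3, n', h4⟩ := gen_bound P hC (by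
    rw [eq_top_iff]
    intro x _
    obtain ⟨b, hb⟩ := Submodule.mem_span_singleton.1 x.2
    have hb' : b • (⟨f, hfP⟩ : P) = x := Subtype.ext hb
    rw [← hb']
    exact Submodule.smul_mem _ _ (Submodule.subset_span (Subtype.ext (fix_left D C hf))))
  have h5 := d0_eq D C h0 hf hχ h4 hm hT
  refine ⟨P, ?_, hC, h5, ?_⟩
  · rw [hP, Submodule.span_le, Set.singleton_subset_iff]
    exact Submodule.mem_span_singleton.2 ⟨f, fix_right D C hf⟩
  · have h6 : 2 ^ (a + c + b) ∣ finrank F P := by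
      obtain ⟨H, hH⟩ := Sylow.exists_subgroup_card_pow_prime (G := Γ) 2 hG
      have hr : LinearMap.range (P.subtype.restrictScalars F) =
          LinearMap.range (LinearMap.mulRight F f) := by
        ext y
        constructor
        · rintro ⟨x, rfl⟩
          obtain ⟨b, hb⟩ := Submodule.mem_span_singleton.1 x.2
          exact ⟨b, hb⟩
        · rintro ⟨b, rfl⟩
          exact ⟨⟨b * f, Submodule.mem_span_singleton.2 ⟨b, rfl⟩⟩, rfl⟩
      rw [← LinearMap.finrank_range_of_inj (f := P.subtype.restrictScalars F) P.injective_subtype,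
        hr, ← hH]
      refine proj_dvd _ (IsPGroup.of_card hH) _ (fun x => ?_) fun h x => ?_
      · simp only [LinearMap.mulRight_apply, mul_assoc, h0]
      · simp only [LinearMap.mulRight_apply, mul_assoc]
    rw [finrank_dm D C P, h5] at h6
    rw [h5] at h3
    exact numer hu hw h1 h2 ha h6 h3

end Vale.Agent.P022D.Rep
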