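import Vale.Agent.P022D.Rep.Hig

/-!
P022D, block REP: Borel invariants, the trace and the cuspidal module; several places.
-/

set_option linter.all false

noncomputable section

namespace Vale.Agent.P022D.Rep

open Classical Module

section one

variable {K Γ : Type} [Field K] [Group Γ] [Fintype K] [Fintype Γ]
variable {F : Type} [Field F] (D : BN K Γ) (C : Ch K F)

/-- the trace from the Borel subgroup: `1 + ∑ u(y) w` -/
def trB (F : Type) [Field F] : MonoidAlgebra F Γ := 1 + ∑ y : K, el F (D.u y * D.w)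

theorem trB_eq : trB D F = 1 + (Fintype.card K : F) • (ee D C 0 * el F D.w) := by
  unfold trB ee
  rw [smul_mul_assoc, smul_smul, mul_comm _ C.li, C.li_mul, one_smul, Finset.sum_mul]
  simp [el_mul]

theorem trB_nB : trB D F * nB D F = c0 D C := by
  rw [trB_eq D C, add_mul, one_mul, smul_mul_assoc, c0]

theorem nB_ann (r : MonoidAlgebra F Γ) (hr : r ∈ Ib D F) : r * nB D F = 0 := by
  have h : Ib D F ≤ LinearMap.ker (LinearMap.toSpanSingleton _ _ (nB D F)) := by
    rw [Ib, Submodule.span_le]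
    rintro _ ⟨b, rfl⟩
    show (el F (b : Γ) - 1) * nB D F = 0
    rw [sub_mul, b_nB D b.2, one_mul, sub_self]
  exact h hr

section mod

variable {X : Type} [AddCommGroup X] [Module F X] [Module (MonoidAlgebra F Γ) X]
  [IsScalarTower F (MonoidAlgebra F Γ) X]

theorem bf_span {x : X} (hx : ∀ b ∈ D.B, el F b • x = x) (c : K) (a : MonoidAlgebra F Γ) :
    ∃ r s : F, (ee D C c * a) • x = r • ee D C c • x + s • (ee D C c * el F D.w) • x := by
  refine el_ind (p := fun a => ∃ r s : F,
    (ee D C c * a) • x = r • ee D C c • x + s • (ee D C c * el F D.w) • x) a ?_ ?_ ?_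
  · intro g
    rcases D.bruhat g with ⟨a, d, y, rfl⟩ | ⟨y, a, d, y', rfl⟩
    · refine ⟨1, 0, ?_⟩
      rw [mul_smul, hx _ (D.B.mul_mem (D.t_mem a d) (D.u_mem y)), one_smul, zero_smul, add_zero]
    · refine ⟨0, C.ψ (c * y), ?_⟩
      have h : D.u y * D.t a d * D.w * D.u y' = D.u y * (D.w * (D.t d a * D.u y')) := by
        rw [mul_assoc (D.u y), D.t_w]
        simp only [mul_assoc]
      rw [h, el_mul, el_mul, ← mul_assoc, ee_u, zero_smul, zero_add, smul_mul_assoc, smul_assoc,
        ← mul_assoc, mul_smul _ _ x, hx _ (D.B.mul_mem (D.t_mem d a) (D.u_mem y'))]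
  · rintro a b ⟨r, s, h⟩ ⟨r', s', h'⟩
    refine ⟨r + r', s + s', ?_⟩
    rw [mul_add, add_smul, h, h', add_smul, add_smul]
    abel
  · rintro k a ⟨r, s, h⟩
    refine ⟨k * r, k * s, ?_⟩
    rw [mul_smul_comm, smul_assoc, h, smul_add, smul_smul k, smul_smul k]

theorem bf_pair {x : X} (hx : ∀ b ∈ D.B, el F b • x = x) :
    ∀ b ∈ D.B, el F b • ((nB D F, x) : MonoidAlgebra F Γ × X) = (nB D F, x) := fun b hb =>
  Prod.ext (b_nB D hb) (hx b hb)

theorem ee1_bf {x : X} (hx : ∀ b ∈ D.B, el F b • x = x) : ee D C 1 • x = 0 := by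
  rw [← ee0_fix D C x fun y => hx _ (D.u_mem y), smul_smul, ee_orth D C one_ne_zero, zero_smul]

theorem wh_of_B {x : X} (hx : ∀ b ∈ D.B, el F b • x = x) :
    Wh D C ((ee D C 1 * el F D.w) • x) := by
  intro a
  obtain ⟨r, s, h⟩ := bf_span D C (bf_pair D hx) 1 (a * (ee D C 1 * el F D.w))
  rw [ee1_bf D C (bf_pair D hx), smul_zero, zero_add] at h
  have h1 : ee D C 1 * (a * (ee D C 1 * el F D.w)) * nB D F = s • (ee D C 1 * el F D.w * nB D F) :=
    congrArg Prod.fst h
  have h2 : (ee D C 1 * (a * (ee D C 1 * el F D.w))) • x = s • (ee D C 1 * el F D.w) • x :=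
    congrArg Prod.snd h
  have h3 : chi D C a = s := by
    apply chi_of
    unfold v0
    rw [← h1]
    simp only [mul_assoc]
  rw [h3, smul_smul, mul_assoc, h2]

/-- a Borel invariant vector without Whittaker part is invariant -/
theorem fix_of_B {x : X} (hx : ∀ b ∈ D.B, el F b • x = x) (h : (ee D C 1 * el F D.w) • x = 0)
    (g : Γ) : el F g • x = x := by
  have hn : Ng D C x := by
    intro a
    obtain ⟨r, s, e⟩ := bf_span D C hx 1 a
    rw [e, h, ee1_bf D C hx, smul_zero, smul_zero, add_zero]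
  obtain ⟨a, d, e⟩ := ng_t (D := D) (C := C) (X := X) g
  rw [e x hn, hx _ (D.t_mem a d)]

variable [CharP F 2]

theorem ee0_w_ee_w {x : X} (hx : ∀ b ∈ D.B, el F b • x = x) :
    (ee D C 0 * el F D.w) • (ee D C 1 * el F D.w) • x = trB D F • x := by
  obtain ⟨r, s, h⟩ := bf_span D C (bf_pair D hx) 0 (el F D.w * (ee D C 1 * el F D.w))
  have h0 := ee0_fix D C _ fun y => bf_pair D hx _ (D.u_mem y)
  rw [h0] at h
  have h1 : ee D C 0 * (el F D.w * (ee D C 1 * el F D.w)) * nB D F =
      r • nB D F + s • (ee D C 0 * el F D.w * nB D F) := congrArg Prod.fst h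
  have h2 : (ee D C 0 * (el F D.w * (ee D C 1 * el F D.w))) • x =
      r • x + s • (ee D C 0 * el F D.w) • x := congrArg Prod.snd h
  have h3 : c0 D C = r • nB D F + s • (ee D C 0 * el F D.w * nB D F) := by
    rw [← ee0_w_v0_two, ← h1]
    unfold v0
    simp only [mul_assoc]
  have c1 : ∀ g, (ee D C 0 * el F D.w * nB D F).coeff g =
      ∑ y : K, if D.w⁻¹ * ((D.u y)⁻¹ * g) ∈ D.B then 1 else 0 := by
    intro g
    unfold ee
    rw [li_one, one_smul, mul_assoc, Finset.sum_mul, MonoidAlgebra.coeff_sum,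
      Finsupp.finset_sum_apply]
    refine Finset.sum_congr rfl fun y _ => ?_
    rw [zero_mul, neg_zero, AddChar.map_zero_eq_one, one_smul, coeff_el_mul, coeff_el_mul, coeff_nB]
  have c2 : (ee D C 0 * el F D.w * nB D F).coeff 1 = 0 := by
    rw [c1]
    refine Finset.sum_eq_zero fun y _ => if_neg fun hB => D.w_not ?_
    have h2 := D.B.mul_mem hB (D.u_mem y)
    rw [mul_one, inv_mul_cancel_right] at h2
    exact (D.B.inv_mem_iff).1 h2
  have c3 : (ee D C 0 * el F D.w * nB D F).coeff D.w = 1 := by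
    rw [c1, Finset.sum_eq_single (0 : K)]
    · rw [D.u_zero, inv_one, one_mul, inv_mul_cancel, if_pos D.B.one_mem]
    · intro y _ hy
      have h1 : (D.u y)⁻¹ = D.u (-y) := by
        rw [inv_eq_iff_mul_eq_one, ← D.u_add, add_neg_cancel, D.u_zero]
      have h2 : D.w⁻¹ = D.w := by
        rw [inv_eq_iff_mul_eq_one, D.w_w]
      rw [h1, h2, ← mul_assoc, if_neg (D.low_not _ (neg_ne_zero.2 hy))]
    · intro h
      exact absurd (Finset.mem_univ _) h
  have e1 := congrArg (fun z : MonoidAlgebra F Γ => z.coeff 1) h3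
  have e2 := congrArg (fun z : MonoidAlgebra F Γ => z.coeff D.w) h3
  simp only [c0, card_one C, MonoidAlgebra.coeff_add, Finsupp.add_apply,
    MonoidAlgebra.coeff_smul_apply, coeff_nB, c2, c3, if_pos D.B.one_mem, if_neg D.w_not,
    smul_eq_mul, mul_one, mul_zero, add_zero, zero_add] at e1 e2
  rw [smul_smul, mul_assoc, h2, ← e1, ← e2, trB_eq D C, card_one C, add_smul, one_smul, one_smul,
    one_smul, one_smul]

theorem ip_kill {x : X} (hx : ∀ b ∈ D.B, el F b • x = x) (ht : trB D F • x = 0)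
    {r : MonoidAlgebra F Γ} (hr : r ∈ Ip D C) : (r * (ee D C 1 * el F D.w)) • x = 0 := by
  have hw := wh_of_B D C hx
  have hn : Ng D C (r • (ee D C 1 * el F D.w) • x) := by
    intro a
    rw [smul_smul, mul_assoc, hw, hr a, zero_smul]
  have h0 := ee0_fix D C _ hn.u
  have h1 := ee0_span hw.fix ⊥ (fun a d => by
    rw [ee0_w_ee_w D C hx, ht, smul_zero]
    exact Submodule.zero_mem _) r
  rw [mul_smul, ← h0, smul_smul (ee D C 0)]
  exact h1

end mod

variable [CharP F 2]

/-- the colon ideal that describes `Pib` through the kernel of the trace -/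
theorem col_p (r : MonoidAlgebra F Γ) : r * (ee D C 1 * el F D.w) ∈
    Ib D F ⊔ Submodule.span (MonoidAlgebra F Γ) {trB D F} ↔ r ∈ Ip D C := by
  constructor
  · intro h a
    obtain ⟨u, hu, v, hv, e⟩ := Submodule.mem_sup.1 h
    obtain ⟨s, rfl⟩ := Submodule.mem_span_singleton.1 hv
    apply chi_of
    have e1 : r * v0 D C = s * c0 D C := by
      unfold v0
      rw [← mul_assoc, ← e, add_mul, nB_ann D u hu, zero_add, smul_eq_mul, mul_assoc, trB_nB]
    rw [mul_assoc, mul_assoc, e1, ← mul_assoc a, ← mul_assoc, ee_a_c0, zero_smul]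
  · intro h
    have e := ip_kill D C (x := (Submodule.Quotient.mk 1 : MonoidAlgebra F Γ ⧸
      (Ib D F ⊔ Submodule.span (MonoidAlgebra F Γ) {trB D F}))) (fun b hb => by
        rw [← Submodule.Quotient.mk_smul, Submodule.Quotient.eq, smul_eq_mul, mul_one]
        exact Submodule.mem_sup_left (Submodule.subset_span ⟨⟨b, hb⟩, rfl⟩)) (by
        rw [← Submodule.Quotient.mk_smul, Submodule.Quotient.mk_eq_zero, smul_eq_mul, mul_one]
        exact Submodule.mem_sup_right (Submodule.mem_span_singleton_self _)) h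
    rwa [← Submodule.Quotient.mk_smul, Submodule.Quotient.mk_eq_zero, smul_eq_mul, mul_one] at e

include C in
theorem trB_fix {X : Type} [AddCommGroup X] [Module F X] [Module (MonoidAlgebra F Γ) X]
    [IsScalarTower F (MonoidAlgebra F Γ) X] {x : X} (hx : ∀ b ∈ D.B, el F b • x = x) (g : Γ) :
    el F g • trB D F • x = trB D F • x := by
  have hn := (wh_of_B D C hx).ng (el F D.w)
  obtain ⟨a, d, e⟩ := ng_t (D := D) (C := C) (X := X) g
  rw [ee0_w_ee_w D C hx] at hn
  rw [e _ hn, trB_eq D C, smul_smul, mul_add, mul_one, mul_smul_comm, ← mul_assoc, t_ee0,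
    mul_assoc, ← el_mul, D.t_w, el_mul, ← mul_assoc, add_smul, add_smul, hx _ (D.t_mem a d),
    one_smul, smul_assoc, smul_assoc, mul_smul _ _ x, hx _ (D.t_mem d a)]

include C in
/-- the colon ideal of the trace -/
theorem col_t (r : MonoidAlgebra F Γ) : r * trB D F ∈ Ib D F ↔ r ∈ It F Γ := by
  constructor
  · intro h
    have e := nB_ann D _ h
    rw [mul_assoc, trB_nB D C] at e
    have hf : ∀ g : Γ, el F g * c0 D C = c0 D C := fun g => by
      have e := trB_fix D C (x := nB D F) (fun b hb => b_nB D hb) g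
      rwa [smul_eq_mul, smul_eq_mul, trB_nB D C] at e
    obtain ⟨s, h1, h2⟩ := triv_smul (X := (⊥ : Submodule (MonoidAlgebra F Γ) (MonoidAlgebra F Γ)))
      (fun _ _ => Subsingleton.elim _ _) r
    have h3 : It F Γ ≤ LinearMap.ker (LinearMap.toSpanSingleton _ _ (c0 D C)) := by
      rw [It, Submodule.span_le]
      rintro _ ⟨g, rfl⟩
      show (el F g - 1) * c0 D C = 0
      rw [sub_mul, hf, one_mul, sub_self]
    have h4 : (r - s • 1) * c0 D C = 0 := h3 h1
    rw [sub_mul, e, smul_mul_assoc, one_mul, zero_sub, neg_eq_zero, smul_eq_zero] at h4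
    rw [h4.resolve_right (c0_ne D C), zero_smul, sub_zero] at h1
    exact h1
  · intro h
    have hx : ∀ b ∈ D.B, el F b • (Submodule.Quotient.mk 1 : MonoidAlgebra F Γ ⧸ Ib D F) =
        Submodule.Quotient.mk 1 := fun b hb => by
      rw [← Submodule.Quotient.mk_smul, Submodule.Quotient.eq, smul_eq_mul, mul_one]
      exact Submodule.subset_span ⟨⟨b, hb⟩, rfl⟩
    have h3 : It F Γ ≤ LinearMap.ker (LinearMap.toSpanSingleton _ _
        (trB D F • (Submodule.Quotient.mk 1 : MonoidAlgebra F Γ ⧸ Ib D F))) := by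
      rw [It, Submodule.span_le]
      rintro _ ⟨g, rfl⟩
      show (el F g - 1) • trB D F • (Submodule.Quotient.mk 1 : MonoidAlgebra F Γ ⧸ Ib D F) = 0
      rw [sub_smul, trB_fix D C hx, one_smul, sub_self]
    have h4 : r • trB D F • (Submodule.Quotient.mk 1 : MonoidAlgebra F Γ ⧸ Ib D F) = 0 := h3 h
    rwa [smul_smul, ← Submodule.Quotient.mk_smul, Submodule.Quotient.mk_eq_zero, smul_eq_mul,
      mul_one] at h4

theorem Ib_le_It : Ib D F ≤ It F Γ := by
  rw [Ib, Submodule.span_le]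
  rintro _ ⟨b, rfl⟩
  exact Submodule.subset_span ⟨b, rfl⟩

theorem sup_eq_It : Ib D F ⊔ Submodule.span (MonoidAlgebra F Γ) {trB D F} ⊔
    Submodule.span (MonoidAlgebra F Γ) {ee D C 1 * el F D.w} = It F Γ := by
  have hq : ∀ g : Γ, el F g • (Submodule.Quotient.mk 1 : MonoidAlgebra F Γ ⧸ It F Γ) =
      Submodule.Quotient.mk 1 := fun g => by
    rw [← Submodule.Quotient.mk_smul, Submodule.Quotient.eq, smul_eq_mul, mul_one]
    exact Submodule.subset_span ⟨g, rfl⟩
  have hm : ∀ r : MonoidAlgebra F Γ,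
      r • (Submodule.Quotient.mk 1 : MonoidAlgebra F Γ ⧸ It F Γ) = 0 → r ∈ It F Γ := by
    intro r h
    rwa [← Submodule.Quotient.mk_smul, Submodule.Quotient.mk_eq_zero, smul_eq_mul, mul_one] at h
  apply le_antisymm
  · refine sup_le (sup_le (Ib_le_It D) ?_) ?_
    · rw [Submodule.span_le, Set.singleton_subset_iff]
      apply hm
      rw [trB_eq D C, card_one C, one_smul, add_smul, one_smul, mul_smul, hq,
        ee0_fix D C _ fun y => hq _, ← two_smul F, CharTwo.two_eq_zero, zero_smul]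
    · rw [Submodule.span_le, Set.singleton_subset_iff]
      apply hm
      rw [mul_smul, hq, ee1_bf D C fun b _ => hq b]
  · rw [It, Submodule.span_le]
    rintro _ ⟨g, rfl⟩
    have e := fix_of_B D C (x := (Submodule.Quotient.mk 1 : MonoidAlgebra F Γ ⧸
      (Ib D F ⊔ Submodule.span (MonoidAlgebra F Γ) {trB D F} ⊔
        Submodule.span (MonoidAlgebra F Γ) {ee D C 1 * el F D.w}))) (fun b hb => by
        rw [← Submodule.Quotient.mk_smul, Submodule.Quotient.eq, smul_eq_mul, mul_one]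
        exact Submodule.mem_sup_left
          (Submodule.mem_sup_left (Submodule.subset_span ⟨⟨b, hb⟩, rfl⟩))) (by
        rw [← Submodule.Quotient.mk_smul, Submodule.Quotient.mk_eq_zero, smul_eq_mul, mul_one]
        exact Submodule.mem_sup_right (Submodule.mem_span_singleton_self _)) g
    rwa [← Submodule.Quotient.mk_smul, Submodule.Quotient.eq, smul_eq_mul, mul_one] at e

/-- the permutation module has the factors `1`, `Pib`, `1` -/
theorem Stp.ind {N : Submodule (MonoidAlgebra F Γ) (MonoidAlgebra F Γ) → ℕ∞} (hN : Stp N) :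
    N (Ib D F) = N (It F Γ) + N (Ip D C) + N (It F Γ) := by
  rw [hN _ _ _ (col_t D C), hN _ _ _ (col_p D C), sup_eq_It]

end one

section multi

variable {ι : Type} [Fintype ι] [DecidableEq ι]
variable {F : Type} {Γ : ι → Type} {T W : Type} [Field F] [∀ i, Group (Γ i)]
  [∀ i, Fintype (Γ i)] [Ring T] [AddCommGroup W] [Module T W] (E : Act F Γ T W)

theorem Act.kill_span (i : ι) (s : Set (MonoidAlgebra F (Γ i))) (w : W) :
    (∀ r ∈ Submodule.span (MonoidAlgebra F (Γ i)) s, E.al i r w = 0) ↔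
      ∀ r ∈ s, E.al i r w = 0 := by
  refine ⟨fun h r hr => h r (Submodule.subset_span hr), fun h r hr => ?_⟩
  induction hr using Submodule.span_induction with
  | mem x hx => exact h x hx
  | zero => rw [map_zero, LinearMap.zero_apply]
  | add x y _ _ hx hy => rw [map_add, LinearMap.add_apply, hx, hy, add_zero]
  | smul a x _ hx => rw [smul_eq_mul, map_mul, Module.End.mul_apply, hx, map_zero]

theorem Act.kill_sup (i : ι) (a b : Submodule (MonoidAlgebra F (Γ i)) (MonoidAlgebra F (Γ i)))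
    (w : W) : (∀ r ∈ a ⊔ b, E.al i r w = 0) ↔
      (∀ r ∈ a, E.al i r w = 0) ∧ ∀ r ∈ b, E.al i r w = 0 := by
  refine ⟨fun h => ⟨fun r hr => h r (Submodule.mem_sup_left hr),
    fun r hr => h r (Submodule.mem_sup_right hr)⟩, fun h r hr => ?_⟩
  obtain ⟨u, hu, v, hv, rfl⟩ := Submodule.mem_sup.1 hr
  rw [map_add, LinearMap.add_apply, h.1 u hu, h.2 v hv, add_zero]

theorem Act.kill_It (i : ι) (w : W) : (∀ r ∈ It F (Γ i), E.al i r w = 0) ↔
    ∀ g : Γ i, E.ρ (Pi.mulSingle i g) w = w := by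
  rw [It, E.kill_span]
  simp [E.al_el, sub_eq_zero]

variable {i : ι} {K : Type} [Field K] [Fintype K] (D : BN K (Γ i)) (C : Ch K F)

theorem Act.kill_Ib (w : W) : (∀ r ∈ Ib D F, E.al i r w = 0) ↔
    ∀ b ∈ D.B, E.ρ (Pi.mulSingle i b) w = w := by
  rw [Ib, E.kill_span]
  simp [E.al_el, sub_eq_zero]

theorem Act.al_ee (c : K) (w : W) : E.al i (ee D C c) w =
    E.sc C.li (∑ x : K, E.sc (C.ψ (-(c * x))) (E.ρ (Pi.mulSingle i (D.u x)) w)) := by
  unfold ee
  rw [E.al_smul, Module.End.mul_apply, map_sum, LinearMap.sum_apply]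
  simp only [E.al_smul, Module.End.mul_apply, E.al_el]

theorem Act.al_trB (w : W) : E.al i (trB D F) w =
    w + ∑ y : K, E.ρ (Pi.mulSingle i (D.u y * D.w)) w := by
  unfold trB
  rw [map_add, map_one, map_sum, LinearMap.add_apply, LinearMap.sum_apply]
  simp only [E.al_el, Module.End.one_apply]

theorem Act.kill_Ig (w : W) : (∀ r ∈ Ig D C, E.al i r w = 0) ↔
    ∀ x : K, E.ρ (Pi.mulSingle i (D.u x)) w = E.sc (C.ψ x) w := by
  rw [Ig, E.kill_span]
  simp only [Set.mem_singleton_iff, forall_eq, map_sub, map_one, LinearMap.sub_apply,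
    Module.End.one_apply, sub_eq_zero]
  constructor
  · intro h x
    conv_lhs => rw [h, ← E.al_el, ← Module.End.mul_apply, ← map_mul, u_ee, one_mul, E.al_smul,
      Module.End.mul_apply, ← h]
  · intro h
    rw [E.al_ee]
    simp only [h, ← Module.End.mul_apply, ← map_mul, ← AddChar.map_add_eq_mul, one_mul,
      neg_add_cancel, AddChar.map_zero_eq_one, map_one]
    have e : E.sc (Fintype.card K : F) w = Fintype.card K • w := by
      rw [map_natCast, Module.End.natCast_apply]
    rw [Finset.sum_const, Finset.card_univ, Module.End.one_apply, ← e,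
      ← Module.End.mul_apply, ← map_mul, C.li_mul, map_one, Module.End.one_apply]

theorem Ig_le_Ip : Ig D C ≤ Ip D C := by
  rw [Ig, Submodule.span_le, Set.singleton_subset_iff]
  intro a
  rw [mul_sub, mul_one, chi_sub, chi_mul_ee, sub_self]

/-- a Borel invariant vector without Whittaker part is invariant -/
theorem Act.fix_of_B (w : W) (hw : ∀ b ∈ D.B, E.ρ (Pi.mulSingle i b) w = w)
    (h : E.al i (ee D C 1 * el F D.w) w = 0) (g : Γ i) : E.ρ (Pi.mulSingle i g) w = w := by
  let a : Submodule (MonoidAlgebra F (Γ i)) (MonoidAlgebra F (Γ i)) :=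
    Ib D F ⊔ Submodule.span _ {ee D C 1 * el F D.w}
  have e := Rep.fix_of_B D C (x := (Submodule.Quotient.mk 1 : MonoidAlgebra F (Γ i) ⧸ a))
    (fun b hb => by
      rw [← Submodule.Quotient.mk_smul, Submodule.Quotient.eq, smul_eq_mul, mul_one]
      exact Submodule.mem_sup_left (Submodule.subset_span ⟨⟨b, hb⟩, rfl⟩)) (by
      rw [← Submodule.Quotient.mk_smul, Submodule.Quotient.mk_eq_zero, smul_eq_mul, mul_one]
      exact Submodule.mem_sup_right (Submodule.mem_span_singleton_self _)) g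
  rw [← Submodule.Quotient.mk_smul, Submodule.Quotient.eq, smul_eq_mul, mul_one] at e
  have h1 := (E.kill_sup i _ _ w).2 ⟨(E.kill_Ib D w).2 hw, (E.kill_span i _ w).2 (by
    rintro r rfl
    exact h)⟩ _ e
  rwa [map_sub, map_one, E.al_el, LinearMap.sub_apply, Module.End.one_apply, sub_eq_zero] at h1

end multi

theorem comb2 {ι : Type} [Fintype ι] [hd : DecidableEq ι] {S : ι → Type} (g t p : ∀ i, S i)
    (m1 m2 : ι → ℕ) (N : (∀ i, S i) → ℕ∞)
    (h : ∀ (I : ∀ i, S i) (i : ι), m1 i • N (Function.update I i (t i)) +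
      m2 i • N (Function.update I i (p i)) ≤ N (Function.update I i (g i))) :
    ∑ J : Finset ι, (∏ i, if i ∈ J then m2 i else m1 i) •
      N (fun i => if i ∈ J then p i else t i) ≤ N g := by
  obtain rfl : hd = fun a b => propDecidable (a = b) := Subsingleton.elim _ _
  exact comb g t p m1 m2 N h

section fin

variable {ι : Type} [Fintype ι] [DecidableEq ι] {F : Type} [Field F] [CharP F 2]
  {Γ K : ι → Type} [∀ i, Group (Γ i)] [∀ i, Fintype (Γ i)] [∀ i, Field (K i)] [∀ i, Fintype (K i)]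
  (D : ∀ i, BN (K i) (Γ i)) (C : ∀ i, Ch (K i) F)

/-- tuples of left ideals -/
abbrev Tu (F : Type) [Field F] (Γ : ι → Type) [∀ i, Group (Γ i)] : Type :=
  ∀ i, Submodule (MonoidAlgebra F (Γ i)) (MonoidAlgebra F (Γ i))

/-- the tuple of the Whittaker part -/
def TG : Tu F Γ := fun i => Ig (D i) (C i)

/-- the tuple of the module `Pib` on `J`, trivial outside -/
def TJ (J : Finset ι) : Tu F Γ := fun i => if i ∈ J then Ip (D i) (C i) else It F (Γ i)

/-- the relation of the exact sequences `0 → Y a → Y b → Y c → 0` -/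
def Ses (a b c : Tu F Γ) : Prop := ∃ (I : Tu F Γ) (i : ι)
  (p q : Submodule (MonoidAlgebra F (Γ i)) (MonoidAlgebra F (Γ i))) (x : MonoidAlgebra F (Γ i)),
  (∀ r, r * x ∈ p ↔ r ∈ q) ∧ a = Function.update I i (p ⊔ Submodule.span _ {x}) ∧
    b = Function.update I i p ∧ c = Function.update I i q

/-- **COMB** -/
theorem combF (m1 m2 : ι → ℕ) (h : ∀ i, Mul (D i) (C i) (m1 i) (m2 i)) (N : Tu F Γ → ℕ∞)
    (hN : ∀ a b c, Ses a b c → N b = N a + N c) :
    ∑ J : Finset ι, (∏ i, if i ∈ J then m2 i else m1 i) • N (TJ D C J) ≤ N (TG D C) := by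
  exact comb2 (S := fun i => Submodule (MonoidAlgebra F (Γ i)) (MonoidAlgebra F (Γ i)))
    (TG D C) (fun i => It F (Γ i)) (fun i => Ip (D i) (C i)) m1 m2 N fun I i =>
      h i (fun a => N (Function.update I i a)) fun p q x hx =>
        hN _ _ _ ⟨I, i, p, q, x, hx, rfl, rfl, rfl⟩

/-- **SES** -/
theorem Act.ses {T W : Type} [Ring T] [AddCommGroup W] [Module T W] (E : Act F Γ T W)
    {θ : W →+ W} (h : E.Hig θ) {a b c : Tu F Γ} (s : Ses a b c) :
    ∃ (hle : E.Y a ≤ E.Y b) (g : E.Y b →ₗ[T] E.Y c) (i : ι) (x : MonoidAlgebra F (Γ i)),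
      (∀ w, (g w : W) = E.al i x w) ∧ Function.Exact (Submodule.inclusion hle) g ∧
        Function.Surjective g := by
  obtain ⟨I, i, p, q, x, hx, rfl, rfl, rfl⟩ := s
  exact ⟨E.stp_le I i p x, E.stp I i hx, i, x, fun _ => rfl, E.stp_exact I i hx,
    E.stp_surj h I i hx⟩

end fin

end Vale.Agent.P022D.Rep
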