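import Vale.Agent.P022D.Rep.Main

/-!
P022D, block REP: a composition series of the unipotent summand, as a chain of left ideals, and
the inequality for functions of tuples of left ideals.
-/

set_option linter.all false

noncomputable section

namespace Vale.Agent.P022D.Rep

open Classical Module

variable {K Γ : Type} [Field K] [Group Γ] [Fintype K] [Fintype Γ]

section ideals

variable {R : Type} [CommRing R] (D : BN K Γ) (C : Ch K R)

/-- the vectors killed by `Ig` are the Whittaker vectors -/
def Ig : Submodule (MonoidAlgebra R Γ) (MonoidAlgebra R Γ) := Submodule.span _ {1 - ee D C 1}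

/-- the augmentation ideal -/
def It (R Γ : Type) [CommRing R] [Group Γ] : Submodule (MonoidAlgebra R Γ) (MonoidAlgebra R Γ) :=
  Submodule.span _ (Set.range fun g : Γ => el R g - 1)

/-- the vectors killed by `Ib` are the Borel invariants -/
def Ib (R : Type) [CommRing R] : Submodule (MonoidAlgebra R Γ) (MonoidAlgebra R Γ) :=
  Submodule.span _ (Set.range fun b : D.B => el R (b : Γ) - 1)

/-- the annihilator of the Whittaker vector of `Pib` -/
def Ip : Submodule (MonoidAlgebra R Γ) (MonoidAlgebra R Γ) where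
  carrier := {r | ∀ a : MonoidAlgebra R Γ, chi D C (a * r) = 0}
  zero_mem' := by
    intro a
    simp [chi]
  add_mem' := by
    intro x y hx hy a
    rw [mul_add, chi_add, hx a, hy a, add_zero]
  smul_mem' := by
    intro b x hx a
    have h := hx (a * b)
    rw [mul_assoc] at h
    exact h

end ideals

/-- `N` is additive on the sequences given by a left ideal `a`, an element `x` and `I = (a : x)` -/
def Stp {A : Type} [Ring A] (N : Submodule A A → ℕ∞) : Prop :=
  ∀ (a I : Submodule A A) (x : A), (∀ r, r * x ∈ a ↔ r ∈ I) →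
    N a = N (a ⊔ Submodule.span A {x}) + N I

variable {F : Type} [Field F] [CharP F 2] {D : BN K Γ} {C : Ch K F}

theorem simple_gen {X : Type} [AddCommGroup X] [Module F X] [Module (MonoidAlgebra F Γ) X]
    [IsScalarTower F (MonoidAlgebra F Γ) X] [IsSimpleModule (MonoidAlgebra F Γ) X]
    (h : InC D C X) : ∃ s : X, (∀ x : X, ∃ a : MonoidAlgebra F Γ, a • s = x) ∧
      (((∀ r : MonoidAlgebra F Γ, r • s = 0 ↔ r ∈ It F Γ) ∧ dm F (ee D C 0) X = 1 ∧
        dm F (ee D C 1) X = 0) ∨
      ((∀ r : MonoidAlgebra F Γ, r • s = 0 ↔ r ∈ Ip D C) ∧ dm F (ee D C 0) X = 0 ∧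
        dm F (ee D C 1) X = 1)) := by
  rcases simple_cases h with ⟨⟨e⟩, h2, h3⟩ | ⟨⟨e⟩, h2, h3⟩
  · refine ⟨e (Submodule.Quotient.mk 1), fun x => ?_, Or.inl ⟨fun r => ?_, h2, h3⟩⟩
    · obtain ⟨y, rfl⟩ := e.surjective x
      obtain ⟨a, rfl⟩ := Submodule.Quotient.mk_surjective _ y
      exact ⟨a, by rw [← map_smul, ← Submodule.Quotient.mk_smul, smul_eq_mul, mul_one]⟩
    · rw [← map_smul, e.map_eq_zero_iff, ← Submodule.Quotient.mk_smul, smul_eq_mul, mul_one,
        Submodule.Quotient.mk_eq_zero]
      rfl
  · have he : ee D C 1 ∈ GG D C := Submodule.mem_span_singleton_self _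
    refine ⟨e (Submodule.Quotient.mk ⟨_, he⟩), fun x => ?_, Or.inr ⟨fun r => ?_, h2, h3⟩⟩
    · obtain ⟨y, rfl⟩ := e.surjective x
      obtain ⟨z, rfl⟩ := Submodule.Quotient.mk_surjective _ y
      obtain ⟨a, ha⟩ := Submodule.mem_span_singleton.1 z.2
      refine ⟨a, ?_⟩
      rw [← map_smul, ← Submodule.Quotient.mk_smul]
      congr 2
      exact Subtype.ext ha
    · rw [← map_smul, e.map_eq_zero_iff, ← Submodule.Quotient.mk_smul,
        Submodule.Quotient.mk_eq_zero]
      show (∀ a, chi D C (a * (r * ee D C 1)) = 0) ↔ ∀ a, chi D C (a * r) = 0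
      simp only [← mul_assoc, chi_mul_ee]

theorem stp_mod {N : Submodule (MonoidAlgebra F Γ) (MonoidAlgebra F Γ) → ℕ∞} (hN : Stp N)
    (X : Type) [AddCommGroup X] [Module F X] [Module (MonoidAlgebra F Γ) X]
    [IsScalarTower F (MonoidAlgebra F Γ) X] [Module.Finite F X] (h : InC D C X)
    (a : Submodule (MonoidAlgebra F Γ) (MonoidAlgebra F Γ))
    (j : X →ₗ[MonoidAlgebra F Γ] MonoidAlgebra F Γ ⧸ a) (hj : Function.Injective j) :
    dm F (ee D C 0) X • N (It F Γ) + dm F (ee D C 1) X • N (Ip D C) ≤ N a := by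
  revert h a
  refine mod_ind (F := F) (A := MonoidAlgebra F Γ) (fun X _ _ _ _ => InC D C X →
    ∀ (a : Submodule (MonoidAlgebra F Γ) (MonoidAlgebra F Γ))
      (j : X →ₗ[MonoidAlgebra F Γ] MonoidAlgebra F Γ ⧸ a), Function.Injective j →
      dm F (ee D C 0) X • N (It F Γ) + dm F (ee D C 1) X • N (Ip D C) ≤ N a) ?_ X
  intro X _ _ _ _ _ ih h a j hj
  rcases subsingleton_or_nontrivial X with hX | hX
  · rw [dm, dm, finrank_zero_of_subsingleton, finrank_zero_of_subsingleton,
      zero_smul, zero_smul, add_zero]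
    exact zero_le
  · obtain ⟨S, hS, hsim⟩ := ex_simple (F := F) (A := MonoidAlgebra F Γ) X
    obtain ⟨s, hs, hcase⟩ := simple_gen (h.inj S.subtype S.injective_subtype)
    obtain ⟨x, hx⟩ := Submodule.Quotient.mk_surjective a (j s)
    set a' := a ⊔ Submodule.span (MonoidAlgebra F Γ) {x} with ha'
    let p : (MonoidAlgebra F Γ ⧸ a) →ₗ[MonoidAlgebra F Γ] MonoidAlgebra F Γ ⧸ a' :=
      Submodule.factor le_sup_left
    have hker : LinearMap.ker (p.comp j) = S := by
      ext y
      obtain ⟨z, hz⟩ := Submodule.Quotient.mk_surjective a (j y)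
      have e : p.comp j y = Submodule.Quotient.mk z := by
        rw [LinearMap.comp_apply, ← hz]
        rfl
      rw [LinearMap.mem_ker, e, Submodule.Quotient.mk_eq_zero]
      constructor
      · intro hz'
        obtain ⟨u, hu, v, hv, rfl⟩ := Submodule.mem_sup.1 hz'
        obtain ⟨r, rfl⟩ := Submodule.mem_span_singleton.1 hv
        have e2 : j y = j (r • (s : X)) := by
          rw [← hz, Submodule.Quotient.mk_add, (Submodule.Quotient.mk_eq_zero a).2 hu, zero_add,
            Submodule.Quotient.mk_smul, hx, map_smul]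
        rw [hj e2]
        exact S.smul_mem r s.2
      · intro hy
        obtain ⟨r, hr⟩ := hs ⟨y, hy⟩
        have hr' : r • (s : X) = y := congrArg Subtype.val hr
        have e2 : (Submodule.Quotient.mk z : MonoidAlgebra F Γ ⧸ a) =
            Submodule.Quotient.mk (r • x) := by
          rw [hz, ← hr', map_smul, Submodule.Quotient.mk_smul, hx]
        have e3 := (Submodule.Quotient.eq a).1 e2
        have e4 : z = (z - r • x) + r • x := by abel
        rw [e4]
        exact Submodule.add_mem_sup e3 (Submodule.mem_span_singleton.2 ⟨r, rfl⟩)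
    have h1 := ih S hS (h.surj S.mkQ S.mkQ_surjective) a' (S.liftQ (p.comp j) hker.ge)
      (by rw [← LinearMap.ker_eq_bot]; exact Submodule.ker_liftQ_eq_bot _ _ _ hker.le)
    have hcol : ∀ r : MonoidAlgebra F Γ, r * x ∈ a ↔ r • s = 0 := by
      intro r
      rw [← Submodule.Quotient.mk_eq_zero, ← smul_eq_mul, Submodule.Quotient.mk_smul, hx,
        ← map_smul, map_eq_zero_iff j hj]
      exact ⟨fun e => Subtype.ext e, fun e => congrArg Subtype.val e⟩
    rw [dm_sub (ee_idem D C 0) S, dm_sub (ee_idem D C 1) S, add_smul, add_smul]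
    rcases hcase with ⟨h2, h3, h4⟩ | ⟨h2, h3, h4⟩
    · rw [hN a _ x fun r => (hcol r).trans (h2 r), h3, h4, one_smul, zero_smul, zero_add,
        add_assoc, add_comm]
      exact add_le_add h1 le_rfl
    · rw [hN a _ x fun r => (hcol r).trans (h2 r), h3, h4, one_smul, zero_smul, zero_add,
        add_comm (N (Ip D C)), ← add_assoc]
      exact add_le_add h1 le_rfl

/-- the multiplicities of one place -/
def Mul (D : BN K Γ) (C : Ch K F) (m1 m2 : ℕ) : Prop :=
  ∀ N : Submodule (MonoidAlgebra F Γ) (MonoidAlgebra F Γ) → ℕ∞, Stp N →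
    m1 • N (It F Γ) + m2 • N (Ip D C) ≤ N (Ig D C)

variable (D C) in
theorem mul_of {a b c u w m : ℕ} (hu : Odd u) (hw : Odd w) (h1 : Fintype.card K = 2 ^ a * u + 1)
    (h2 : Fintype.card K + 1 = 2 ^ b * w) (ha : 1 ≤ a) (hm : Odd m)
    (hT : Nat.card D.tH.range = 2 ^ (a + c) * m) (hG : 2 ^ (a + c + b) ∣ Nat.card Γ) :
    Mul D C (2 ^ (a + c)) ((2 ^ (a + c) + 2 ^ (c + b)) / 2) := by
  intro N hN
  obtain ⟨P, hP, hC, h3, h4⟩ := ex_P D C hu hw h1 h2 ha hm hT hG
  haveI : Module.Finite F P :=
    Module.Finite.of_injective (P.subtype.restrictScalars F) P.injective_subtype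
  have h5 := stp_mod hN P hC (Ig D C) ((Ig D C).mkQ.comp P.subtype) (by
    rw [injective_iff_map_eq_zero]
    intro x hx
    have hx' : (x : MonoidAlgebra F Γ) ∈ Ig D C := (Submodule.Quotient.mk_eq_zero _).1 hx
    obtain ⟨r, hr⟩ := Submodule.mem_span_singleton.1 hx'
    obtain ⟨s, hs⟩ := Submodule.mem_span_singleton.1 (hP x.2)
    apply Subtype.ext
    have e1 : (x : MonoidAlgebra F Γ) * ee D C 1 = x := by
      rw [← hs, smul_eq_mul, mul_assoc, ee_idem]
    rw [← e1, ← hr, smul_eq_mul, mul_assoc, sub_mul, one_mul, ee_idem, sub_self, mul_zero]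
    rfl)
  rw [h3] at h5
  refine le_trans (add_le_add le_rfl ?_) h5
  exact nsmul_le_nsmul_left zero_le (by omega)

/-- several places: `g` (Whittaker), `t` (trivial), `p` (cuspidal) -/
theorem comb {ι : Type} [Fintype ι] {S : ι → Type} (g t p : ∀ i, S i) (m1 m2 : ι → ℕ)
    (N : (∀ i, S i) → ℕ∞)
    (h : ∀ (I : ∀ i, S i) (i : ι), m1 i • N (Function.update I i (t i)) +
      m2 i • N (Function.update I i (p i)) ≤ N (Function.update I i (g i))) :
    ∑ J : Finset ι, (∏ i, if i ∈ J then m2 i else m1 i) •
      N (fun i => if i ∈ J then p i else t i) ≤ N g := by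
  have key : ∀ s : Finset ι, ∑ J ∈ s.powerset, (∏ i ∈ s, if i ∈ J then m2 i else m1 i) •
      N (fun i => if i ∈ s then (if i ∈ J then p i else t i) else g i) ≤ N g := by
    intro s
    induction s using Finset.induction_on with
    | empty => simp
    | insert i s hi ih =>
      refine le_trans ?_ ih
      rw [Finset.sum_powerset_insert hi, ← Finset.sum_add_distrib]
      refine Finset.sum_le_sum fun J hJ => ?_
      have hiJ : i ∉ J := fun e => hi (Finset.mem_powerset.1 hJ e)
      have h1 := h (fun i => if i ∈ s then (if i ∈ J then p i else t i) else g i) i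
      have e0 : Function.update (fun i => if i ∈ s then (if i ∈ J then p i else t i) else g i) i
          (g i) = fun i => if i ∈ s then (if i ∈ J then p i else t i) else g i := by
        rw [Function.update_eq_self_iff, if_neg hi]
      have e1 : Function.update (fun i => if i ∈ s then (if i ∈ J then p i else t i) else g i) i
          (t i) = fun k => if k ∈ insert i s then (if k ∈ J then p k else t k) else g k := by
        funext k
        by_cases hk : k = i
        · subst hk
          simp [hiJ]
        · simp [hk]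
      have e2 : Function.update (fun i => if i ∈ s then (if i ∈ J then p i else t i) else g i) i
          (p i) =
          fun k => if k ∈ insert i s then (if k ∈ insert i J then p k else t k) else g k := by
        funext k
        by_cases hk : k = i
        · subst hk
          simp
        · simp [hk]
      have e3 : (∏ k ∈ s, if k ∈ insert i J then m2 k else m1 k) =
          ∏ k ∈ s, if k ∈ J then m2 k else m1 k := by
        refine Finset.prod_congr rfl fun k hk => ?_
        have : k ≠ i := fun e => hi (e ▸ hk)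
        simp [this]
      rw [e0, e1, e2] at h1
      rw [Finset.prod_insert hi, Finset.prod_insert hi, if_neg hiJ,
        if_pos (Finset.mem_insert_self i J), e3, mul_comm (m1 i), mul_comm (m2 i), mul_smul,
        mul_smul, ← smul_add]
      exact nsmul_le_nsmul_right h1 _
  have h1 := key Finset.univ
  simpa using h1

end Vale.Agent.P022D.Rep
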