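import Mathlib

/-!
P022D, block REP: trace one operators descend to eigenspaces of normal subgroups.
-/

set_option linter.all false

noncomputable section

namespace Vale.Agent.P022D.Rep

open Classical

variable {O V G N Γ : Type} [CommRing O] [AddCommGroup V] [Module O V] [Group G] [Fintype G]
  [Group N] [Fintype N] [Group Γ] [Fintype Γ]

/-- a trace one operator on the submodule `X` -/
def Tr1 (ρ : G →* Module.End O V) (X : Submodule O V) : Prop :=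
  ∃ μ : Module.End O V, (∀ v ∈ X, μ v ∈ X) ∧ ∀ v ∈ X, ∑ g, ρ g (μ (ρ g⁻¹ v)) = v

/-- restriction to a subgroup -/
theorem Tr1.res {ρ : G →* Module.End O V} {X : Submodule O V} (h : Tr1 ρ X)
    (hX : ∀ g, ∀ v ∈ X, ρ g v ∈ X) (j : N →* G) (hj : Function.Injective j) :
    Tr1 (ρ.comp j) X := by
  obtain ⟨μ, h1, h2⟩ := h
  refine ⟨∑ q : G ⧸ j.range, ρ q.out⁻¹ * μ * ρ q.out, fun v hv => ?_, fun v hv => ?_⟩
  · rw [LinearMap.sum_apply]
    exact X.sum_mem fun q _ => hX _ _ (h1 _ (hX _ _ hv))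
  · conv_rhs => rw [← h2 v hv]
    simp only [MonoidHom.comp_apply, LinearMap.sum_apply, map_sum, Module.End.mul_apply]
    rw [← Finset.sum_product']
    refine Fintype.sum_bijective (fun p : N × (G ⧸ j.range) => j p.1 * p.2.out⁻¹) ⟨?_, ?_⟩ _ _
      fun p => ?_
    · rintro ⟨a, q⟩ ⟨a', q'⟩ e
      have e' : j a * q.out⁻¹ = j a' * q'.out⁻¹ := e
      have hq : q = q' := by
        rw [← q.out_eq', ← q'.out_eq', QuotientGroup.eq]
        refine ⟨a⁻¹ * a', ?_⟩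
        rw [map_mul, map_inv, inv_mul_eq_iff_eq_mul, ← mul_assoc, e', inv_mul_cancel_right]
      subst hq
      exact Prod.ext (hj (mul_right_cancel e')) rfl
    · intro g
      obtain ⟨⟨_, a, rfl⟩, ha⟩ := QuotientGroup.mk_out_eq_mul j.range g⁻¹
      refine ⟨⟨a, QuotientGroup.mk g⁻¹⟩, ?_⟩
      show j a * (QuotientGroup.mk g⁻¹ : G ⧸ j.range).out⁻¹ = g
      rw [ha, mul_inv_rev, inv_inv]
      exact mul_inv_cancel_left _ _
    · rw [map_mul, Module.End.mul_apply, mul_inv_rev, inv_inv, map_mul, Module.End.mul_apply,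
        map_inv j]

/-- the eigenspace of the kernel of `p` -/
def Eig (ρ : N →* Module.End O V) (X : Submodule O V) (p : N →* Γ) (χ : N →* O) :
    Submodule O V where
  carrier := {v | v ∈ X ∧ ∀ n, p n = 1 → ρ n v = χ n • v}
  zero_mem' := ⟨X.zero_mem, fun n _ => by rw [map_zero, smul_zero]⟩
  add_mem' := fun {a b} h h' => ⟨X.add_mem h.1 h'.1, fun n hn => by
    rw [map_add, h.2 n hn, h'.2 n hn, smul_add]⟩
  smul_mem' := fun c v h => ⟨X.smul_mem c h.1, fun n hn => by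
    rw [map_smul, h.2 n hn, smul_comm]⟩

theorem mem_Eig {ρ : N →* Module.End O V} {X : Submodule O V} {p : N →* Γ} {χ : N →* O} {v : V} :
    v ∈ Eig ρ X p χ ↔ v ∈ X ∧ ∀ n, p n = 1 → ρ n v = χ n • v := Iff.rfl

theorem Eig.stab {ρ : N →* Module.End O V} {X : Submodule O V} (hX : ∀ g, ∀ v ∈ X, ρ g v ∈ X)
    {p : N →* Γ} {χ : N →* O} (g : N) {v : V} (hv : v ∈ Eig ρ X p χ) : ρ g v ∈ Eig ρ X p χ := by
  refine ⟨hX g v hv.1, fun n hn => ?_⟩
  have e : n * g = g * (g⁻¹ * n * g) := by group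
  have e2 : χ (g⁻¹ * n * g) = χ n := by
    rw [map_mul, map_mul, mul_comm (χ g⁻¹), mul_assoc, ← map_mul, inv_mul_cancel, map_one, mul_one]
  rw [← Module.End.mul_apply, ← map_mul, e, map_mul, Module.End.mul_apply,
    hv.2 _ (by rw [map_mul, map_mul, hn, mul_one, ← map_mul, inv_mul_cancel, map_one]), map_smul,
    e2]

/-- **descent to the eigenspace** -/
theorem Tr1.desc {ρ : N →* Module.End O V} {X : Submodule O V} (h : Tr1 ρ X)
    (hX : ∀ g, ∀ v ∈ X, ρ g v ∈ X) (p : N →* Γ) (χ : N →* O) :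
    ∃ θ : Module.End O V, (∀ v ∈ X, θ v ∈ Eig ρ X p χ) ∧ ∀ s : Γ → N, (∀ γ, p (s γ) = γ) →
      ∀ v ∈ Eig ρ X p χ, ∑ γ, ρ (s γ) (θ (ρ (s γ)⁻¹ v)) = v := by
  obtain ⟨μ, h1, h2⟩ := h
  have hθ : ∀ v, (∑ k : p.ker, χ (k : N)⁻¹ • (ρ k * μ)) v =
      ∑ k : p.ker, χ (k : N)⁻¹ • ρ k (μ v) := fun v => by
    rw [LinearMap.sum_apply]
    rfl
  refine ⟨∑ k : p.ker, χ (k : N)⁻¹ • (ρ k * μ), fun v hv => ⟨?_, fun n hn => ?_⟩,
    fun s hs v hv => ?_⟩
  · rw [hθ]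
    exact X.sum_mem fun k _ => X.smul_mem _ (hX _ _ (h1 v hv))
  · rw [hθ, map_sum, Finset.smul_sum]
    refine Fintype.sum_equiv (Equiv.mulLeft (⟨n, hn⟩ : p.ker)) _ _ fun k => ?_
    rw [Equiv.coe_mulLeft, Subgroup.coe_mul, map_smul, smul_smul, ← map_mul χ, mul_inv_rev,
      map_mul ρ, Module.End.mul_apply, map_mul χ, map_mul χ, mul_comm (χ (k : N)⁻¹), ← mul_assoc,
      ← map_mul χ, mul_inv_cancel, map_one, one_mul]
  · conv_rhs => rw [← h2 v hv.1]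
    simp only [hθ, map_sum]
    rw [← Finset.sum_product']
    refine Fintype.sum_bijective (fun x : Γ × p.ker => s x.1 * (x.2 : N)) ⟨?_, ?_⟩ _ _
      fun x => ?_
    · rintro ⟨a, k⟩ ⟨a', k'⟩ e
      have e' : s a * (k : N) = s a' * (k' : N) := e
      have e1 := congrArg p e'
      rw [map_mul, map_mul, hs, hs, k.2, k'.2, mul_one, mul_one] at e1
      subst e1
      exact Prod.ext rfl (Subtype.ext (mul_left_cancel e'))
    · intro n
      refine ⟨⟨p n, ⟨(s (p n))⁻¹ * n, ?_⟩⟩, mul_inv_cancel_left _ _⟩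
      rw [MonoidHom.mem_ker, map_mul, map_inv, hs, inv_mul_cancel]
    · rw [map_mul, Module.End.mul_apply, mul_inv_rev, map_mul, Module.End.mul_apply,
        (Eig.stab hX (s x.1)⁻¹ hv).2 _ (p.ker.inv_mem x.2.2)]
      simp only [map_smul]

/-- **invariants are norms in the eigenspace** -/
theorem Tr1.norm {ρ : N →* Module.End O V} {X : Submodule O V} (h : Tr1 ρ X)
    (hX : ∀ g, ∀ v ∈ X, ρ g v ∈ X) (p : N →* Γ) (χ : N →* O) (S : Subgroup Γ) (t : Finset Γ)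
    (ht : ∀ γ, γ ∈ t ↔ γ ∈ S) (s : Γ → N) (hs : ∀ γ ∈ S, p (s γ) = γ) {v : V} (hv : v ∈ X)
    (hf : ∀ n, p n ∈ S → ρ n v = χ n • v) :
    ∃ v' ∈ Eig ρ X p χ, v = ∑ γ ∈ t, χ (s γ)⁻¹ • ρ (s γ) v' := by
  obtain ⟨θ, h1, h2⟩ := (h.res hX (S.comap p).subtype Subtype.val_injective).desc
    (fun g => hX g) (p.subgroupComap S) (χ.comp (S.comap p).subtype)
  have h3 := h2 (fun γ => ⟨s γ, by
    show p (s γ) ∈ S
    rw [hs γ γ.2]
    exact γ.2⟩) (fun γ => Subtype.ext (hs γ γ.2)) v ⟨hv, fun n _ => hf n n.2⟩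
  refine ⟨θ v, ⟨(h1 v hv).1, fun n hn => (h1 v hv).2 ⟨n, by
    show p n ∈ S
    rw [hn]
    exact S.one_mem⟩ (Subtype.ext hn)⟩, ?_⟩
  rw [Finset.sum_subtype t ht fun γ => χ (s γ)⁻¹ • ρ (s γ) (θ v)]
  refine h3.symm.trans (Finset.sum_congr rfl fun γ _ => ?_)
  show ρ (s γ) (θ (ρ (s γ)⁻¹ v)) = _
  rw [hf _ (by rw [map_inv, hs γ γ.2]; exact S.inv_mem γ.2), map_smul, map_smul]

end Vale.Agent.P022D.Rep
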